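import Vale.Agent.P110.Basic
import Mathlib.RingTheory.Coprime.Lemmas
import Mathlib.Data.Fintype.EquivFin
import Mathlib.Algebra.BigOperators.Field

/-! Arithmetic tools: quadratic Gauss sums, Chinese remainders, placement of slots. -/

namespace Vale.Agent.P110

open Complex Finset

theorem sum_shift {M : ℕ} (f : ℤ → ℂ) (hf : ∀ k, f (k + M) = f k) (h : ℕ) :
    ∑ k ∈ range M, f (k + h) = ∑ k ∈ range M, f k := by
  induction h with
  | zero => simp
  | succ h ih =>
    rw [← ih]
    have h1 := sum_range_succ (fun k : ℕ => f (k + h)) M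
    have h2 := sum_range_succ' (fun k : ℕ => f (k + h)) M
    have h3 : f ((M : ℤ) + h) = f (((0 : ℕ) : ℤ) + h) := by
      rw [← hf (((0 : ℕ) : ℤ) + h)]; congr 1; push_cast; ring
    rw [h1, h3] at h2
    rw [add_right_cancel h2]
    refine sum_congr rfl fun k _ => ?_
    congr 1; push_cast; ring

theorem gauss_norm {M : ℕ} (hM : 0 < M) {w : ℤ} (hw : IsCoprime (2 * w) (M : ℤ)) (η : ℤ) :
    ‖∑ k ∈ range M, E ((w * k ^ 2 + η * k) / M)‖ ^ 2 = M := by
  have hM' : (M : ℝ) ≠ 0 := by positivity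
  let f : ℤ → ℂ := fun k => E ((w * k ^ 2 + η * k) / M)
  have hf : ∀ k, f (k + M) = f k := by
    intro k
    simp only [f]
    rw [← E_add_int ((w * k ^ 2 + η * k) / M) (w * (2 * k + M) + η)]
    congr 1; push_cast; field_simp; ring
  apply Complex.ofReal_injective
  rw [normSq_eq, map_sum, mul_sum]
  have h1 : ∀ l ∈ range M, (∑ k ∈ range M, E ((w * k ^ 2 + η * k) / M)) *
      (starRingEnd ℂ) (E ((w * l ^ 2 + η * l) / M)) =
      ∑ h ∈ range M, f h * E (l * (((2 * w * h : ℤ) : ℝ) / M)) := by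
    intro l _
    have := sum_shift f hf l
    simp only [f, Int.cast_natCast] at this
    rw [← this, sum_mul]
    refine sum_congr rfl fun h _ => ?_
    simp only [f]
    rw [← E_neg, ← E_add, ← E_add]
    congr 1; push_cast; field_simp; ring
  rw [sum_congr rfl h1, sum_comm]
  simp only [← mul_sum, sum_E_orth hM]
  rw [sum_eq_single 0]
  · simp [f]
  · intro h hh h0
    rw [if_neg, mul_zero]
    intro hd
    have h2 : (M : ℤ) ∣ (h : ℤ) - (0 : ℕ) := by simpa using hw.symm.dvd_of_dvd_mul_left hd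
    exact h0 ((dvd_iff_of_lt (mem_range.1 hh) hM).1 h2)
  · intro h; exact absurd (mem_range.2 hM) h

/-- flat discrete Fourier expansion of a quadratic phase -/
theorem gauss_expand {M : ℕ} (hM : 0 < M) {w : ℤ} (hw : IsCoprime (2 * w) (M : ℤ)) :
    ∃ c : ℕ → ℂ, (∀ η, ‖c η‖ = 1) ∧ ∀ k : ℤ,
      ∑ η ∈ range M, c η * E (-(k * η / M)) = (√(M : ℝ) : ℝ) * E (w * k ^ 2 / M) := by
  have hM' : (0 : ℝ) < M := by positivity
  have hs : (0 : ℝ) < √(M : ℝ) := by positivity
  refine ⟨fun η => (∑ k ∈ range M, E ((w * k ^ 2 + (η : ℤ) * k) / M)) / (√(M : ℝ) : ℝ),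
    fun η => ?_, fun k => ?_⟩
  · have := gauss_norm hM hw η
    rw [norm_div, norm_real, Real.norm_eq_abs, abs_of_pos hs, div_eq_one_iff_eq hs.ne']
    have h := Real.sqrt_sq (norm_nonneg (∑ k ∈ range M, E ((w * k ^ 2 + (η : ℤ) * k) / M)))
    rw [this] at h
    exact h.symm
  · have h1 : ∀ η : ℕ, (∑ l ∈ range M, E ((w * l ^ 2 + (η : ℤ) * l) / M)) / (√(M : ℝ) : ℝ) *
        E (-(k * η / M)) =
        (∑ l ∈ range M, E (w * l ^ 2 / M) * E (η * ((((l : ℤ) - k : ℤ) : ℝ) / M))) /
          (√(M : ℝ) : ℝ) := by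
      intro η
      rw [div_mul_eq_mul_div, sum_mul]
      congr 1
      refine sum_congr rfl fun l _ => ?_
      rw [← E_add, ← E_add]
      congr 1; push_cast; ring
    simp only [h1]
    rw [← sum_div, sum_comm]
    simp only [← mul_sum, sum_E_orth hM]
    have hM0 : (0 : ℤ) < M := by exact_mod_cast hM
    obtain ⟨l0, hl0⟩ := Int.eq_ofNat_of_zero_le (Int.emod_nonneg k hM0.ne')
    have hl1 : l0 < M := by have := Int.emod_lt_of_pos k hM0; omega
    have hk : k = l0 + M * (k / M) := by rw [← hl0]; exact (Int.emod_add_mul_ediv k M).symm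
    rw [sum_eq_single l0]
    · rw [if_pos ⟨-(k / M), by linarith⟩, div_eq_iff (by exact_mod_cast hs.ne')]
      have h2 : E (w * k ^ 2 / M) = E (w * l0 ^ 2 / M) := by
        rw [← E_add_int (w * l0 ^ 2 / M) (w * (2 * l0 * (k / M) + M * (k / M) ^ 2))]
        congr 1
        set q := k / M
        have : (k : ℝ) = l0 + M * q := by exact_mod_cast hk
        rw [this]; push_cast; field_simp; ring
      have h3 : ((√(M : ℝ) : ℝ) : ℂ) * (√(M : ℝ) : ℝ) = M := by
        rw [← ofReal_mul, Real.mul_self_sqrt hM'.le]; simp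
      rw [h2, ← h3]; ring
    · intro l hl h0
      rw [if_neg, mul_zero]
      intro hd
      refine h0 ((dvd_iff_of_lt (mem_range.1 hl) hl1).1 ?_)
      have : (l : ℤ) - l0 = (l - k) + M * (k / M) := by linarith
      rw [this]
      exact dvd_add hd (dvd_mul_right _ _)
    · intro h; exact absurd (mem_range.2 hl1) h

theorem fiber_inj {Ω Y : Type} [Fintype Ω] [DecidableEq Y] (key : Ω → Y) {h : ℕ}
    (hh : ∀ y, (univ.filter fun x => key x = y).card ≤ h) :
    ∃ ρ : Ω → ℕ, (∀ x, ρ x < h) ∧ ∀ x y, key x = key y → ρ x = ρ y → x = y := by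
  classical
  let e := Fintype.equivFin Ω
  refine ⟨fun x => (univ.filter fun y => key y = key x ∧ e y < e x).card, fun x => ?_,
    fun x y hk hρ => ?_⟩
  · refine lt_of_lt_of_le (card_lt_card ⟨fun y hy => ?_, fun hsub => ?_⟩) (hh (key x))
    · simp only [mem_filter, mem_univ, true_and] at hy ⊢; exact hy.1
    · have := hsub (mem_filter.2 ⟨mem_univ x, rfl⟩)
      simp at this
  · have aux : ∀ x y, key x = key y → e x < e y →
        (univ.filter fun z => key z = key x ∧ e z < e x).card <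
          (univ.filter fun z => key z = key y ∧ e z < e y).card := by
      intro x y hk hlt
      refine card_lt_card ⟨fun z hz => ?_, fun hsub => ?_⟩
      · simp only [mem_filter, mem_univ, true_and] at hz ⊢
        exact ⟨hz.1.trans hk, hz.2.trans hlt⟩
      · have := hsub (mem_filter.2 ⟨mem_univ x, hk, hlt⟩)
        simp at this
    rcases lt_trichotomy (e x) (e y) with h1 | h1 | h1
    · exact absurd hρ (aux x y hk h1).ne
    · exact e.injective h1
    · exact absurd hρ (aux y x hk.symm h1).ne'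

section crt

variable {ι : Type} [Fintype ι] [DecidableEq ι] {l : ι → ℕ}

/-- cofactor -/
def cof (l : ι → ℕ) (i : ι) : ℕ := ∏ j ∈ univ.erase i, l j

theorem mul_cof (i : ι) : l i * cof l i = ∏ j, l j := mul_prod_erase _ _ (mem_univ i)

theorem dvd_cof {i j : ι} (h : i ≠ j) : (l i : ℤ) ∣ cof l j := by
  exact_mod_cast dvd_prod_of_mem l (mem_erase.2 ⟨h, mem_univ i⟩)

theorem coprime_cof {m : ℤ} {i : ι} (h : ∀ j, j ≠ i → IsCoprime m (l j : ℤ)) :
    IsCoprime m (cof l i : ℤ) := by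
  unfold cof
  push_cast
  exact IsCoprime.prod_right fun j hj => h j (mem_erase.1 hj).1

theorem dvd_sum_cof (m : ι → ℤ) (i : ι) : (l i : ℤ) ∣ ∑ j, m j * cof l j - m i * cof l i := by
  rw [← add_sum_erase _ _ (mem_univ i), add_sub_cancel_left]
  exact dvd_sum fun j hj => (dvd_cof (mem_erase.1 hj).1.symm).mul_left _

theorem crt (hl : ∀ i j, i ≠ j → IsCoprime (l i : ℤ) (l j)) (a : ι → ℤ)
    (ha : ∀ i, IsCoprime (l i : ℤ) (a i)) (y : ι → ℤ) :
    ∃ z : ℤ, ∀ i, (l i : ℤ) ∣ a i * z - y i := by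
  have h1 : ∀ i, ∃ m : ℤ, (l i : ℤ) ∣ a i * (m * cof l i) - y i := by
    intro i
    obtain ⟨u, v, huv⟩ := (ha i).mul_right (coprime_cof fun j hj => hl i j hj.symm)
    exact ⟨v * y i, -u * y i, by linear_combination y i * huv⟩
  choose m hm using h1
  refine ⟨∑ j, m j * cof l j, fun i => ?_⟩
  have := dvd_add ((dvd_sum_cof (l := l) m i).mul_left (a i)) (hm i)
  have e : a i * (∑ j, m j * cof l j - m i * cof l i) + (a i * (m i * cof l i) - y i) =
      a i * ∑ j, m j * cof l j - y i := by ring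
  rwa [e] at this

end crt

theorem coprime_ell (A T : ℕ) {m : ℤ} (hm : m ≠ 0) (hT : m.natAbs ≤ T) :
    IsCoprime ((2 * (A * T.factorial) + 1 : ℕ) : ℤ) m := by
  obtain ⟨q, hq⟩ : m ∣ (T.factorial : ℤ) := by
    rw [← Int.natAbs_dvd]
    exact_mod_cast Nat.dvd_factorial (Int.natAbs_pos.2 hm) hT
  exact ⟨1, -(2 * A * q), by push_cast; rw [hq]; ring⟩

theorem coprime_ell_ell {A A' T : ℕ} (h : A ≠ A') (hA : A ≤ T) (hA' : A' ≤ T) :
    IsCoprime ((2 * (A * T.factorial) + 1 : ℕ) : ℤ) ((2 * (A' * T.factorial) + 1 : ℕ) : ℤ) := by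
  obtain ⟨u, v, huv⟩ := coprime_ell A T (m := (A' : ℤ) - A) (by omega) (by omega)
  exact ⟨u + v * A', -(v * A), by push_cast at huv ⊢; linear_combination huv⟩

theorem card_slot {a L : ℕ} (ha : 0 < a) (haL : a ∣ L) (f : ℕ) :
    (univ.filter fun s : Fin L => (s * a) % L = f).card ≤ a := by
  obtain ⟨L', rfl⟩ := haL
  refine (card_le_card_of_injOn (t := range a) (fun s : Fin (a * L') => (s : ℕ) / L')
    (fun s _ => ?_) fun s hs t ht hst => ?_).trans_eq (card_range a)
  · simp only [coe_range, Set.mem_Iio]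
    exact Nat.div_lt_of_lt_mul (s.2.trans_eq (mul_comm _ _))
  · have h1 := (mem_filter.1 hs).2
    have h2 := (mem_filter.1 ht).2
    rw [mul_comm (s : ℕ), Nat.mul_mod_mul_left] at h1
    rw [mul_comm (t : ℕ), Nat.mul_mod_mul_left] at h2
    have h3 := Nat.eq_of_mul_eq_mul_left ha (h1.trans h2.symm)
    have h4 : (s : ℕ) / L' = t / L' := hst
    apply Fin.ext
    rw [← Nat.div_add_mod s L', ← Nat.div_add_mod t L', h3, h4]

/-- placing slots and mirrored slots in the first half of the circle -/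
theorem placement {B : Type} (L R : ℕ) (Y f a : B → ℕ) (hY : ∀ b, Y b < R)
    (hf : ∀ b, f b + a b ≤ L)
    (P1 : ∀ b b', b ≠ b' → Y b = Y b' → f b + a b ≤ f b' ∨ f b' + a b' ≤ f b)
    (P2 : ∀ b b', Y b + Y b' + 1 ≠ R) :
    ∃ (Z : B → ℕ) (ς : B → Bool), (∀ b, 2 * (Z b + a b) ≤ L * R) ∧
      (∀ b b', b ≠ b' → Z b + a b ≤ Z b' ∨ Z b' + a b' ≤ Z b) ∧
      ∀ b, ((L * R : ℕ) : ℤ) ∣ (L * Y b + f b : ℕ) -
        (if ς b then (Z b : ℤ) else -((Z b : ℤ) + a b)) := by
  let Y' : B → ℕ := fun b => if 2 * Y b + 1 < R then Y b else R - 1 - Y b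
  let f' : B → ℕ := fun b => if 2 * Y b + 1 < R then f b else L - f b - a b
  have h1 : ∀ b, 2 * Y' b + 2 ≤ R := fun b => by
    have := P2 b b; have := hY b
    simp only [Y']; split_ifs <;> omega
  have h2 : ∀ b, f' b + a b ≤ L := fun b => by
    have := hf b
    simp only [f']; split_ifs <;> omega
  have h3 : ∀ b b', Y' b < Y' b' → L * Y' b + f' b + a b ≤ L * Y' b' + f' b' := by
    intro b b' h
    have := Nat.mul_le_mul_left L (show Y' b + 1 ≤ Y' b' from h)
    have := h2 b
    rw [mul_add] at *; omega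
  refine ⟨fun b => L * Y' b + f' b, fun b => decide (2 * Y b + 1 < R), fun b => ?_,
    fun b b' hb => ?_, fun b => ?_⟩
  · have := Nat.mul_le_mul_left L (h1 b)
    have := h2 b
    beta_reduce
    nlinarith
  · beta_reduce
    rcases lt_trichotomy (Y' b) (Y' b') with h | h | h
    · exact Or.inl (h3 b b' h)
    · rw [h]
      have := P1 b b' hb; have := P2 b b'; have := hY b; have := hY b'
      have := hf b; have := hf b'
      simp only [Y', f'] at h ⊢
      split_ifs at h ⊢ <;> omega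
    · exact Or.inr (h3 b' b h)
  · have := hY b; have := hf b
    simp only [Y', f', decide_eq_true_eq]
    split_ifs with h
    · simp
    · refine ⟨1, ?_⟩
      have e1 : ((R - 1 - Y b : ℕ) : ℤ) = R - 1 - Y b := by omega
      have e2 : ((L - f b - a b : ℕ) : ℤ) = L - f b - a b := by omega
      push_cast
      rw [e1, e2]; ring

end Vale.Agent.P110
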