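import Mathlib.Analysis.SpecialFunctions.Trigonometric.Bounds
import Mathlib.Analysis.SpecialFunctions.Complex.Log
import Mathlib.Analysis.SpecialFunctions.ExpDeriv
import Mathlib.Algebra.Field.GeomSum
import Mathlib.Analysis.Complex.RealDeriv
import Mathlib.Analysis.Real.Pi.Bounds

/-! The character `E x = exp (2 π i x)` and discrete orthogonality. -/

namespace Vale.Agent.P110

open Complex Finset

/-- the character `exp (2 π i x)` -/
noncomputable def E (x : ℝ) : ℂ := Complex.exp (I * ((2 * Real.pi * x : ℝ) : ℂ))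

theorem E_add (x y : ℝ) : E (x + y) = E x * E y := by
  unfold E; rw [← Complex.exp_add]; congr 1; push_cast; ring

@[simp] theorem E_zero : E 0 = 1 := by simp [E]

@[simp] theorem norm_E (x : ℝ) : ‖E x‖ = 1 := by
  unfold E; rw [mul_comm]; exact Complex.norm_exp_ofReal_mul_I _

theorem E_int (n : ℤ) : E n = 1 := by
  unfold E; rw [Complex.exp_eq_one_iff]; exact ⟨n, by push_cast; ring⟩

theorem E_nat (n : ℕ) : E n = 1 := by simpa using E_int n

theorem E_add_int (x : ℝ) (n : ℤ) : E (x + n) = E x := by rw [E_add, E_int, mul_one]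

theorem E_neg (x : ℝ) : E (-x) = (starRingEnd ℂ) (E x) := by
  unfold E; rw [← Complex.exp_conj]; congr 1
  rw [map_mul, Complex.conj_I, Complex.conj_ofReal]; push_cast; ring

theorem E_mul_neg (x : ℝ) : E x * E (-x) = 1 := by rw [← E_add]; simp

theorem E_ne_zero (x : ℝ) : E x ≠ 0 := Complex.exp_ne_zero _

theorem E_nat_mul (n : ℕ) (x : ℝ) : E (n * x) = E x ^ n := by
  induction n with
  | zero => simp
  | succ n ih => rw [pow_succ, ← ih, ← E_add]; congr 1; push_cast; ring

theorem E_eq_one_iff (x : ℝ) : E x = 1 ↔ ∃ n : ℤ, x = n := by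
  unfold E
  rw [Complex.exp_eq_one_iff]
  constructor
  · rintro ⟨n, hn⟩
    refine ⟨n, ?_⟩
    have h2 : (I * (2 * Real.pi)) * (x : ℂ) = (I * (2 * Real.pi)) * n := by
      push_cast at hn; linear_combination hn
    have h3 : (I * (2 * (Real.pi : ℂ))) ≠ 0 := by simp [Real.pi_ne_zero]
    exact_mod_cast mul_left_cancel₀ h3 h2
  · rintro ⟨n, rfl⟩
    exact ⟨n, by push_cast; ring⟩

theorem continuous_E : Continuous E := by unfold E; fun_prop

theorem hasDerivAt_E {f : ℝ → ℝ} {f' x : ℝ} (h : HasDerivAt f f' x) :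
    HasDerivAt (fun y => E (f y)) (E (f x) * (I * (2 * Real.pi * f'))) x := by
  unfold E
  have h1 : HasDerivAt (fun y => ((2 * Real.pi * f y : ℝ) : ℂ)) ((2 * Real.pi * f' : ℝ) : ℂ) x :=
    (h.const_mul (2 * Real.pi)).ofReal_comp
  have := (h1.const_mul I).cexp
  convert this using 1
  push_cast; ring

theorem norm_E_sub_one (x : ℝ) : ‖E x - 1‖ ≤ 7 * |x| := by
  unfold E
  refine (Real.norm_exp_I_mul_ofReal_sub_one_le).trans ?_
  rw [Real.norm_eq_abs, abs_mul, abs_of_pos (by positivity : 0 < 2 * Real.pi)]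
  have := Real.pi_le_four
  have := Real.pi_lt_d2
  nlinarith [abs_nonneg x]

theorem norm_E_sub (x y : ℝ) : ‖E x - E y‖ ≤ 7 * |x - y| := by
  have : E x - E y = E y * (E (x - y) - 1) := by
    rw [mul_sub, ← E_add]; simp
  rw [this, norm_mul, norm_E, one_mul]
  exact norm_E_sub_one _

theorem norm_E_sub_le_two (x y : ℝ) : ‖E x - E y‖ ≤ 2 := by
  refine (norm_sub_le _ _).trans ?_
  simp; norm_num

theorem four_mul_le_norm_E_sub_one {t : ℝ} (ht : |t| ≤ 1 / 2) : 4 * |t| ≤ ‖E t - 1‖ := by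
  unfold E
  rw [Complex.norm_exp_I_mul_ofReal_sub_one, Real.norm_eq_abs, abs_mul]
  have hp := Real.pi_pos
  have h1 : |2 * Real.pi * t / 2| = Real.pi * |t| := by
    rw [show 2 * Real.pi * t / 2 = Real.pi * t by ring, abs_mul, abs_of_pos hp]
  have h2 := Real.mul_abs_le_abs_sin (x := 2 * Real.pi * t / 2) (by rw [h1]; nlinarith)
  rw [h1] at h2
  have h3 : 2 / Real.pi * (Real.pi * |t|) = 2 * |t| := by field_simp
  rw [h3] at h2
  rw [abs_two]; linarith

theorem norm_dirichlet_le (n : ℕ) (t : ℝ) : ‖∑ a ∈ range n, E (a * t)‖ ≤ n := by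
  refine (norm_sum_le _ _).trans ?_
  simp

theorem norm_dirichlet_mul {t : ℝ} (ht : |t| ≤ 1 / 2) (n : ℕ) :
    ‖∑ a ∈ range n, E (a * t)‖ * (2 * |t|) ≤ 1 := by
  have h1 : (∑ a ∈ range n, E (a * t)) * (E t - 1) = E t ^ n - 1 := by
    simp only [E_nat_mul]; exact geom_sum_mul _ _
  have h2 : ‖∑ a ∈ range n, E (a * t)‖ * ‖E t - 1‖ ≤ 2 := by
    rw [← norm_mul, h1]
    refine (norm_sub_le _ _).trans ?_
    simp; norm_num
  have h3 := four_mul_le_norm_E_sub_one ht
  nlinarith [norm_nonneg (∑ a ∈ range n, E (a * t))]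

/-- discrete orthogonality -/
theorem sum_E_orth {m : ℕ} (hm : 0 < m) (r : ℤ) :
    ∑ j ∈ range m, E (j * (r / m)) = if (m : ℤ) ∣ r then (m : ℂ) else 0 := by
  have hm' : (m : ℝ) ≠ 0 := by positivity
  split_ifs with h
  · obtain ⟨s, rfl⟩ := h
    have : ∀ j : ℕ, E (j * (((m * s : ℤ) : ℝ) / m)) = 1 := fun j => by
      rw [← E_int (j * s)]; congr 1; push_cast; field_simp
    simp only [this]; simp
  · have h1 : E (r / m) ≠ 1 := by
      rw [Ne, E_eq_one_iff]
      rintro ⟨n, hn⟩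
      apply h
      refine ⟨n, ?_⟩
      have : (r : ℝ) = m * n := by field_simp at hn; linarith
      exact_mod_cast this
    simp only [E_nat_mul]
    rw [geom_sum_eq h1, ← E_nat_mul]
    have : E (m * (r / m)) = 1 := by rw [← E_int r]; congr 1; field_simp
    rw [this]; simp

theorem dvd_iff_of_lt {m a b : ℕ} (ha : a < m) (hb : b < m) :
    (m : ℤ) ∣ (a : ℤ) - b ↔ a = b := by
  constructor
  · intro h
    have := Int.eq_zero_of_abs_lt_dvd h (by rw [abs_lt]; constructor <;> omega)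
    omega
  · rintro rfl; simp

theorem normSq_eq (z : ℂ) : ((‖z‖ ^ 2 : ℝ) : ℂ) = z * (starRingEnd ℂ) z := by
  rw [Complex.mul_conj, Complex.normSq_eq_norm_sq]

/-- discrete Parseval identity -/
theorem disc_parseval {m n : ℕ} (hn : n ≤ m) (hm : 0 < m) (c : ℕ → ℂ) (s : ℤ)
    (hs : s = 1 ∨ s = -1) :
    ∑ j ∈ range m, ‖∑ a ∈ range n, c a * E (a * (s * j / m))‖ ^ 2 =
      m * ∑ a ∈ range n, ‖c a‖ ^ 2 := by
  apply Complex.ofReal_injective
  push_cast
  have h1 : ∀ j : ℕ, ((‖∑ a ∈ range n, c a * E (a * (s * j / m))‖ : ℂ)) ^ 2 =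
      ∑ a ∈ range n, ∑ b ∈ range n, c a * (starRingEnd ℂ) (c b) *
        E (j * ((((s * ((a : ℤ) - b) : ℤ)) : ℝ) / m)) := by
    intro j
    have := normSq_eq (∑ a ∈ range n, c a * E (a * (s * j / m)))
    push_cast at this
    rw [this, map_sum, sum_mul_sum]
    refine sum_congr rfl fun a _ => sum_congr rfl fun b _ => ?_
    rw [map_mul, ← E_neg]
    have : E (j * ((((s * ((a : ℤ) - b) : ℤ)) : ℝ) / m)) =
        E (a * (s * j / m)) * E (-(b * (s * j / m))) := by
      rw [← E_add]; congr 1; push_cast; ring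
    rw [this]; ring
  simp only [h1]
  rw [sum_comm, mul_sum]
  refine sum_congr rfl fun a ha => ?_
  rw [sum_comm]
  simp only [← mul_sum, sum_E_orth hm]
  have h2 : ∀ b ∈ range n, ((m : ℤ) ∣ s * ((a : ℤ) - b) ↔ a = b) := by
    intro b hb
    rw [← dvd_iff_of_lt (m := m) (by simp at ha; omega) (by simp at hb; omega)]
    rcases hs with rfl | rfl
    · simp
    · rw [neg_one_mul, dvd_neg]
  rw [sum_eq_single a]
  · rw [if_pos ((h2 a ha).2 rfl)]
    have := normSq_eq (c a)
    push_cast at this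
    rw [this]; ring
  · intro b hb hab
    rw [if_neg (fun h => hab ((h2 b hb).1 h).symm)]; simp
  · intro h; exact absurd ha h

end Vale.Agent.P110
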