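import Vale.Agent.P110.Osc

/-! A tapered chirp and its uniform stationary phase expansion. -/

namespace Vale.Agent.P110

open Complex Set intervalIntegral MeasureTheory

theorem taper {K δ : ℝ} (hK : 0 < K) (hδ : 0 < δ) :
    ∃ (G g h : ℝ → ℝ) (H ρ : ℝ), Ph G g h ∧ G 0 = 0 ∧ g 0 = 0 ∧ g 1 = 1 ∧ 0 < ρ ∧ ρ ≤ 1 / 4 ∧
      (∀ u, 1 / (1 + δ) ≤ h u) ∧ (∀ u ∈ Icc (0 : ℝ) 1, h u ≤ H) ∧ (∀ u ∈ Icc 0 ρ, K ≤ h u) ∧
      ∀ u ∈ Icc (1 - ρ) 1, K ≤ h u := by
  set K1 := 2 * K * (1 + δ) with hK1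
  have hK0 : 0 < K1 := by positivity
  obtain ⟨p, hp⟩ := exists_nat_ge (K1 / δ + 1)
  have hp1 : (1 : ℝ) ≤ p := by have := div_pos hK0 hδ; linarith
  set g1 := 1 + K1 / (2 * p + 1) with hg1
  have h1 : 1 ≤ g1 := by have : 0 ≤ K1 / (2 * p + 1) := by positivity
                         linarith
  have h2 : g1 ≤ 1 + δ := by
    have : K1 / (2 * p + 1) ≤ δ := by
      rw [div_le_iff₀ (by positivity)]
      have : K1 / δ ≤ 2 * p + 1 := by linarith
      rw [div_le_iff₀ hδ] at this; linarith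
    linarith
  let h : ℝ → ℝ := fun u => (1 + K1 * (2 * u - 1) ^ (2 * p)) / g1
  let g : ℝ → ℝ := fun u => (u + K1 * (((2 * u - 1) ^ (2 * p + 1) + 1) / (2 * (2 * p + 1)))) / g1
  have hd : ∀ u, HasDerivAt g (h u) u := by
    intro u
    have e1 : HasDerivAt (fun u : ℝ => 2 * u - 1) 2 u := by
      simpa using ((hasDerivAt_id u).const_mul 2).sub_const 1
    have e2 := ((hasDerivAt_id u).add ((((e1.pow (2 * p + 1)).add_const 1).div_const
      (2 * (2 * p + 1))).const_mul K1)).div_const g1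
    refine e2.congr_deriv ?_
    simp only [h, Nat.add_sub_cancel]
    push_cast
    field_simp
  have hgc : Continuous g := by simp only [g]; fun_prop
  have hend : ∀ u : ℝ, |2 * u - 1| ≤ 1 → 1 - 1 / (4 * p) ≤ |2 * u - 1| → K ≤ h u := by
    intro u _ hu
    have e1 : (2 * u - 1) ^ (2 * p) = |2 * u - 1| ^ (2 * p) := by rw [pow_mul, pow_mul, sq_abs]
    have e0 : 1 / (4 * (p : ℝ)) ≤ 1 / 4 := by gcongr; linarith
    have e2 := one_add_mul_le_pow (a := -(1 / (4 * (p : ℝ)))) (by linarith) (2 * p)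
    have e3 : (1 + -(1 / (4 * (p : ℝ)))) ^ (2 * p) ≤ |2 * u - 1| ^ (2 * p) :=
      pow_le_pow_left₀ (by linarith) (by linarith) _
    have e4 : ((2 * p : ℕ) : ℝ) * -(1 / (4 * (p : ℝ))) = -(1 / 2) := by push_cast; field_simp; ring
    simp only [h]
    rw [le_div_iff₀ (by linarith), e1]
    nlinarith
  have hρ : 1 / (8 * (p : ℝ)) ≤ 1 / 4 := by gcongr; linarith
  have hρ2 : 1 / (4 * (p : ℝ)) = 2 * (1 / (8 * p)) := by field_simp; ring
  refine ⟨fun u => ∫ x in (0 : ℝ)..u, g x, g, h, 1 + K1, 1 / (8 * p),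
    ⟨fun u => (hgc.integral_hasStrictDerivAt 0 u).hasDerivAt, hd, by simp only [h]; fun_prop⟩,
    by simp, ?_, ?_, by positivity, hρ, fun u => ?_, fun u hu => ?_, fun u hu => ?_, fun u hu => ?_⟩
  · simp [g, pow_succ]
  · simp only [g]
    rw [div_eq_one_iff_eq (by linarith), hg1]
    norm_num
    field_simp
  · simp only [h]
    have : 0 ≤ K1 * (2 * u - 1) ^ (2 * p) := mul_nonneg hK0.le (by rw [pow_mul]; positivity)
    gcongr
    linarith
  · simp only [h]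
    have e1 : (2 * u - 1) ^ (2 * p) ≤ 1 := by
      rw [pow_mul]; exact pow_le_one₀ (sq_nonneg _) (by nlinarith [hu.1, hu.2])
    rw [div_le_iff₀ (by linarith)]
    nlinarith
  · refine hend u (by rw [abs_le]; constructor <;> linarith [hu.1, hu.2]) ?_
    rw [abs_of_nonpos (by linarith [hu.2])]; linarith [hu.2]
  · refine hend u (by rw [abs_le]; constructor <;> linarith [hu.1, hu.2]) ?_
    rw [abs_of_nonneg (by linarith [hu.1])]; linarith [hu.1]

theorem Ph.chirp {G g h : ℝ → ℝ} (hP : Ph G g h) (R y : ℝ) :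
    Ph (fun u => R * (G u - y * u)) (fun u => R * (g u - y)) (fun u => R * h u) :=
  ⟨fun u => by simpa using ((hP.d1 u).sub ((hasDerivAt_id u).const_mul y)).const_mul R,
    fun u => ((hP.d2 u).sub_const y).const_mul R, continuous_const.mul hP.c⟩

theorem off_bound {ψ φ χ : ℝ → ℝ} (hP : Ph ψ φ χ) {R K μ ε a b c d : ℝ} (hR : 0 < R) (hK : 0 < K)
    (hμ : 0 < μ) (hab : a ≤ b) (hcd : c ≤ d) (h1 : ∀ u ∈ Icc a b, R * K ≤ χ u)
    (h2 : ∀ u ∈ Icc c d, 0 ≤ χ u) (h3 : ∀ u ∈ Icc c d, R * μ ≤ |φ u|) (hKε : 8 ≤ ε * √K)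
    (hRε : 2 ≤ ε * μ * √R) :
    √R * (‖∫ u in a..b, E (ψ u)‖ + ‖∫ u in c..d, E (ψ u)‖) ≤ ε := by
  have hs := Real.sqrt_pos.2 hR
  have hk := Real.sqrt_pos.2 hK
  have e1 := second_deriv hP hab (r := 1 / (√R * √K)) (by positivity) (Or.inl fun u hu => by
    rw [div_pow, one_pow, one_div_one_div, mul_pow, Real.sq_sqrt hR.le, Real.sq_sqrt hK.le]
    exact h1 u hu)
  have e2 := first_deriv hP hcd (by positivity : 0 < R * μ) (Or.inl h2) h3
  have e3 : √R * (4 * (1 / (√R * √K))) ≤ ε / 2 := by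
    rw [show √R * (4 * (1 / (√R * √K))) = 4 / √K by field_simp, div_le_iff₀ hk]; linarith
  have e4 : √R * (1 / (R * μ)) ≤ ε / 2 := by
    rw [show √R * (1 / (R * μ)) = √R / (√R * √R * μ) by rw [Real.mul_self_sqrt hR.le]; ring,
      div_le_iff₀ (by positivity)]
    nlinarith
  nlinarith [mul_le_mul_of_nonneg_left e1 hs.le, mul_le_mul_of_nonneg_left e2 hs.le]

theorem branch {δ ε : ℝ} (hδ : 0 < δ) (hδ1 : δ ≤ 1) (hε : 0 < ε) :
    ∃ (G g h : ℝ → ℝ) (H R0 : ℝ) (ω : ℂ), Ph G g h ∧ G 0 = 0 ∧ g 0 = 0 ∧ g 1 = 1 ∧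
      (∀ u ∈ Icc (0 : ℝ) 1, 0 ≤ h u ∧ h u ≤ H) ∧ ‖ω‖ = 1 ∧
      ∀ y, ∃ m T : ℝ, 0 ≤ m ∧ m ≤ 1 + δ ∧ (m ≠ 0 → 0 < y ∧ y < 1) ∧ ∀ R, R0 ≤ R →
        ‖(√R : ℝ) * (∫ u in (0 : ℝ)..1, E (R * (G u - y * u))) - m * (E (R * T) * ω)‖ ≤ ε := by
  obtain ⟨G, g, h, H, ρ, hP, hG0, hg0, hg1, hρ, hρ1, hh, hH, hK1, hK2⟩ :=
    taper (K := (8 / ε) ^ 2) (by positivity) hδ
  obtain ⟨ω, hω1, hω⟩ := fresnel
  have hh2 : ∀ u, 1 / 2 ≤ h u := fun u => le_trans (by gcongr; linarith) (hh u)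
  have hgr : ∀ a b, a ≤ b → 1 / 2 * (b - a) ≤ g b - g a := fun a b hab =>
    hP.grow hab fun u _ => hh2 u
  set A := 24 / ε with hA
  have hA0 : 0 < A := by positivity
  set r := min (1 / 2) (ε / (56 * A ^ 3)) with hr
  have hr0 : 0 < r := by positivity
  obtain ⟨d, hd, hd1⟩ := Metric.uniformContinuousOn_iff_le.1
    (isCompact_Icc.uniformContinuousOn_of_continuous (s := Icc (0 : ℝ) 1) hP.c.continuousOn)
    (r / 2) (by positivity)
  set d' := min d (ρ / 2) with hd'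
  have hd0 : 0 < d' := by positivity
  refine ⟨G, g, h, H, max (2 * (A / d') ^ 2) ((8 / (ε * ρ)) ^ 2), ω, hP, hG0, hg0, hg1,
    fun u hu => ⟨by linarith [hh2 u], hH u hu⟩, hω1, fun y => ?_⟩
  have hoff : ∀ R, max (2 * (A / d') ^ 2) ((8 / (ε * ρ)) ^ 2) ≤ R →
      0 < R ∧ 2 ≤ ε * (ρ / 4) * √R := by
    intro R hR
    have e1 := (le_max_right _ _).trans hR
    refine ⟨lt_of_lt_of_le (by positivity) e1, ?_⟩
    have e2 := Real.le_sqrt_of_sq_le e1
    rw [div_le_iff₀ (by positivity)] at e2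
    linarith
  have hKε : 8 ≤ ε * √((8 / ε) ^ 2) := by
    rw [Real.sqrt_sq (by positivity)]; field_simp; rfl
  by_cases c1 : y < g (ρ / 2)
  · refine ⟨0, 0, le_rfl, by linarith, fun h => absurd rfl h, fun R hR => ?_⟩
    obtain ⟨hR0, hR1⟩ := hoff R hR
    have hQ := hP.chirp R y
    have := off_bound hQ hR0 (by positivity) (by positivity : 0 < ρ / 4) hρ.le
      (by linarith : ρ ≤ 1) (fun u hu => mul_le_mul_of_nonneg_left (hK1 u hu) hR0.le)
      (fun u _ => mul_nonneg hR0.le (by linarith [hh2 u])) (fun u hu => by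
        have := hgr (ρ / 2) u (by linarith [hu.1])
        refine le_trans (mul_le_mul_of_nonneg_left (by linarith [hu.1]) hR0.le) (le_abs_self _))
      hKε hR1
    rw [ofReal_zero, zero_mul, sub_zero, norm_mul, norm_real, Real.norm_eq_abs,
      abs_of_nonneg (Real.sqrt_nonneg _), ← integral_add_adjacent_intervals (hQ.ii 0 ρ) (hQ.ii ρ 1)]
    exact le_trans (mul_le_mul_of_nonneg_left (norm_add_le _ _) (Real.sqrt_nonneg _)) this
  by_cases c2 : g (1 - ρ / 2) < y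
  · refine ⟨0, 0, le_rfl, by linarith, fun h => absurd rfl h, fun R hR => ?_⟩
    obtain ⟨hR0, hR1⟩ := hoff R hR
    have hQ := hP.chirp R y
    have := off_bound hQ hR0 (by positivity) (by positivity : 0 < ρ / 4) (by linarith : 1 - ρ ≤ 1)
      (by linarith : 0 ≤ 1 - ρ) (fun u hu => mul_le_mul_of_nonneg_left (hK2 u hu) hR0.le)
      (fun u _ => mul_nonneg hR0.le (by linarith [hh2 u])) (fun u hu => by
        have := hgr u (1 - ρ / 2) (by linarith [hu.2])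
        refine le_trans ?_ (neg_le_abs _)
        rw [← mul_neg]
        exact mul_le_mul_of_nonneg_left (by linarith [hu.2]) hR0.le)
      hKε hR1
    rw [ofReal_zero, zero_mul, sub_zero, norm_mul, norm_real, Real.norm_eq_abs,
      abs_of_nonneg (Real.sqrt_nonneg _),
      ← integral_add_adjacent_intervals (hQ.ii 0 (1 - ρ)) (hQ.ii (1 - ρ) 1), add_comm]
    exact le_trans (mul_le_mul_of_nonneg_left (norm_add_le _ _) (Real.sqrt_nonneg _)) this
  push Not at c1 c2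
  obtain ⟨x, hx, hxy⟩ := intermediate_value_Icc (by linarith : ρ / 2 ≤ 1 - ρ / 2)
    hP.cont1.continuousOn ⟨c1, c2⟩
  have hx0 : 0 < h x := by linarith [hh2 x]
  have hsx := Real.sqrt_pos.2 hx0
  have hm : 1 / √(h x) ≤ 1 + δ := by
    rw [div_le_iff₀ hsx, ← Real.sqrt_sq (by linarith : 0 ≤ 1 + δ), ← Real.sqrt_mul (by positivity)]
    refine Real.le_sqrt_of_sq_le ?_
    have := hh x
    rw [div_le_iff₀ (by linarith)] at this
    nlinarith
  refine ⟨1 / √(h x), G x - y * x, by positivity, hm, fun _ => ⟨?_, ?_⟩, fun R hR => ?_⟩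
  · have := hgr 0 (ρ / 2) (by linarith); linarith
  · have := hgr (1 - ρ / 2) 1 (by linarith); linarith
  obtain ⟨hR0, -⟩ := hoff R hR
  have hs : 0 < √(R * h x) := by positivity
  have e1 : A / √(R * h x) ≤ d' := by
    have e2 := (le_max_left _ _).trans hR
    have e3 : A / d' ≤ √(R * h x) := Real.le_sqrt_of_sq_le (by nlinarith [hh2 x])
    rw [div_le_iff₀ hd0] at e3
    rw [div_le_iff₀ hs]; linarith
  have e2 : d' ≤ d := min_le_left _ _
  have e3 : d' ≤ ρ / 2 := min_le_right _ _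
  have := stat_phase hω (hP.chirp R y) (a := 0) (b := 1) (x0 := x) hs hA0 (min_le_left _ _ : r ≤ _)
    (by linarith [hx.1]) (by linarith [hx.2]) (by simp [hxy])
    (fun u _ => mul_nonneg hR0.le (by linarith [hh2 u])) (fun u hu => by
      have e4 := hd1 u ⟨by linarith [hu.1, hx.1], by linarith [hu.2, hx.2]⟩ x
        ⟨by linarith [hx.1], by linarith [hx.2]⟩
        (by rw [Real.dist_eq, abs_le]; constructor <;> linarith [hu.1, hu.2])
      rw [Real.dist_eq] at e4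
      rw [Real.sq_sqrt (by positivity), ← mul_sub, abs_mul, abs_of_pos hR0]
      nlinarith [mul_le_mul_of_nonneg_left e4 hR0.le, mul_pos hR0 hr0, hh2 x])
  have e5 : 6 / A + 14 * r * A ^ 3 ≤ ε / 2 := by
    have e6 : r ≤ ε / (56 * A ^ 3) := min_le_right _ _
    rw [le_div_iff₀ (by positivity)] at e6
    have e7 : 6 / A = ε / 4 := by rw [hA]; field_simp; norm_num
    linarith
  have e6 : ((√R : ℝ) : ℂ) * (∫ u in (0 : ℝ)..1, E (R * (G u - y * u))) -
      ((1 / √(h x) : ℝ) : ℂ) * (E (R * (G x - y * x)) * ω) = ((1 / √(h x) : ℝ) : ℂ) *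
      ((√(R * h x) : ℝ) * (∫ u in (0 : ℝ)..1, E (R * (G u - y * u))) -
        E (R * (G x - y * x)) * ω) := by
    have e7 : ((√(h x) : ℝ) : ℂ) ≠ 0 := by exact_mod_cast hsx.ne'
    rw [Real.sqrt_mul hR0.le]
    push_cast
    field_simp
  rw [e6, norm_mul, norm_real, Real.norm_eq_abs, abs_of_nonneg (by positivity)]
  have e8 := mul_le_mul (hm.trans (by linarith : 1 + δ ≤ 2)) (this.trans e5) (norm_nonneg _)
    (by norm_num)
  linarith

end Vale.Agent.P110
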