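import Vale.Agent.P110.Basic
import Mathlib.Order.Filter.AtTopBot.Basic
import Mathlib.Algebra.BigOperators.Field

/-! A real trigonometric polynomial on the two-torus, close to `±1` in mean square,
with pairwise non-parallel frequencies. -/

namespace Vale.Agent.P110

open Complex Finset Filter

/-- pairing of a frequency with a point -/
def dot (n : ℤ × ℤ) (x : ℝ × ℝ) : ℝ := n.1 * x.1 + n.2 * x.2

/-- determinant of two frequencies -/
def det (n n' : ℤ × ℤ) : ℤ := n.1 * n'.2 - n.2 * n'.1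

/-- analytic half of the polynomial -/
noncomputable def HF (D : Finset (ℤ × ℤ)) (c : ℤ × ℤ → ℂ) (x : ℝ × ℝ) : ℂ :=
  ∑ n ∈ D, c n * E (dot n x)

theorem dot_add (n n' : ℤ × ℤ) (x : ℝ × ℝ) : dot (n + n') x = dot n x + dot n' x := by
  simp [dot]; ring

theorem dot_neg (n : ℤ × ℤ) (x : ℝ × ℝ) : dot (-n) x = -dot n x := by
  simp [dot]; ring

theorem expand (D : Finset (ℤ × ℤ)) (c : ℤ × ℤ → ℂ) (hD : ∀ n ∈ D, 0 < n.1) :
    ∃ (S : Finset (ℤ × ℤ)) (g : ℤ × ℤ → ℂ), 0 ∈ S ∧ g 0 = ((1 - 2 * ∑ n ∈ D, ‖c n‖ ^ 2 : ℝ) : ℂ) ∧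
      ∀ x, ((1 - (2 * (HF D c x).re) ^ 2 : ℝ) : ℂ) = HF S g x := by
  let P : Finset ((ℤ × ℤ) × Bool) := D ×ˢ univ
  let m : (ℤ × ℤ) × Bool → ℤ × ℤ := fun p => if p.2 then p.1 else -p.1
  let d : (ℤ × ℤ) × Bool → ℂ := fun p => if p.2 then c p.1 else (starRingEnd ℂ) (c p.1)
  let μ : ((ℤ × ℤ) × Bool) × ((ℤ × ℤ) × Bool) → ℤ × ℤ := fun pq => m pq.1 + m pq.2
  refine ⟨insert 0 ((P ×ˢ P).image μ), fun n => (if n = 0 then 1 else 0) -
    ∑ pq ∈ (P ×ˢ P).filter (fun pq => μ pq = n), d pq.1 * d pq.2, mem_insert_self _ _, ?_, ?_⟩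
  · simp only [if_true]
    push_cast
    congr 1
    rw [sum_filter, sum_product, sum_product, mul_sum]
    refine sum_congr rfl fun n hn => ?_
    simp only [P, sum_product, Fintype.sum_bool, μ, m, d, if_true, Bool.false_eq_true, if_false]
    have e1 : ∀ n' ∈ D, ¬ (n + n' = 0) := fun n' hn' h => by
      have := congrArg Prod.fst h
      have := hD n hn; have := hD n' hn'
      simp at *; omega
    have e2 : ∀ n' ∈ D, ¬ (n = -n') := fun n' hn' h => e1 n' hn' (by rw [h]; simp)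
    have e3 : ∀ n' : ℤ × ℤ, (n + -n' = 0) = (n = n') := fun n' => by
      rw [← sub_eq_add_neg, sub_eq_zero]
    have e4 : ∀ n' : ℤ × ℤ, (-n + n' = 0) = (n = n') := fun n' => by
      rw [neg_add_eq_zero]
    simp only [e3, e4, sum_add_distrib, sum_ite_eq, if_pos hn]
    rw [sum_congr rfl fun n' hn' => if_neg (e1 n' hn'),
      sum_congr rfl fun n' hn' => if_neg (e2 n' hn')]
    have := normSq_eq (c n)
    push_cast at this
    rw [this]; simp; ring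
  · intro x
    have h1 : ((2 * (HF D c x).re : ℝ) : ℂ) = ∑ p ∈ P, d p * E (dot (m p) x) := by
      rw [← Complex.add_conj]
      simp only [P, sum_product, Fintype.sum_bool, m, d, if_true, Bool.false_eq_true, if_false,
        sum_add_distrib, HF, map_sum, map_mul, dot_neg, E_neg]
    have h2 : ((2 * (HF D c x).re : ℝ) : ℂ) ^ 2 =
        ∑ pq ∈ P ×ˢ P, d pq.1 * d pq.2 * E (dot (μ pq) x) := by
      rw [h1, sq, sum_mul_sum, sum_product (s := P) (t := P)]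
      refine sum_congr rfl fun p _ => sum_congr rfl fun q _ => ?_
      simp only [μ, dot_add, E_add]; ring
    rw [ofReal_sub, ofReal_pow, h2]
    unfold HF
    simp only [sub_mul, sum_sub_distrib, ite_mul, one_mul, zero_mul, sum_ite_eq',
      mem_insert_self, if_true]
    congr 1
    · simp [dot]
    · rw [← sum_fiberwise_of_maps_to (g := μ) (t := insert 0 ((P ×ˢ P).image μ))
        (fun pq hpq => mem_insert_of_mem (mem_image_of_mem μ hpq))]
      refine sum_congr rfl fun n _ => ?_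
      rw [sum_mul]
      refine sum_congr rfl fun pq hpq => ?_
      rw [(mem_filter.1 hpq).2]

theorem ev_ne (d : ℤ × ℤ) (hd : d ≠ 0) (c0 : ℤ) :
    ∀ᶠ B : ℤ in atTop, d.1 * B ^ 2 - d.2 * B + c0 ≠ 0 := by
  filter_upwards [eventually_gt_atTop (|d.2| + |c0|)] with B hB h
  have h2 := abs_nonneg d.2
  have h3 := abs_nonneg c0
  have hB0 : 0 < B := by linarith
  by_cases h1 : d.1 = 0
  · have h4 : d.2 ≠ 0 := fun h4 => hd (Prod.ext h1 h4)
    have h5 : 1 ≤ |d.2| := Int.one_le_abs h4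
    have h6 : c0 = d.2 * B := by rw [h1] at h; linarith
    have h7 : |c0| = |d.2| * B := by rw [h6, abs_mul, abs_of_pos hB0]
    nlinarith
  · have h5 : 1 ≤ |d.1| := Int.one_le_abs h1
    have h6 : d.1 * B ^ 2 = d.2 * B - c0 := by linarith
    have h7 : |d.1| * B ^ 2 ≤ |d.2| * B + |c0| := by
      have := abs_sub (d.2 * B) c0
      rw [← h6, abs_mul, abs_mul, abs_of_pos hB0, abs_of_nonneg (sq_nonneg B)] at this
      exact this
    nlinarith

theorem flat_step (D : Finset (ℤ × ℤ)) (c : ℤ × ℤ → ℂ) (hD : ∀ n ∈ D, 0 < n.1)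
    (hdet : ∀ n ∈ D, ∀ n' ∈ D, n ≠ n' → det n n' ≠ 0) (hb : ∀ x, |2 * (HF D c x).re| ≤ 1) :
    ∃ (D' : Finset (ℤ × ℤ)) (c' : ℤ × ℤ → ℂ), (∀ n ∈ D', 0 < n.1) ∧
      (∀ n ∈ D', ∀ n' ∈ D', n ≠ n' → det n n' ≠ 0) ∧ (∀ x, |2 * (HF D' c' x).re| ≤ 1) ∧
      2 * ∑ n ∈ D, ‖c n‖ ^ 2 + (1 - 2 * ∑ n ∈ D, ‖c n‖ ^ 2) ^ 2 / 8 ≤ 2 * ∑ n ∈ D', ‖c' n‖ ^ 2 := by
  obtain ⟨S, g, h0, hg0, hg⟩ := expand D c hD
  have e1 : ∀ᶠ B : ℤ in atTop, ∀ n ∈ S, 0 < n.1 + B :=
    (eventually_all_finset S).2 fun n _ => (eventually_gt_atTop (-n.1)).mono fun B h => by linarith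
  have e2 : ∀ᶠ B : ℤ in atTop, ∀ n ∈ S, ∀ n' ∈ S, n ≠ n' →
      (n - n').1 * B ^ 2 - (n - n').2 * B + det n n' ≠ 0 := by
    refine (eventually_all_finset S).2 fun n _ => (eventually_all_finset S).2 fun n' _ => ?_
    by_cases h : n = n'
    · exact Eventually.of_forall fun B h' => absurd h h'
    · exact (ev_ne _ (sub_ne_zero.2 h) _).mono fun B h' _ => h'
  have e3 : ∀ᶠ B : ℤ in atTop, ∀ n ∈ S, ∀ o ∈ D, o.1 * B ^ 2 - o.2 * B + det o n ≠ 0 := by
    refine (eventually_all_finset S).2 fun n _ => (eventually_all_finset D).2 fun o ho => ?_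
    refine ev_ne _ ?_ _
    rintro rfl
    simpa using hD _ ho
  obtain ⟨B, hB1, hB2, hB3⟩ := (e1.and (e2.and e3)).exists
  let b : ℤ × ℤ := (B, B ^ 2)
  have k1 : ∀ n ∈ S, ∀ o ∈ D, det o (n + b) ≠ 0 := fun n hn o ho h => hB3 n hn o ho (by
    simp only [det, b, Prod.fst_add, Prod.snd_add] at h ⊢; linarith)
  have k2 : ∀ n ∈ S, n + b ∉ D := fun n hn h => k1 n hn _ h (by simp [det]; ring)
  have hdisj : Disjoint D (S.image (· + b)) := by
    rw [disjoint_right]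
    intro n hn
    obtain ⟨n', hn', rfl⟩ := mem_image.1 hn
    exact k2 n' hn'
  let c' : ℤ × ℤ → ℂ := fun n => if n ∈ D then c n else g (n - b) / 4
  have hsum : ∀ {M : Type} [AddCommMonoid M] (f : ℤ × ℤ → ℂ → M),
      ∑ n ∈ D ∪ S.image (· + b), f n (c' n) =
        ∑ n ∈ D, f n (c n) + ∑ n ∈ S, f (n + b) (g n / 4) := by
    intro M _ f
    rw [sum_union hdisj, sum_image fun x _ y _ h => add_right_cancel h]
    congr 1
    · exact sum_congr rfl fun n hn => by simp only [c', if_pos hn]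
    · exact sum_congr rfl fun n hn => by simp only [c', if_neg (k2 n hn), add_sub_cancel_right]
  refine ⟨D ∪ S.image (· + b), c', ?_, ?_, fun x => ?_, ?_⟩
  · intro n hn
    rcases mem_union.1 hn with h | h
    · exact hD n h
    · obtain ⟨n', hn', rfl⟩ := mem_image.1 h
      exact hB1 n' hn'
  · intro n hn n' hn' hne
    rcases mem_union.1 hn with h | h <;> rcases mem_union.1 hn' with h' | h'
    · exact hdet n h n' h' hne
    · obtain ⟨n', hn2, rfl⟩ := mem_image.1 h'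
      exact k1 n' hn2 n h
    · obtain ⟨n, hn1, rfl⟩ := mem_image.1 h
      intro h2
      refine k1 n hn1 n' h' ?_
      simp only [det] at h2 ⊢; linarith
    · obtain ⟨n, hn1, rfl⟩ := mem_image.1 h
      obtain ⟨n', hn2, rfl⟩ := mem_image.1 h'
      intro h2
      refine hB2 n hn1 n' hn2 (fun h3 => hne (by rw [h3])) ?_
      simp only [det, b, Prod.fst_add, Prod.snd_add, Prod.fst_sub, Prod.snd_sub] at h2 ⊢
      linarith
  · have h1 : HF (D ∪ S.image (· + b)) c' x =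
        HF D c x + ((1 - (2 * (HF D c x).re) ^ 2 : ℝ) : ℂ) * E (dot b x) / 4 := by
      rw [hg]
      unfold HF
      rw [hsum (fun n z => z * E (dot n x)), sum_mul, sum_div]
      congr 1
      refine sum_congr rfl fun n _ => ?_
      rw [dot_add, E_add]; ring
    rw [h1, add_re]
    set y := 2 * (HF D c x).re with hy
    have h2 : (((1 - y ^ 2 : ℝ) : ℂ) * E (dot b x) / 4).re = (1 - y ^ 2) * (E (dot b x)).re / 4 := by
      rw [Complex.div_ofNat_re, Complex.re_ofReal_mul]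
    have h3 : |(E (dot b x)).re| ≤ 1 := (abs_re_le_norm _).trans (norm_E _).le
    have h4 := hb x
    rw [← hy] at h4
    rw [h2, mul_add, ← hy]
    have h5 : 0 ≤ 1 - y ^ 2 := by rw [← sq_abs]; nlinarith [abs_nonneg y]
    rw [abs_le] at *
    constructor <;> nlinarith [sq_nonneg (y - 1), sq_nonneg (y + 1), h3.1, h3.2]
  · rw [hsum (fun _ z => ‖z‖ ^ 2)]
    have h1 : ‖g 0 / 4‖ ^ 2 ≤ ∑ n ∈ S, ‖g n / 4‖ ^ 2 :=
      single_le_sum (f := fun n => ‖g n / 4‖ ^ 2) (fun n _ => by positivity) h0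
    rw [hg0, norm_div, norm_real, Real.norm_eq_abs, div_pow, sq_abs] at h1
    norm_num at h1 ⊢
    linarith

theorem flat {ε : ℝ} (hε : 0 < ε) :
    ∃ (D : Finset (ℤ × ℤ)) (c : ℤ × ℤ → ℂ), (∀ n ∈ D, 0 < n.1) ∧
      (∀ n ∈ D, ∀ n' ∈ D, n ≠ n' → det n n' ≠ 0) ∧ (∀ n ∈ D, c n ≠ 0) ∧
      (∀ x, |2 * (HF D c x).re| ≤ 1) ∧ 1 - ε ≤ 2 * ∑ n ∈ D, ‖c n‖ ^ 2 := by
  have key : ∀ t : ℕ, ∃ (D : Finset (ℤ × ℤ)) (c : ℤ × ℤ → ℂ), (∀ n ∈ D, 0 < n.1) ∧
      (∀ n ∈ D, ∀ n' ∈ D, n ≠ n' → det n n' ≠ 0) ∧ (∀ x, |2 * (HF D c x).re| ≤ 1) ∧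
      min (1 - ε) (t * (ε ^ 2 / 8)) ≤ 2 * ∑ n ∈ D, ‖c n‖ ^ 2 := by
    intro t
    induction t with
    | zero => exact ⟨∅, 0, by simp, by simp, by simp [HF], by simp⟩
    | succ t ih =>
      obtain ⟨D, c, h1, h2, h3, h4⟩ := ih
      by_cases h : 1 - ε ≤ 2 * ∑ n ∈ D, ‖c n‖ ^ 2
      · exact ⟨D, c, h1, h2, h3, (min_le_left _ _).trans h⟩
      obtain ⟨D', c', g1, g2, g3, g4⟩ := flat_step D c h1 h2 h3
      refine ⟨D', c', g1, g2, g3, (min_le_right _ _).trans ?_⟩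
      have h5 : t * (ε ^ 2 / 8) ≤ 2 * ∑ n ∈ D, ‖c n‖ ^ 2 := by
        rcases min_le_iff.1 h4 with h5 | h5
        · exact absurd h5 h
        · exact h5
      push_cast
      have h6 : ε ^ 2 ≤ (1 - 2 * ∑ n ∈ D, ‖c n‖ ^ 2) ^ 2 :=
        pow_le_pow_left₀ hε.le (by linarith) 2
      linarith
  obtain ⟨t, ht⟩ := exists_nat_ge (8 / ε ^ 2)
  obtain ⟨D, c, h1, h2, h3, h4⟩ := key t
  have h5 : 1 ≤ t * (ε ^ 2 / 8) := by
    rw [div_le_iff₀ (by positivity)] at ht; linarith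
  refine ⟨D.filter fun n => c n ≠ 0, c, fun n hn => h1 n (mem_filter.1 hn).1,
    fun n hn n' hn' => h2 n (mem_filter.1 hn).1 n' (mem_filter.1 hn').1,
    fun n hn => (mem_filter.1 hn).2, fun x => ?_, ?_⟩
  · unfold HF
    rw [sum_filter_of_ne (p := fun n => c n ≠ 0) fun n _ h h' => h (by rw [h', zero_mul])]
    exact h3 x
  · rw [sum_filter_of_ne (p := fun n => c n ≠ 0) fun n _ h h' => h (by rw [h']; simp)]
    rwa [min_eq_left (by linarith)] at h4

end Vale.Agent.P110
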