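import Vale.Agent.P110.Arith
import Vale.Agent.P110.Flat
import Mathlib.Data.ZMod.Basic

/-! The arithmetic core of the design: tiling of slots and Gauss sum gadgets. -/

namespace Vale.Agent.P110

open Complex Finset

/-- signed position of a slot -/
def spos (ς : Bool) (Z a : ℕ) : ℤ := if ς then (Z : ℤ) else -((Z : ℤ) + a)

theorem gadget {ι : Type} [Fintype ι] [DecidableEq ι] (n : ι → ℤ × ℤ) (l : ι → ℕ)
    (hl2 : ∀ i, IsCoprime (2 : ℤ) (l i))
    (hll : ∀ i j, i ≠ j → IsCoprime (l i : ℤ) (l j))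
    (hld : ∀ i j, i ≠ j → IsCoprime (l j : ℤ) (det (n i) (n j))) :
    ∃ (o : ℤ × ℤ) (w : ι → ℤ), ∀ i, (n i).1 * o.1 + (n i).2 * o.2 = l i * w i ∧
      IsCoprime (2 * w i) (cof l i : ℤ) := by
  let o : ℤ × ℤ := (∑ j, (n j).2 * cof l j, ∑ j, -(n j).1 * cof l j)
  have h1 : ∀ i, (n i).1 * o.1 + (n i).2 * o.2 = ∑ j, det (n i) (n j) * cof l j := by
    intro i
    simp only [o, mul_sum, ← sum_add_distrib, det]
    exact sum_congr rfl fun j _ => by ring
  have h2 : ∀ i, ∃ w : ℤ, (n i).1 * o.1 + (n i).2 * o.2 = l i * w := by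
    intro i
    have := dvd_sum_cof (l := l) (fun j => det (n i) (n j)) i
    have e : det (n i) (n i) = 0 := by simp [det, mul_comm]
    rw [e, zero_mul, sub_zero, ← h1] at this
    exact this
  choose w hw using h2
  refine ⟨o, w, fun i => ⟨hw i, coprime_cof fun j hj => (hl2 j).mul_left ?_⟩⟩
  obtain ⟨q, hq⟩ := dvd_sum_cof (l := l) (fun j => det (n i) (n j)) j
  rw [← h1, hw i] at hq
  have h3 : IsCoprime (l j : ℤ) (det (n i) (n j) * cof l j) :=
    (hld i j hj.symm).mul_right (coprime_cof fun m hm => hll j m hm.symm)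
  have h4 : IsCoprime (l j : ℤ) (l i * w i) := by
    have := h3.add_mul_left_right q
    rwa [show det (n i) (n j) * cof l j + l j * q = l i * w i by linarith] at this
  exact h4.of_mul_right_right.symm

theorem design_core {ι Ω : Type} [Fintype ι] [DecidableEq ι] [Fintype Ω]
    (n : ι → ℤ × ℤ) (a : ι → ℕ) (ha : ∀ i, (n i).1 = a i)
    (L Q : ℕ) (hL : 0 < L) (hQ : 0 < Q) (haL : ∀ i, a i ∣ L)
    (Λ : ZMod Q → ι) (hΛ : ∀ c, Λ (-c - 1) = Λ c) (s : Ω → ℕ) (z : Ω → ℤ × ℤ)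
    (p : Ω → ι → ℤ)
    (hp : ∀ w i, p w i = (n i).1 * (z w).1 + (n i).2 * (z w).2 + ((s w * a i / L : ℕ) : ℤ))
    (hlab : ∀ w i, Λ (p w i) = i) (h l : ι → ℕ) (hl : ∀ i, l i = 2 * h i + 1)
    (hfib : ∀ i (y : ZMod Q × ℕ),
      (univ.filter fun w => (((p w i : ℤ) : ZMod Q), s w * a i % L) = y).card ≤ h i)
    (hll : ∀ i j, i ≠ j → IsCoprime (l i : ℤ) (l j)) (hla : ∀ i, IsCoprime (l i : ℤ) (a i))
    (hld : ∀ i j, i ≠ j → IsCoprime (l j : ℤ) (det (n i) (n j))) :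
    ∃ (u : (Σ i, Fin (cof l i)) → ℂ) (Z : Ω × (Σ i, Fin (cof l i)) → ℕ)
      (ς : Ω × (Σ i, Fin (cof l i)) → Bool), (∀ j, ‖u j‖ = 1) ∧
      (∀ b, 2 * (Z b + a b.2.1) ≤ L * (Q * ∏ i, l i)) ∧
      (∀ b b', b ≠ b' → Z b + a b.2.1 ≤ Z b' ∨ Z b' + a b'.2.1 ≤ Z b) ∧
      ∀ w (k : ℤ) (t : ℝ), ∃ x : ℝ × ℝ, ∀ i,
        ∑ η : Fin (cof l i), u ⟨i, η⟩ * E (a i * t - k * spos (ς (w, ⟨i, η⟩)) (Z (w, ⟨i, η⟩)) (a i) /
          (L * (Q * ∏ i, l i) : ℕ)) = (√(cof l i : ℝ) : ℝ) * E (dot (n i) x) := by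
  classical
  have hl0 : ∀ i, 0 < l i := fun i => by rw [hl]; omega
  have hl2 : ∀ i, IsCoprime (2 : ℤ) (l i) := fun i =>
    ⟨-(h i : ℤ), 1, by rw [hl]; push_cast; ring⟩
  obtain ⟨o, wt, hw⟩ := gadget n l hl2 hll hld
  set M := ∏ i, l i with hM
  have hM0 : 0 < M := prod_pos fun i _ => hl0 i
  have hc0 : ∀ i, 0 < cof l i := fun i => prod_pos fun j _ => hl0 j
  have hMc : ∀ i, l i * cof l i = M := fun i => mul_cof i
  choose c hc1 hc2 using fun i => gauss_expand (hc0 i) (hw i).2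
  choose ρ hρ1 hρ2 using fun i => fiber_inj
    (fun w => (((p w i : ℤ) : ZMod Q), s w * a i % L)) (hfib i)
  choose ζ hζ using fun w => crt hll (fun i => (a i : ℤ)) hla (fun i => ρ i w - p w i / Q)
  have hQz : (0 : ℤ) < Q := by exact_mod_cast hQ
  have hR : (0 : ℤ) < (Q * M : ℕ) := by positivity
  let Y : Ω × (Σ i, Fin (cof l i)) → ℤ := fun b =>
    p b.1 b.2.1 + Q * (a b.2.1 * ζ b.1 + (b.2.2 : ℕ) * l b.2.1)
  let Y0 : Ω × (Σ i, Fin (cof l i)) → ℕ := fun b => (Y b % (Q * M : ℕ)).toNat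
  have hY0 : ∀ b, (Y0 b : ℤ) = Y b % (Q * M : ℕ) := fun b =>
    Int.toNat_of_nonneg (Int.emod_nonneg _ hR.ne')
  have hY1 : ∀ b, ∃ q : ℤ, (Y0 b : ℤ) = Y b + Q * M * q := fun b =>
    ⟨-(Y b / (Q * M : ℕ)), by
      rw [hY0]; have := Int.emod_add_mul_ediv (Y b) (Q * M : ℕ); push_cast at this ⊢; linarith⟩
  have hY2 : ∀ b, ∃ q : ℤ, (Y0 b : ℤ) = p b.1 b.2.1 % Q + Q * (ρ b.2.1 b.1 + l b.2.1 * q) := by
    intro b
    obtain ⟨q, hq⟩ := hY1 b
    obtain ⟨q', hq'⟩ := hζ b.1 b.2.1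
    refine ⟨q' + (b.2.2 : ℕ) + cof l b.2.1 * q, ?_⟩
    have e1 := Int.emod_add_mul_ediv (p b.1 b.2.1) Q
    have e2 : (l b.2.1 : ℤ) * cof l b.2.1 = M := by exact_mod_cast hMc b.2.1
    rw [hq]
    simp only [Y]
    linear_combination (-1 : ℤ) * e1 + Q * hq' - Q * q * e2
  have hY3 : ∀ b, ((Y0 b : ℤ) : ZMod Q) = p b.1 b.2.1 := by
    intro b
    obtain ⟨q, hq⟩ := hY2 b
    rw [hq]; push_cast; simp
  obtain ⟨Z, ς, hZ1, hZ2, hZ3⟩ := placement L (Q * M) Y0 (fun b => s b.1 * a b.2.1 % L)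
    (fun b => a b.2.1)
    (fun b => by
      have := Int.emod_lt_of_pos (Y b) hR
      rw [← hY0] at this; exact_mod_cast this)
    (fun b => by
      obtain ⟨L', hL'⟩ := haL b.2.1
      have hL'0 : 0 < L' := Nat.pos_of_mul_pos_left (hL' ▸ hL)
      have := Nat.mod_lt (s b.1) hL'0
      rw [hL', mul_comm (s b.1), Nat.mul_mod_mul_left, ← Nat.mul_succ]
      exact Nat.mul_le_mul_left _ this)
    (fun b b' hb hY => by
      obtain ⟨w, i, η⟩ := b
      obtain ⟨w', i', η'⟩ := b'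
      have e1 : ((p w i : ℤ) : ZMod Q) = p w' i' := by
        rw [← hY3 (w, ⟨i, η⟩), hY, hY3]
      have e2 : i = i' := by rw [← hlab w i, e1, hlab]
      subst e2
      obtain ⟨L', hL'⟩ := haL i
      by_cases hf : s w * a i % L = s w' * a i % L
      · exfalso
        obtain ⟨q, hq⟩ := hY2 (w, ⟨i, η⟩)
        obtain ⟨q', hq'⟩ := hY2 (w', ⟨i, η'⟩)
        have e3 : p w i % Q = p w' i % Q := (ZMod.intCast_eq_intCast_iff' _ _ _).1 e1
        rw [hY, hq'] at hq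
        simp only at hq
        have e4 : (l i : ℤ) ∣ (ρ i w : ℤ) - ρ i w' := ⟨q' - q, by
          have : (Q : ℤ) * (ρ i w - ρ i w') = Q * (l i * (q' - q)) := by linear_combination -e3 - hq
          exact mul_left_cancel₀ hQz.ne' this⟩
        have e5 : ρ i w = ρ i w' := (dvd_iff_of_lt (by have := hρ1 i w; rw [hl]; omega)
          (by have := hρ1 i w'; rw [hl]; omega)).1 e4
        have e6 : w = w' := hρ2 i w w' (by simp only [e1, hf]) e5
        subst e6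
        obtain ⟨r, hr⟩ := hY1 (w, ⟨i, η⟩)
        obtain ⟨r', hr'⟩ := hY1 (w, ⟨i, η'⟩)
        rw [hY, hr'] at hr
        simp only [Y] at hr
        have e7 : (l i : ℤ) * cof l i = M := by exact_mod_cast hMc i
        have e8 : (cof l i : ℤ) ∣ ((η : ℕ) : ℤ) - (η' : ℕ) := ⟨r' - r, by
          have : (Q * l i : ℤ) * (((η : ℕ) : ℤ) - (η' : ℕ)) = Q * l i * (cof l i * (r' - r)) := by
            linear_combination -hr - Q * (r' - r) * e7
          exact mul_left_cancel₀ (by have := hl0 i; positivity) this⟩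
        have e9 := Fin.ext ((dvd_iff_of_lt η.2 η'.2).1 e8)
        exact hb (by rw [e9])
      · simp only
        rw [hL', mul_comm (s w), mul_comm (s w'), Nat.mul_mod_mul_left,
          Nat.mul_mod_mul_left] at hf ⊢
        rw [← Nat.mul_succ, ← Nat.mul_succ]
        rcases lt_trichotomy (s w % L') (s w' % L') with h1 | h1 | h1
        · exact Or.inl (Nat.mul_le_mul_left _ h1)
        · exact absurd (by rw [h1]) hf
        · exact Or.inr (Nat.mul_le_mul_left _ h1))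
    (fun b b' hY => by
      obtain ⟨w, i, η⟩ := b
      obtain ⟨w', i', η'⟩ := b'
      have hY' : (Y0 (w, ⟨i, η⟩) : ℤ) + Y0 (w', ⟨i', η'⟩) + 1 = Q * M := by exact_mod_cast hY
      have e1 : ((p w i : ℤ) : ZMod Q) = -(p w' i' : ℤ) - 1 := by
        rw [← hY3 (w, ⟨i, η⟩), ← hY3 (w', ⟨i', η'⟩)]
        have := congrArg (fun x : ℤ => (x : ZMod Q)) hY'
        simp only [Int.cast_add, Int.cast_mul, Int.cast_natCast, ZMod.natCast_self, zero_mul,
          Int.cast_one] at this ⊢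
        linear_combination this
      have e2 : i = i' := by rw [← hlab w i, e1, hΛ, hlab]
      subst e2
      obtain ⟨q, hq⟩ := hY2 (w, ⟨i, η⟩)
      obtain ⟨q', hq'⟩ := hY2 (w', ⟨i, η'⟩)
      rw [hq, hq'] at hY'
      simp only at hY'
      have e7 : (l i : ℤ) * cof l i = M := by exact_mod_cast hMc i
      have f1 := Int.emod_nonneg (p w i) hQz.ne'
      have f2 := Int.emod_nonneg (p w' i) hQz.ne'
      have f3 := Int.emod_lt_of_pos (p w i) hQz
      have f4 := Int.emod_lt_of_pos (p w' i) hQz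
      have e3 : (Q : ℤ) ∣ p w i % Q + p w' i % Q + 1 - Q :=
        ⟨M - 1 - (ρ i w + l i * q) - (ρ i w' + l i * q'), by linear_combination hY'⟩
      have e4 := Int.eq_zero_of_abs_lt_dvd e3 (by rw [abs_lt]; constructor <;> omega)
      have e5 : (l i : ℤ) ∣ (ρ i w + ρ i w' + 1 : ℕ) - (0 : ℕ) := ⟨cof l i - q - q', by
        have : (Q : ℤ) * (((ρ i w + ρ i w' + 1 : ℕ) : ℤ) - (0 : ℕ)) =
            Q * (l i * (cof l i - q - q')) := by
          push_cast; linear_combination hY' - e4 - Q * e7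
        exact mul_left_cancel₀ hQz.ne' this⟩
      have := hρ1 i w
      have := hρ1 i w'
      have := (dvd_iff_of_lt (by rw [hl]; omega) (hl0 i)).1 e5
      omega)
  refine ⟨fun j => c j.1 j.2, Z, ς, fun j => hc1 _ _, hZ1, hZ2, fun w k t => ?_⟩
  have hU : (0 : ℝ) < (L * (Q * M) : ℕ) := by positivity
  refine ⟨(t - k * (L * (z w).1 + s w + L * Q * ζ w) / (L * (Q * M) : ℕ) + o.1 * k ^ 2 / M,
    -(k * (L * (z w).2) / (L * (Q * M) : ℕ)) + o.2 * k ^ 2 / M), fun i => ?_⟩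
  have hMr : (l i : ℝ) * cof l i = M := by exact_mod_cast hMc i
  have hlr : (0 : ℝ) < l i := by exact_mod_cast hl0 i
  have hcr : (0 : ℝ) < cof l i := by exact_mod_cast hc0 i
  have hLr : (0 : ℝ) < L := by exact_mod_cast hL
  have hQr : (0 : ℝ) < Q := by exact_mod_cast hQ
  have har : ((n i).1 : ℝ) = a i := by exact_mod_cast ha i
  have h1 : ∀ η : Fin (cof l i),
      E (a i * t - k * spos (ς (w, ⟨i, η⟩)) (Z (w, ⟨i, η⟩)) (a i) / (L * (Q * M) : ℕ)) =
      E (-(k * (η : ℕ) / (cof l i))) * E (a i * t - k * (L * ((n i).1 * (z w).1 + (n i).2 * (z w).2) +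
        s w * a i + L * Q * a i * ζ w) / (L * (Q * M) : ℕ)) := by
    intro η
    obtain ⟨q, hq⟩ := hZ3 (w, ⟨i, η⟩)
    obtain ⟨r, hr⟩ := hY1 (w, ⟨i, η⟩)
    have e1 : spos (ς (w, ⟨i, η⟩)) (Z (w, ⟨i, η⟩)) (a i) =
        L * ((n i).1 * (z w).1 + (n i).2 * (z w).2) + s w * a i + L * Q * a i * ζ w +
        L * Q * (η : ℕ) * l i + (L * (Q * M) : ℕ) * (r - q) := by
      have e2 : ((s w * a i : ℕ) : ℤ) = L * (s w * a i / L : ℕ) + (s w * a i % L : ℕ) := by
        exact_mod_cast (Nat.div_add_mod _ _).symm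
      have e3 := hp w i
      simp only [Y] at hr
      unfold spos
      simp only [Nat.cast_add, Nat.cast_mul] at hq e2 ⊢
      linear_combination -hq - e2 + L * hr + L * e3
    rw [← E_add, ← E_add_int _ (k * (r - q)), e1]
    congr 1
    push_cast
    rw [← hMr]; field_simp; ring
  simp only [h1]
  simp only [← mul_assoc (c i _)]
  rw [← sum_mul, Fin.sum_univ_eq_sum_range (fun η => c i η * E (-(k * η / (cof l i)))), hc2,
    mul_assoc, ← E_add]
  congr 2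
  have e4 : ((n i).1 : ℝ) * o.1 + (n i).2 * o.2 = l i * wt i := by exact_mod_cast (hw i).1
  have e5 : (wt i : ℝ) * k ^ 2 / cof l i = ((n i).1 * o.1 + (n i).2 * o.2) * k ^ 2 / M := by
    rw [e4, ← hMr]; field_simp
  rw [e5, dot, har]
  ring

end Vale.Agent.P110
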