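import Vale.Agent.P110.Zone1
import Vale.Agent.P110.Flat
import Mathlib.Algebra.Field.ZMod

/-! The zone lemma: a symmetric labelling of cells compatible with many offsets. -/

set_option linter.unusedSectionVars false

namespace Vale.Agent.P110

open Finset

section field

variable {F : Type} [Field F] [Fintype F] [DecidableEq F]

/-- symmetric square coordinate -/
def ph (u : F) : F := (2 * u + 1) ^ 2

theorem ph_mirror (u : F) : ph (-u - 1) = ph u := by unfold ph; ring

theorem ph_eq (h2 : (2 : F) ≠ 0) {u v : F} (h : ph u = ph v) : v = u ∨ v = -u - 1 := by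
  unfold ph at h
  have : (2 * (v - u)) * (2 * (v - (-u - 1))) = 0 := by linear_combination -h
  rcases mul_eq_zero.1 this with h | h
  · left; exact sub_eq_zero.1 ((mul_eq_zero.1 h).resolve_left h2)
  · right; exact sub_eq_zero.1 ((mul_eq_zero.1 h).resolve_left h2)

theorem lin1 {α β : F} (h : α ≠ 0 ∨ β ≠ 0) (c : F) :
    (univ.filter fun z : F × F => α * z.1 + β * z.2 = c).card ≤ Fintype.card F := by
  rcases h with h | h
  · refine card_le_card_of_injOn (fun z => z.2) (fun _ _ => mem_univ _) fun z hz w hw hzw => ?_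
    have h1 := (mem_filter.1 hz).2
    have h2 := (mem_filter.1 hw).2
    have h3 : z.2 = w.2 := hzw
    refine Prod.ext (mul_left_cancel₀ h ?_) h3
    rw [h3] at h1; linear_combination h1 - h2
  · refine card_le_card_of_injOn (fun z => z.1) (fun _ _ => mem_univ _) fun z hz w hw hzw => ?_
    have h1 := (mem_filter.1 hz).2
    have h2 := (mem_filter.1 hw).2
    have h3 : z.1 = w.1 := hzw
    refine Prod.ext h3 (mul_left_cancel₀ h ?_)
    rw [h3] at h1; linear_combination h1 - h2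

theorem lin2 {α β γ δ : F} (h : α * δ - β * γ ≠ 0) (c d : F) :
    (univ.filter fun z : F × F => α * z.1 + β * z.2 = c ∧ γ * z.1 + δ * z.2 = d).card ≤ 1 := by
  refine card_le_one.2 fun z hz w hw => ?_
  obtain ⟨h1, h2⟩ := (mem_filter.1 hz).2
  obtain ⟨h3, h4⟩ := (mem_filter.1 hw).2
  refine Prod.ext (mul_left_cancel₀ h ?_) (mul_left_cancel₀ h ?_)
  · linear_combination δ * (h1 - h3) - β * (h2 - h4)
  · linear_combination α * (h2 - h4) - γ * (h1 - h3)

theorem sum_ind_le {A : Type} [Fintype A] [DecidableEq A] (s : Finset A) (p q r : A → Prop)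
    [DecidablePred p] [DecidablePred q] [DecidablePred r] (h : ∀ a ∈ s, p a → q a ∨ r a)
    {m : ℕ} (hq : (univ.filter q).card ≤ m) (hr : (univ.filter r).card ≤ m) :
    ∑ a ∈ s, (if p a then (1 : ℝ) else 0) ≤ 2 * m := by
  rw [sum_boole]
  have : (s.filter p).card ≤ 2 * m := by
    refine (card_le_card (t := univ.filter q ∪ univ.filter r) fun a ha => ?_).trans
      ((card_union_le _ _).trans (by omega))
    have := mem_filter.1 ha
    simpa using h a this.1 this.2
  exact_mod_cast this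

variable {ι : Type} [Fintype ι] [DecidableEq ι] (a b k : ι → F)

/-- position of a mode -/
def pos (i : ι) (z : F × F) : F := a i * z.1 + b i * z.2 + k i

variable {a b k}

theorem cntA (h2 : (2 : F) ≠ 0) (hd : ∀ i j, i ≠ j → a i * b j - b i * a j ≠ 0) (i j : ι) :
    ∑ z : F × F, (if i ≠ j ∧ ph (pos a b k i z) = ph (pos a b k j z) then (1 : ℝ) else 0) ≤
      2 * Fintype.card F := by
  by_cases hij : i = j
  · simp [hij]
  have hd' := hd i j hij
  have q1 : a j - a i ≠ 0 ∨ b j - b i ≠ 0 := by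
    by_contra h
    rw [not_or, not_not, not_not] at h
    exact hd' (by linear_combination a i * h.2 - b i * h.1)
  have q2 : a j + a i ≠ 0 ∨ b j + b i ≠ 0 := by
    by_contra h
    rw [not_or, not_not, not_not] at h
    exact hd' (by linear_combination a i * h.2 - b i * h.1)
  refine sum_ind_le _ _ _ _ (fun z _ h => ?_) (lin1 q1 (k i - k j)) (lin1 q2 (-k i - k j - 1))
  rcases ph_eq h2 h.2 with h | h <;> unfold pos at h
  · left; linear_combination h
  · right; linear_combination h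

theorem cntB (h2 : (2 : F) ≠ 0) (ha : ∀ i, a i ≠ 0) (j : ι) (u : F) :
    ∑ z : F × F, (if ph u = ph (pos a b k j z) then (1 : ℝ) else 0) ≤ 2 * Fintype.card F := by
  refine sum_ind_le _ _ (fun z => a j * z.1 + b j * z.2 = u - k j)
    (fun z => a j * z.1 + b j * z.2 = -u - 1 - k j) (fun z _ h => ?_)
    (lin1 (Or.inl (ha j)) _) (lin1 (Or.inl (ha j)) _)
  rcases ph_eq h2 h with h | h <;> unfold pos at h
  · left; linear_combination h
  · right; linear_combination h

theorem cntC (h2 : (2 : F) ≠ 0) (hd : ∀ i j, i ≠ j → a i * b j - b i * a j ≠ 0) {i j : ι}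
    (hij : i ≠ j) (c u : F) :
    ∑ z ∈ univ.filter (fun z => pos a b k i z = c),
      (if ph u = ph (pos a b k j z) then (1 : ℝ) else 0) ≤ 2 := by
  have := sum_ind_le (univ.filter (fun z => pos a b k i z = c))
    (fun z => ph u = ph (pos a b k j z))
    (fun z => a i * z.1 + b i * z.2 = c - k i ∧ a j * z.1 + b j * z.2 = u - k j)
    (fun z => a i * z.1 + b i * z.2 = c - k i ∧ a j * z.1 + b j * z.2 = -u - 1 - k j)
    (fun z hz h => ?_) (lin2 (hd i j hij) _ _) (lin2 (hd i j hij) _ _)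
  · simpa using this
  · have hz' := (mem_filter.1 hz).2
    rcases ph_eq h2 h with h | h <;> unfold pos at h hz'
    · left; exact ⟨by linear_combination hz', by linear_combination h⟩
    · right; exact ⟨by linear_combination hz', by linear_combination h⟩

theorem fib_card (ha : ∀ i, a i ≠ 0) (i : ι) (c : F) :
    ((univ.filter (fun z => pos a b k i z = c)).card : ℝ) ≤ Fintype.card F := by
  have := lin1 (Or.inl (ha i) : a i ≠ 0 ∨ b i ≠ 0) (c - k i)
  have h : univ.filter (fun z => pos a b k i z = c) =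
      univ.filter fun z : F × F => a i * z.1 + b i * z.2 = c - k i :=
    filter_congr fun z _ => by unfold pos; constructor <;> intro h <;> linear_combination h
  rw [h]; exact_mod_cast this

theorem sum3_le {A J : Type} [Fintype J] (s : Finset A) (f : A → J → J → ℝ) {m : ℝ}
    (h : ∀ j l, ∑ x ∈ s, f x j l ≤ m) :
    ∑ x ∈ s, ∑ j, ∑ l, f x j l ≤ (Fintype.card J : ℝ) ^ 2 * m := by
  rw [sum_comm]
  refine (sum_le_sum fun j _ => (sum_comm.trans_le (sum_le_sum fun l _ => h j l))).trans ?_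
  simp only [sum_const, card_univ, nsmul_eq_mul]
  apply le_of_eq; ring

variable (a b k)

/-- number of admissible offsets -/
def Tt (L : F → ι) : ℝ := ∑ z : F × F, ind (fun i => ph (pos a b k i z)) id L

/-- fibre degree -/
def Dg (i : ι) (c : F) (L : F → ι) : ℝ := ∑ z ∈ univ.filter (fun z => pos a b k i z = c),
  ind (fun j : {j // j ≠ i} => ph (pos a b k j z)) Subtype.val L

variable {a b k} {σ : ι → ℝ}

theorem var_Tt (h2 : (2 : F) ≠ 0) (ha : ∀ i, a i ≠ 0)
    (hd : ∀ i j, i ≠ j → a i * b j - b i * a j ≠ 0) (h0 : ∀ i, 0 ≤ σ i) (hs : ∑ i, σ i = 1) :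
    Ex σ (fun L => (Tt a b k L - (Fintype.card F : ℝ) ^ 2 * ∏ i, σ i) ^ 2) ≤
      6 * (Fintype.card ι : ℝ) ^ 2 * (Fintype.card F : ℝ) ^ 3 := by
  have h1 := second_moment (Y := F) h0 hs (univ : Finset (F × F))
    (fun z i => ph (pos a b k i z)) id
  have hc : ((univ : Finset (F × F)).card : ℝ) = (Fintype.card F : ℝ) ^ 2 := by
    simp [sq]
  rw [hc] at h1
  refine h1.trans ?_
  have e1 : ∑ z : F × F, cB (fun i => ph (pos a b k i z)) ≤
      (Fintype.card ι : ℝ) ^ 2 * (2 * Fintype.card F) := sum3_le _ _ fun j l => cntA h2 hd j l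
  have e2 : ∀ z : F × F, ∑ w : F × F, cC (fun i => ph (pos a b k i z))
      (fun i => ph (pos a b k i w)) ≤ (Fintype.card ι : ℝ) ^ 2 * (2 * Fintype.card F) :=
    fun z => sum3_le _ _ fun j l => cntB h2 ha l _
  have e3 := sum_le_sum fun z (_ : z ∈ (univ : Finset (F × F))) => e2 z
  rw [sum_const, nsmul_eq_mul, hc] at e3
  have : (0 : ℝ) ≤ (Fintype.card F : ℝ) ^ 2 := by positivity
  nlinarith

theorem var_Dg (h2 : (2 : F) ≠ 0) (ha : ∀ i, a i ≠ 0)
    (hd : ∀ i j, i ≠ j → a i * b j - b i * a j ≠ 0) (h0 : ∀ i, 0 ≤ σ i) (hs : ∑ i, σ i = 1)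
    (i : ι) :
    Ex σ (fun L => ∑ c : F, (Dg a b k i c L - (univ.filter (fun z => pos a b k i z = c)).card *
      ∏ j : {j // j ≠ i}, σ j) ^ 2) ≤
      6 * (Fintype.card ι : ℝ) ^ 2 * (Fintype.card F : ℝ) ^ 2 := by
  rw [Ex_sum]
  have hK : (Fintype.card {j // j ≠ i} : ℝ) ^ 2 ≤ (Fintype.card ι : ℝ) ^ 2 := by
    gcongr; exact Fintype.card_subtype_le _
  have e1 : ∑ z : F × F, cB (fun j : {j // j ≠ i} => ph (pos a b k j z)) ≤
      (Fintype.card ι : ℝ) ^ 2 * (2 * Fintype.card F) := by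
    refine (sum3_le _ _ (m := 2 * Fintype.card F) fun j l => ?_).trans (by gcongr)
    refine le_trans (le_of_eq (sum_congr rfl fun z _ => ?_)) (cntA (k := k) h2 hd j.1 l.1)
    simp [Subtype.ext_iff]
  have e2 : ∀ (c : F) (z : F × F), ∑ w ∈ univ.filter (fun z => pos a b k i z = c),
      cC (fun j : {j // j ≠ i} => ph (pos a b k j z))
      (fun j : {j // j ≠ i} => ph (pos a b k j w)) ≤ (Fintype.card ι : ℝ) ^ 2 * 2 :=
    fun c z => (sum3_le _ _ fun j l => cntC h2 hd (Ne.symm l.2) c _).trans (by gcongr)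
  have e3 : ∀ c : F, Ex σ (fun L => (Dg a b k i c L -
      (univ.filter (fun z => pos a b k i z = c)).card * ∏ j : {j // j ≠ i}, σ j) ^ 2) ≤
      ∑ z ∈ univ.filter (fun z => pos a b k i z = c),
        (2 * Fintype.card F * cB (fun j : {j // j ≠ i} => ph (pos a b k j z)) +
          (Fintype.card ι : ℝ) ^ 2 * 2) := by
    intro c
    refine (second_moment (Y := F) h0 hs _ (fun z (j : {j // j ≠ i}) => ph (pos a b k j z))
      Subtype.val).trans ?_
    rw [sum_add_distrib, ← mul_sum]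
    refine add_le_add ?_ (sum_le_sum fun z _ => e2 c z)
    have := fib_card (b := b) (k := k) ha i c
    gcongr
    exact sum_nonneg fun _ _ => cB_nonneg _
  refine (sum_le_sum fun c _ => e3 c).trans ?_
  rw [sum_fiberwise, sum_add_distrib, ← mul_sum, sum_const, nsmul_eq_mul]
  have hc : ((univ : Finset (F × F)).card : ℝ) = (Fintype.card F : ℝ) ^ 2 := by
    simp [sq]
  rw [hc]
  have : (0 : ℝ) ≤ (Fintype.card F : ℝ) := by positivity
  nlinarith

theorem trim_aux {x d d' ε : ℝ} (hε : 0 < ε) (hε1 : ε ≤ 1) (hd : 0 < d) (hd' : d' ≤ d) :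
    (if (1 + ε) * d < x then x else 0) ≤ 2 / (ε ^ 2 * d) * (x - d') ^ 2 := by
  split_ifs with h
  · rw [div_mul_eq_mul_div, le_div_iff₀ (by positivity)]
    have h1 : ε * d ≤ x - d' := by nlinarith
    have h2 : ε * x ≤ 2 * (x - d') := by
      nlinarith [mul_nonneg (by linarith : 0 ≤ 2 - ε) (by linarith : 0 ≤ x - (1 + ε) * d),
        mul_nonneg (mul_nonneg hε.le (by linarith : 0 ≤ 1 - ε)) hd.le]
    have h3 : 0 ≤ ε * x := mul_nonneg hε.le (by nlinarith)
    nlinarith [mul_le_mul h1 h2 h3 (by nlinarith)]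
  · positivity

theorem trim (ha : ∀ i, a i ≠ 0) (h0 : ∀ i, 0 < σ i) (hs : ∑ i, σ i = 1) (L : F → ι) {C ε : ℝ}
    (hε : 0 < ε) (hε1 : ε ≤ 1)
    (hT : (Tt a b k L - (Fintype.card F : ℝ) ^ 2 * ∏ i, σ i) ^ 2 ≤ C * (Fintype.card F : ℝ) ^ 3)
    (hD : ∀ i, ∑ c : F, (Dg a b k i c L - (univ.filter (fun z => pos a b k i z = c)).card *
      ∏ j : {j // j ≠ i}, σ j) ^ 2 ≤ C * (Fintype.card F : ℝ) ^ 2)
    (hQ : 4 * C * (1 + Fintype.card ι) ≤ ε ^ 3 * (∏ i, σ i) ^ 2 * Fintype.card F) :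
    ∃ G : Finset (F × F), (1 - ε) * ((Fintype.card F : ℝ) ^ 2 * ∏ i, σ i) ≤ G.card ∧
      (∀ z ∈ G, ∀ i, L (ph (pos a b k i z)) = i) ∧
      ∀ i c, ((G.filter fun z => pos a b k i z = c).card : ℝ) * σ i ≤
        (1 + ε) * (Fintype.card F * ∏ i, σ i) := by
  set Q : ℝ := (Fintype.card F : ℝ) with hQ'
  have hQ0 : 0 < Q := by rw [hQ']; exact_mod_cast Fintype.card_pos
  set π : ℝ := ∏ i, σ i with hπ
  have hπ0 : 0 < π := prod_pos fun i _ => h0 i
  have hσ1 : ∀ i, σ i ≤ 1 := fun i => hs ▸ single_le_sum (fun i _ => (h0 i).le) (mem_univ _)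
  have hπi : ∀ i : ι, σ i * ∏ j : {j // j ≠ i}, σ j = π := fun i =>
    (Fintype.prod_eq_mul_prod_subtype_ne σ i).symm
  have hπi0 : ∀ i : ι, 0 < ∏ j : {j // j ≠ i}, σ j := fun i => prod_pos fun j _ => h0 j.1
  have hπi1 : ∀ i : ι, π ≤ ∏ j : {j // j ≠ i}, σ j := fun i => by
    rw [← hπi i]; exact mul_le_of_le_one_left (hπi0 i).le (hσ1 i)
  have hC : 0 ≤ C := nonneg_of_mul_nonneg_left ((sq_nonneg _).trans hT) (by positivity)
  let G : Finset (F × F) := univ.filter fun z => (∀ i, L (ph (pos a b k i z)) = i) ∧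
    ∀ i, Dg a b k i (pos a b k i z) L ≤ (1 + ε) * (Q * ∏ j : {j // j ≠ i}, σ j)
  refine ⟨G, ?_, fun z hz => (mem_filter.1 hz).2.1, fun i c => ?_⟩
  · have h1 : ∀ z : F × F, ind (fun i => ph (pos a b k i z)) id L ≤
        (if z ∈ G then 1 else 0) + ∑ i, (if (1 + ε) * (Q * ∏ j : {j // j ≠ i}, σ j) <
          Dg a b k i (pos a b k i z) L then
          ind (fun j : {j // j ≠ i} => ph (pos a b k j z)) Subtype.val L else 0) := by
      intro z
      have hn : ∀ i, 0 ≤ (if (1 + ε) * (Q * ∏ j : {j // j ≠ i}, σ j) <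
          Dg a b k i (pos a b k i z) L then
          ind (fun j : {j // j ≠ i} => ph (pos a b k j z)) Subtype.val L else 0) := fun i => by
        split_ifs
        · exact ind_nonneg _ _ _
        · exact le_rfl
      have hsn := sum_nonneg fun i (_ : i ∈ univ) => hn i
      by_cases hz : z ∈ G
      · rw [if_pos hz]; linarith [ind_le_one (fun i => ph (pos a b k i z)) id L]
      rw [if_neg hz, zero_add, ind_eq]
      split_ifs with h
      · simp only [G, mem_filter, mem_univ, true_and, not_and, not_forall, not_le] at hz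
        obtain ⟨i, hi⟩ := hz h
        refine le_trans ?_ (single_le_sum (fun i _ => hn i) (mem_univ i))
        rw [if_pos hi, ind_eq, if_pos]
        exact fun j => h j.1
      · exact hsn
    have h2 : ∀ i, ∑ z : F × F, (if (1 + ε) * (Q * ∏ j : {j // j ≠ i}, σ j) <
          Dg a b k i (pos a b k i z) L then
          ind (fun j : {j // j ≠ i} => ph (pos a b k j z)) Subtype.val L else 0) ≤
          2 / (ε ^ 2 * (Q * π)) * (C * Q ^ 2) := by
      intro i
      rw [← sum_fiberwise univ (fun z => pos a b k i z)]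
      have h3 : ∀ c : F, ∑ z ∈ univ.filter (fun z => pos a b k i z = c),
          (if (1 + ε) * (Q * ∏ j : {j // j ≠ i}, σ j) < Dg a b k i (pos a b k i z) L then
          ind (fun j : {j // j ≠ i} => ph (pos a b k j z)) Subtype.val L else 0) ≤
          2 / (ε ^ 2 * (Q * π)) * (Dg a b k i c L -
            (univ.filter (fun z => pos a b k i z = c)).card * ∏ j : {j // j ≠ i}, σ j) ^ 2 := by
        intro c
        have h4 := trim_aux (x := Dg a b k i c L) hε hε1 (mul_pos hQ0 (hπi0 i))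
          (mul_le_mul_of_nonneg_right (fib_card (b := b) (k := k) ha i c) (hπi0 i).le)
        refine le_trans (le_of_eq ?_) (h4.trans ?_)
        · rw [sum_congr rfl fun z hz => by rw [(mem_filter.1 hz).2]]
          split_ifs
          · rfl
          · simp
        · have := hπi1 i
          gcongr
      refine (sum_le_sum fun c _ => h3 c).trans ?_
      rw [← mul_sum]
      gcongr
      exact hD i
    have h3 : Tt a b k L ≤ G.card + Fintype.card ι * (2 / (ε ^ 2 * (Q * π)) * (C * Q ^ 2)) := by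
      refine (sum_le_sum fun z _ => h1 z).trans ?_
      rw [sum_add_distrib, sum_boole, sum_comm]
      refine add_le_add (le_of_eq (by simp)) ((sum_le_sum fun i _ => h2 i).trans ?_)
      simp
    have hK : (0 : ℝ) ≤ Fintype.card ι := by positivity
    have h4 : Fintype.card ι * (2 / (ε ^ 2 * (Q * π)) * (C * Q ^ 2)) ≤ ε / 2 * (Q ^ 2 * π) := by
      have : Fintype.card ι * (2 / (ε ^ 2 * (Q * π)) * (C * Q ^ 2)) =
          (4 * C * Fintype.card ι) * (Q / (2 * ε ^ 2 * π)) := by field_simp; ring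
      rw [this]
      have : ε / 2 * (Q ^ 2 * π) = (ε ^ 3 * π ^ 2 * Q) * (Q / (2 * ε ^ 2 * π)) := by
        field_simp
      rw [this]
      exact mul_le_mul_of_nonneg_right (by nlinarith) (by positivity)
    have h5 : C * Q ^ 3 ≤ (ε / 2 * (Q ^ 2 * π)) ^ 2 := by
      have h6 : ε ^ 3 * π ^ 2 * Q ≤ ε ^ 2 * π ^ 2 * Q := by
        have : ε ^ 3 ≤ ε ^ 2 := pow_le_pow_of_le_one hε.le hε1 (by norm_num)
        gcongr
      have h7 : 4 * C ≤ ε ^ 2 * π ^ 2 * Q := by nlinarith
      have : (ε / 2 * (Q ^ 2 * π)) ^ 2 = (ε ^ 2 * π ^ 2 * Q) * Q ^ 3 / 4 := by ring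
      rw [this, le_div_iff₀ (by norm_num)]
      nlinarith [pow_pos hQ0 3]
    have h6 := abs_le_of_sq_le_sq' (hT.trans h5) (by positivity)
    linarith [h6.1]
  · rcases (G.filter fun z => pos a b k i z = c).eq_empty_or_nonempty with h | ⟨z, hz⟩
    · rw [h]; simp; positivity
    obtain ⟨hz1, hz2⟩ := mem_filter.1 hz
    have h1 := (mem_filter.1 hz1).2.2 i
    rw [hz2] at h1
    have h2 : ((G.filter fun z => pos a b k i z = c).card : ℝ) ≤ Dg a b k i c L := by
      rw [card_eq_sum_ones]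
      push_cast
      refine le_trans (sum_le_sum fun w hw => ?_) (sum_le_sum_of_subset_of_nonneg
        (filter_subset_filter _ (subset_univ G)) fun w _ _ => ind_nonneg _ _ _)
      rw [ind_eq, if_pos fun j : {j // j ≠ i} => (mem_filter.1 (mem_filter.1 hw).1).2.1 j.1]
    rw [← hπi i]
    nlinarith [h0 i]

end field

/-- the zone lemma -/
theorem zone {ι Sx : Type} [Fintype ι] [DecidableEq ι] [Nonempty ι] [Fintype Sx]
    (n : ι → ℤ × ℤ) (hn : ∀ i, 0 < (n i).1) (hdet : ∀ i j, i ≠ j → det (n i) (n j) ≠ 0)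
    (σ : ι → ℝ) (h0 : ∀ i, 0 < σ i) (hs : ∑ i, σ i = 1) (κ : Sx → ι → ℤ) {ε : ℝ} (hε : 0 < ε)
    (hε1 : ε ≤ 1) :
    ∃ (Q : ℕ) (Λ : ZMod Q → ι) (g : ℕ) (G : Sx → Finset (ℤ × ℤ)), 0 < Q ∧ 0 < g ∧
      (∀ c, Λ (-c - 1) = Λ c) ∧ (∀ s, (G s).card = g) ∧
      (∀ s, ∀ z ∈ G s, ∀ i, Λ (((n i).1 * z.1 + (n i).2 * z.2 + κ s i : ℤ) : ZMod Q) = i) ∧
      ∀ s i (c : ZMod Q), (((G s).filter fun z =>
        (((n i).1 * z.1 + (n i).2 * z.2 + κ s i : ℤ) : ZMod Q) = c).card : ℝ) * σ i * Q ≤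
        (1 + ε) * g := by
  set C : ℝ := Fintype.card Sx * (6 * (Fintype.card ι : ℝ) ^ 2 * (1 + Fintype.card ι)) with hC
  set π : ℝ := ∏ i, σ i with hπ
  have hπ0 : 0 < π := prod_pos fun i _ => h0 i
  obtain ⟨Q0, hQ0⟩ := exists_nat_ge (4 * C * (1 + Fintype.card ι) / ((ε / 3) ^ 3 * π ^ 2))
  obtain ⟨Q, hQ, hp⟩ := Nat.exists_infinite_primes
    (Q0 + 3 + ∑ i, (n i).1.natAbs + ∑ i, ∑ j, (det (n i) (n j)).natAbs)
  have : Fact Q.Prime := ⟨hp⟩
  have hnz : ∀ m : ℤ, m ≠ 0 → m.natAbs < Q → (m : ZMod Q) ≠ 0 := by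
    intro m hm hlt h
    rw [ZMod.intCast_zmod_eq_zero_iff_dvd] at h
    exact hm (Int.eq_zero_of_abs_lt_dvd h (by rw [Int.abs_eq_natAbs]; exact_mod_cast hlt))
  have h2 : (2 : ZMod Q) ≠ 0 := by
    have := hnz 2 (by norm_num) (by simp; omega)
    exact_mod_cast this
  let a : ι → ZMod Q := fun i => (n i).1
  let b : ι → ZMod Q := fun i => (n i).2
  let k : Sx → ι → ZMod Q := fun s i => κ s i
  have ha : ∀ i, a i ≠ 0 := fun i => hnz _ (hn i).ne' (by
    have := single_le_sum (f := fun i => (n i).1.natAbs) (fun _ _ => Nat.zero_le _) (mem_univ i)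
    omega)
  have hd : ∀ i j, i ≠ j → a i * b j - b i * a j ≠ 0 := fun i j hij => by
    have := hnz _ (hdet i j hij) (by
      have h1 := single_le_sum (f := fun i => ∑ j, (det (n i) (n j)).natAbs)
        (fun _ _ => Nat.zero_le _) (mem_univ i)
      have h2 := single_le_sum (f := fun j => (det (n i) (n j)).natAbs)
        (fun _ _ => Nat.zero_le _) (mem_univ j)
      omega)
    simpa [det, a, b] using this
  have hcard : (Fintype.card (ZMod Q) : ℝ) = Q := by rw [ZMod.card]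
  have hQpos : (0 : ℝ) < Q := by exact_mod_cast hp.pos
  let A : Sx → (ZMod Q → ι) → ℝ := fun s L =>
    (Tt a b (k s) L - (Fintype.card (ZMod Q) : ℝ) ^ 2 * ∏ i, σ i) ^ 2
  let B : Sx → ι → (ZMod Q → ι) → ℝ := fun s i L => ∑ c : ZMod Q, (Dg a b (k s) i c L -
    (univ.filter (fun z => pos a b (k s) i z = c)).card * ∏ j : {j // j ≠ i}, σ j) ^ 2
  have hA0 : ∀ s L, 0 ≤ A s L := fun s L => sq_nonneg _
  have hB0 : ∀ s i L, 0 ≤ B s i L := fun s i L => sum_nonneg fun _ _ => sq_nonneg _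
  obtain ⟨L, hL⟩ := exists_le_Ex (fun i => (h0 i).le) hs
    (fun L : ZMod Q → ι => ∑ s, (A s L + Q * ∑ i, B s i L))
  have hE : Ex σ (fun L : ZMod Q → ι => ∑ s, (A s L + Q * ∑ i, B s i L)) ≤ C * Q ^ 3 := by
    rw [Ex_sum]
    have h3 : ∀ s, Ex σ (fun L : ZMod Q → ι => A s L + Q * ∑ i, B s i L) ≤
        6 * (Fintype.card ι : ℝ) ^ 2 * (1 + Fintype.card ι) * Q ^ 3 := by
      intro s
      rw [Ex_add, Ex_mul, Ex_sum]
      have e1 := var_Tt (k := k s) h2 ha hd (fun i => (h0 i).le) hs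
      have e2 := sum_le_sum fun i (_ : i ∈ univ) =>
        var_Dg (k := k s) h2 ha hd (fun i => (h0 i).le) hs i
      rw [sum_const, card_univ, nsmul_eq_mul] at e2
      have e3 := mul_le_mul_of_nonneg_left e2 hQpos.le
      rw [hcard] at e3
      have e4 : Ex σ (A s) ≤ 6 * (Fintype.card ι : ℝ) ^ 2 * (Q : ℝ) ^ 3 := hcard ▸ e1
      refine (add_le_add e4 e3).trans (le_of_eq (by ring))
    refine (sum_le_sum fun s _ => h3 s).trans (le_of_eq ?_)
    rw [sum_const, card_univ, nsmul_eq_mul, hC]; ring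
  have hsum : ∀ s, A s L + Q * ∑ i, B s i L ≤ C * Q ^ 3 := fun s =>
    (single_le_sum (f := fun s => A s L + Q * ∑ i, B s i L) (fun s _ => add_nonneg (hA0 s L)
      (mul_nonneg hQpos.le (sum_nonneg fun i _ => hB0 s i L))) (mem_univ s)).trans (hL.trans hE)
  have hG : ∀ s, ∃ G : Finset (ZMod Q × ZMod Q), (1 - ε / 3) * ((Q : ℝ) ^ 2 * π) ≤ G.card ∧
      (∀ z ∈ G, ∀ i, L (ph (pos a b (k s) i z)) = i) ∧
      ∀ i c, ((G.filter fun z => pos a b (k s) i z = c).card : ℝ) * σ i ≤
        (1 + ε / 3) * (Q * π) := by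
    intro s
    have := trim (b := b) (k := k s) ha h0 hs L (C := C) (ε := ε / 3) (by positivity) (by linarith)
      (by
        have := mul_nonneg hQpos.le (sum_nonneg fun i (_ : i ∈ univ) => hB0 s i L)
        have h3 : A s L ≤ C * Q ^ 3 := by linarith [hsum s]
        simp only [A, hcard] at h3 ⊢
        exact h3)
      (fun i => by
        have h3 : B s i L ≤ ∑ i, B s i L := single_le_sum (fun i _ => hB0 s i L) (mem_univ i)
        have h4 : Q * B s i L ≤ Q * (C * Q ^ 2) := by nlinarith [hsum s, hA0 s L]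
        exact hcard ▸ le_of_mul_le_mul_left h4 hQpos)
      (by
        rw [hcard, div_le_iff₀ (by positivity)] at *
        have : (Q0 : ℝ) ≤ Q := by exact_mod_cast (by omega : Q0 ≤ Q)
        refine hQ0.trans ?_
        rw [mul_comm]; gcongr)
    rwa [hcard] at this
  choose G hG1 hG2 hG3 using hG
  set g := ⌈(1 - ε / 3) * ((Q : ℝ) ^ 2 * π)⌉₊ with hg
  have hpos : 0 < (1 - ε / 3) * ((Q : ℝ) ^ 2 * π) := mul_pos (by linarith) (by positivity)
  have hG' : ∀ s, ∃ G' ⊆ G s, G'.card = g := fun s =>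
    exists_subset_card_eq (Nat.ceil_le.2 (hG1 s))
  choose G' hG4 hG5 using hG'
  let lift : ZMod Q × ZMod Q → ℤ × ℤ := fun z => ((z.1.val : ℤ), (z.2.val : ℤ))
  have hlift : ∀ s i z, (((n i).1 * (lift z).1 + (n i).2 * (lift z).2 + κ s i : ℤ) : ZMod Q) =
      pos a b (k s) i z := by
    intro s i z; simp [lift, pos, a, b, k]
  have hinj : Function.Injective lift := by
    intro z w h
    simp only [lift, Prod.mk.injEq, Nat.cast_inj] at h
    exact Prod.ext (ZMod.val_injective _ h.1) (ZMod.val_injective _ h.2)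
  refine ⟨Q, fun c => L (ph c), g, fun s => (G' s).image lift, hp.pos, Nat.ceil_pos.2 hpos,
    fun c => by simp only [ph_mirror], fun s => by rw [card_image_of_injective _ hinj, hG5],
    fun s z hz i => ?_, fun s i c => ?_⟩
  · obtain ⟨w, hw, rfl⟩ := mem_image.1 hz
    rw [hlift]; exact hG2 s w (hG4 s hw) i
  · rw [filter_image, card_image_of_injective _ hinj]
    simp only [hlift]
    have h3 : (((G' s).filter fun z => pos a b (k s) i z = c).card : ℝ) ≤
        ((G s).filter fun z => pos a b (k s) i z = c).card := by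
      exact_mod_cast card_le_card (filter_subset_filter _ (hG4 s))
    have h4 := (mul_le_mul_of_nonneg_right h3 (h0 i).le).trans (hG3 s i c)
    have h5 : (1 - ε / 3) * ((Q : ℝ) ^ 2 * π) ≤ g := Nat.le_ceil _
    have h6 : 0 < (Q : ℝ) ^ 2 * π := by positivity
    calc _ ≤ (1 + ε / 3) * (Q * π) * Q := by gcongr
      _ = (1 + ε / 3) * ((Q : ℝ) ^ 2 * π) := by ring
      _ ≤ (1 + ε) * ((1 - ε / 3) * ((Q : ℝ) ^ 2 * π)) := by
          rw [← mul_assoc (1 + ε)]
          have h7 : 1 + ε / 3 ≤ (1 + ε) * (1 - ε / 3) := by nlinarith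
          exact mul_le_mul_of_nonneg_right h7 h6.le
      _ ≤ _ := by gcongr

end Vale.Agent.P110
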