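import Vale.Agent.P110.Design1
import Vale.Agent.P110.Zone2

/-! The design: a tiling of almost all of the half circle by slots, whose exponential sums
are almost bounded by one. -/

namespace Vale.Agent.P110

open Complex Finset

theorem fiber_count {S : Type} [Fintype S] (G : S → Finset (ℤ × ℤ)) (X : ℕ) (P : S → Prop)
    [DecidablePred P] (R : S → ℤ × ℤ → Prop) [∀ s, DecidablePred (R s)] {m : ℝ}
    (hm : ∀ s, (((G s).filter (R s)).card : ℝ) ≤ m) :
    ((univ.filter fun w : (Σ s, G s) × Fin X => R w.1.1 w.1.2 ∧ P w.1.1).card : ℝ) ≤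
      (univ.filter P).card * (m * X) := by
  rw [card_filter, Fintype.sum_prod_type, Fintype.sum_sigma, ← nsmul_eq_mul, ← sum_const,
    sum_filter]
  push_cast
  refine sum_le_sum fun s _ => ?_
  split_ifs with h
  · simp only [h, and_true, sum_const, card_univ, Fintype.card_fin, nsmul_eq_mul]
    rw [← mul_sum, sum_coe_sort (G s) (fun z => if R s z then (1 : ℝ) else 0), mul_comm]
    have := hm s
    rw [card_filter] at this
    push_cast at this
    gcongr
  · simp [h]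

theorem amp_close {σ ρ ε : ℝ} (h1 : σ ≤ 1) (hε : 0 ≤ ε) (h2 : σ / 2 ≤ (1 + ε) ^ 2 * ρ)
    (h3 : ρ ≤ σ / 2) : |√ρ - √(σ / 2)| ≤ ε := by
  have e1 : √ρ ≤ √(σ / 2) := Real.sqrt_le_sqrt h3
  have e2 : √(σ / 2) ≤ (1 + ε) * √ρ := by
    refine (Real.sqrt_le_sqrt h2).trans_eq ?_
    rw [Real.sqrt_mul (by positivity), Real.sqrt_sq (by positivity)]
  have e3 : √ρ ≤ 1 := Real.sqrt_le_one.2 (by linarith)
  rw [abs_le]
  constructor <;> nlinarith

theorem params {ι : Type} [Fintype ι] [Nonempty ι] (β : ι → ℝ) (hβ : ∀ i, 0 < β i) {ε : ℝ}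
    (hε0 : 0 < ε) : ∃ (B : ℕ) (A : ι → ℕ), 0 < B ∧
      (∀ i, 4 * (Fintype.card ι : ℝ) + 1 ≤ 2 * (B * β i) * ε) ∧ (∀ i, B * β i ≤ A i) ∧
      (∀ i, A i ≤ B * β i + 2 * (Fintype.card ι : ℝ)) ∧ ∀ i j, i ≠ j → A i ≠ A j := by
  set K := Fintype.card ι with hK
  have hK0 : 0 < K := Fintype.card_pos
  have hK1 : (1 : ℝ) ≤ K := by exact_mod_cast hK0
  obtain ⟨B, hB⟩ := exists_nat_ge (∑ i, (4 * K + 1) / (2 * β i * ε))
  have hB1 : ∀ i, 4 * K + 1 ≤ 2 * (B * β i) * ε := fun i => by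
    have h2 := (single_le_sum (f := fun i => (4 * K + 1) / (2 * β i * ε))
      (fun j _ => by have := hβ j; positivity) (mem_univ i)).trans hB
    have := hβ i
    rw [div_le_iff₀ (by positivity)] at h2
    linarith
  have hB0 : 0 < B := by
    rcases Nat.eq_zero_or_pos B with h | h
    · have := hB1 (Classical.arbitrary _)
      rw [h] at this; simp at this; linarith
    · exact h
  let idx := Fintype.equivFin ι
  let A : ι → ℕ := fun i => K * ⌈B * β i / K⌉₊ + idx i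
  have hA1 : ∀ i, B * β i ≤ A i := fun i => by
    have h2 := Nat.le_ceil (B * β i / K)
    rw [div_le_iff₀ (by positivity)] at h2
    simp only [A]; push_cast
    have : (0 : ℝ) ≤ (idx i : ℕ) := by positivity
    linarith
  have hA2 : ∀ i, A i ≤ B * β i + 2 * K := fun i => by
    have h2 := (Nat.ceil_lt_add_one (a := B * β i / K) (by have := hβ i; positivity)).le
    have h3 : ((idx i : ℕ) : ℝ) ≤ K := by exact_mod_cast (idx i).2.le
    have h4 := mul_le_mul_of_nonneg_left h2 (by positivity : (0 : ℝ) ≤ K)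
    rw [mul_add, mul_div_cancel₀ _ (by positivity)] at h4
    simp only [A]; push_cast
    linarith
  have hA3 : ∀ i j, i ≠ j → A i ≠ A j := fun i j hij h => by
    have h2 := congrArg (· % K) h
    simp only [A, Nat.mul_add_mod] at h2
    rw [Nat.mod_eq_of_lt (idx i).2, Nat.mod_eq_of_lt (idx j).2] at h2
    exact hij (idx.injective (Fin.ext h2))
  exact ⟨B, A, hB0, hB1, hA1, hA2, hA3⟩

theorem rho_bounds {ρ σ ε A Y b K : ℝ} (hσ : 0 < σ) (hε0 : 0 < ε) (hY : 1 ≤ Y) (hb : 0 < b)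
    (hρ0 : 0 ≤ ρ) (hρ : ρ * ((1 + ε) * (2 * (A * Y) + 1)) = σ * (b * Y)) (hA1 : b ≤ A)
    (hA2 : A ≤ b + 2 * K) (hB : 4 * K + 1 ≤ 2 * b * ε) :
    ρ ≤ σ / 2 ∧ σ / 2 ≤ (1 + ε) ^ 2 * ρ := by
  have hY0 : 0 ≤ Y := by linarith
  constructor
  · have h3 := mul_le_mul_of_nonneg_right hA1 hY0
    have h4 : 0 ≤ A * Y := mul_nonneg (by linarith) hY0
    by_contra h6
    push Not at h6
    have h7 : (0 : ℝ) < (1 + ε) * (2 * (A * Y) + 1) := by positivity
    nlinarith [mul_lt_mul_of_pos_right h6 h7, mul_nonneg hσ.le (mul_nonneg hε0.le h4)]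
  · have h3 := mul_le_mul_of_nonneg_right hA2 hY0
    have h4 := mul_le_mul_of_nonneg_right hB hY0
    have h5 : 2 * (A * Y) + 1 ≤ (1 + ε) * (2 * (b * Y)) := by nlinarith
    have h6 : 0 < b * Y := by positivity
    have h7 := mul_le_mul_of_nonneg_left h5 (mul_nonneg hρ0 (by positivity : 0 ≤ 1 + ε))
    refine le_of_mul_le_mul_right ?_ h6
    nlinarith

theorem combine {ι : Type} [Fintype ι] (c v : ι → ℂ) (hc : ∀ i, c i ≠ 0) (hv : ∀ i, ‖v i‖ = 1)
    (hF : |2 * (∑ i, c i * v i).re| ≤ 1) {η ε e : ℝ} (h0 : 0 < η) (h1 : η ≤ 1) (hε0 : 0 < ε)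
    (hεK : ε * Fintype.card ι = η / 4) (he : 1 - η / 2 ≤ e) (ρ : ι → ℝ)
    (hσ2 : ∀ i, 2 * ‖c i‖ ^ 2 / e ≤ 1) (hρ1 : ∀ i, ρ i ≤ 2 * ‖c i‖ ^ 2 / e / 2)
    (hρ2 : ∀ i, 2 * ‖c i‖ ^ 2 / e / 2 ≤ (1 + ε) ^ 2 * ρ i) :
    |2 * (∑ i, ((√(ρ i) : ℝ) : ℂ) * (c i / ‖c i‖ * v i)).re| ≤ 1 + η := by
  have he0 : 0 < e := by linarith
  have h2 : ∀ i, ((√(ρ i) : ℝ) : ℂ) * (c i / ‖c i‖ * v i) = ((1 / √e : ℝ) : ℂ) * (c i * v i) +
      ((√(ρ i) - √(2 * ‖c i‖ ^ 2 / e / 2) : ℝ) : ℂ) * (c i / ‖c i‖ * v i) := by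
    intro i
    have h5 : √(2 * ‖c i‖ ^ 2 / e / 2) = ‖c i‖ * (1 / √e) := by
      rw [show 2 * ‖c i‖ ^ 2 / e / 2 = ‖c i‖ ^ 2 / e by ring, Real.sqrt_div (by positivity),
        Real.sqrt_sq (norm_nonneg _), mul_one_div]
    have h6 : ((‖c i‖ : ℝ) : ℂ) ≠ 0 := by exact_mod_cast (norm_pos_iff.2 (hc i)).ne'
    rw [h5]
    generalize (1 / √e : ℝ) = y
    push_cast
    field_simp
    ring
  simp only [h2]
  rw [sum_add_distrib, ← mul_sum, add_re, re_ofReal_mul, mul_add]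
  have h4 : ‖∑ i, ((√(ρ i) - √(2 * ‖c i‖ ^ 2 / e / 2) : ℝ) : ℂ) * (c i / ‖c i‖ * v i)‖ ≤
      ε * Fintype.card ι := by
    refine (norm_sum_le _ _).trans
      ((sum_le_sum fun i _ => (?_ : _ ≤ ε)).trans_eq (by simp [mul_comm]))
    have := norm_pos_iff.2 (hc i)
    rw [norm_mul, norm_mul, hv, norm_div, norm_real, norm_real, norm_norm, div_self this.ne',
      mul_one, mul_one, Real.norm_eq_abs]
    exact amp_close (hσ2 i) hε0.le (hρ2 i) (hρ1 i)
  have h5 := (abs_re_le_norm _).trans h4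
  have h6 : 1 / √e ≤ 1 + η / 2 := by
    rw [div_le_iff₀ (by positivity), ← Real.sqrt_sq (by positivity : 0 ≤ 1 + η / 2),
      ← Real.sqrt_mul (by positivity)]
    refine Real.le_sqrt_of_sq_le ?_
    nlinarith [mul_le_mul_of_nonneg_left he (by positivity : 0 ≤ (1 + η / 2) ^ 2),
      mul_pos h0 h0]
  have h7 : 0 ≤ 1 / √e := by positivity
  refine (abs_add_le _ _).trans ?_
  rw [mul_left_comm, abs_mul, abs_of_nonneg h7, abs_mul 2 (re (∑ i, _ * (_ * _))), abs_two]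
  nlinarith [mul_le_mul_of_nonneg_left hF h7]

theorem cover {η ε s : ℝ} (h0 : 0 < η) (hε0 : 0 < ε) (hε1 : ε ≤ η / 4)
    (h3 : 1 / 2 ≤ (1 + ε) ^ 2 * s) : 1 - η ≤ 2 * s := by
  by_contra h6
  push Not at h6
  have h7 : (1 + ε) ^ 2 * (1 - η) ≤ 1 := by nlinarith [mul_pos hε0 h0, mul_pos hε0 hε0]
  nlinarith [mul_lt_mul_of_pos_left h6 (by positivity : 0 < (1 + ε) ^ 2)]

theorem design {η : ℝ} (h0 : 0 < η) (h1 : η ≤ 1) :
    ∃ (W U : ℕ) (J : Type) (_ : Fintype J) (a : J → ℕ) (u : J → ℂ) (Z : Fin W × J → ℕ)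
      (ς : Fin W × J → Bool), 0 < W ∧ 0 < U ∧ (∀ j, 0 < a j) ∧ (∀ j, ‖u j‖ = 1) ∧
      (∀ b, 2 * (Z b + a b.2) ≤ U) ∧
      (∀ b b', b ≠ b' → Z b + a b.2 ≤ Z b' ∨ Z b' + a b'.2 ≤ Z b) ∧
      (1 - η) * U ≤ 2 * (W * ∑ j, (a j : ℝ)) ∧
      ∀ w (k : ℤ) (t : ℝ), |2 * (∑ j, (√(a j * W / U) : ℝ) * u j *
        E (a j * t - k * spos (ς (w, j)) (Z (w, j)) (a j) / U)).re| ≤ 1 + η := by
  classical
  obtain ⟨D, c, hD, hdet, hc, hF, he⟩ := flat (half_pos h0)
  rw [← sum_coe_sort D] at he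
  set e := 2 * ∑ i : D, ‖c i‖ ^ 2 with hedef
  have he0 : 0 < e := by linarith
  have : Nonempty D := by
    by_contra hn
    rw [not_nonempty_iff] at hn
    simp [hedef] at he0
  let n : D → ℤ × ℤ := fun i => i
  let σ : D → ℝ := fun i => 2 * ‖c i‖ ^ 2 / e
  have hσ : ∀ i, 0 < σ i := fun i => by
    have := norm_pos_iff.2 (hc i i.2)
    simp only [σ]; positivity
  have hσ1 : ∑ i, σ i = 1 := by
    simp only [σ]; rw [← sum_div, ← mul_sum, div_self he0.ne']
  have hσ2 : ∀ i, σ i ≤ 1 := fun i =>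
    hσ1 ▸ single_le_sum (fun j _ => (hσ j).le) (mem_univ i)
  let a : D → ℕ := fun i => (n i).1.toNat
  have ha : ∀ i, (n i).1 = a i := fun i => (Int.toNat_of_nonneg (hD i i.2).le).symm
  have ha0 : ∀ i, 0 < a i := fun i => by have := hD i i.2; have := ha i; simp only [n] at this; omega
  set L := ∏ i, a i with hL
  have hL0 : 0 < L := prod_pos fun i _ => ha0 i
  have haL : ∀ i, a i ∣ L := fun i => dvd_prod_of_mem _ (mem_univ i)
  set K := Fintype.card D with hK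
  have hK0 : 0 < K := Fintype.card_pos
  have hK1 : (1 : ℝ) ≤ K := by exact_mod_cast hK0
  set ε := η / (4 * K) with hε
  have hε0 : 0 < ε := by positivity
  have hεK : ε * K = η / 4 := by rw [hε]; field_simp
  have hε1 : ε ≤ η / 4 := by nlinarith
  have hdet' : ∀ i j, i ≠ j → det (n i) (n j) ≠ 0 := fun i j hij =>
    hdet i i.2 j j.2 fun h => hij (Subtype.ext h)
  obtain ⟨Q, Λ, g, G, hQ, hg, hΛ, hG, hlab, hcnt⟩ := zone (Sx := Fin L) n (fun i => hD i i.2)
    hdet' σ hσ hσ1 (fun s i => (((s : ℕ) * a i / L : ℕ) : ℤ)) hε0 (by linarith)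
  have hQr : (0 : ℝ) < Q := by exact_mod_cast hQ
  have hgr : (0 : ℝ) < g := by exact_mod_cast hg
  have har : ∀ i, (0 : ℝ) < a i := fun i => by exact_mod_cast ha0 i
  let β : D → ℝ := fun i => a i * ((1 + ε) * g / (σ i * Q))
  have hβ : ∀ i, 0 < β i := fun i => by
    have := har i; have := hσ i
    simp only [β]; positivity
  obtain ⟨B, A, hB0, hB1, hA1, hA2, hA3⟩ := params β hβ hε0
  set T := ∑ i, A i + ∑ i, a i + ∑ i, ∑ j, (det (n i) (n j)).natAbs with hT
  have hT1 : ∀ i, A i ≤ T := fun i => by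
    have := single_le_sum (f := A) (fun _ _ => Nat.zero_le _) (mem_univ i); omega
  have hT2 : ∀ i, a i ≤ T := fun i => by
    have := single_le_sum (f := a) (fun _ _ => Nat.zero_le _) (mem_univ i); omega
  have hT3 : ∀ i j, (det (n i) (n j)).natAbs ≤ T := fun i j => by
    have h1 := single_le_sum (f := fun i => ∑ j, (det (n i) (n j)).natAbs)
      (fun _ _ => Nat.zero_le _) (mem_univ i)
    have h2 := single_le_sum (f := fun j => (det (n i) (n j)).natAbs)
      (fun _ _ => Nat.zero_le _) (mem_univ j)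
    omega
  have hY : (1 : ℝ) ≤ T.factorial := by exact_mod_cast T.factorial_pos
  let l : D → ℕ := fun i => 2 * (A i * T.factorial) + 1
  obtain ⟨u, Z, ς, hu, hZ1, hZ2, hsum⟩ := design_core
    (Ω := (Σ s, G s) × Fin (B * T.factorial)) n a ha L Q hL0 hQ haL Λ hΛ
    (fun w => w.1.1) (fun w => w.1.2) _ (fun w i => rfl)
    (fun w i => hlab w.1.1 w.1.2 w.1.2.2 i) (fun i => A i * T.factorial) l (fun i => rfl)
    (fun i y => by
      have h2 := fiber_count G (B * T.factorial) (fun s => (s : ℕ) * a i % L = y.2)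
        (fun s z => (((n i).1 * z.1 + (n i).2 * z.2 + (((s : ℕ) * a i / L : ℕ) : ℤ) : ℤ) :
          ZMod Q) = y.1) (m := (1 + ε) * g / (σ i * Q)) fun s => by
          have := hσ i
          rw [le_div_iff₀ (by positivity), ← mul_assoc]
          exact hcnt s i y.1
      have h3 : ((univ.filter fun s : Fin L => (s : ℕ) * a i % L = y.2).card : ℝ) ≤ a i := by
        exact_mod_cast card_slot (ha0 i) (haL i) y.2
      have h4 : (a i : ℝ) * ((1 + ε) * g / (σ i * Q) * (B * T.factorial : ℕ)) ≤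
          (A i * T.factorial : ℕ) := by
        have := mul_le_mul_of_nonneg_right (hA1 i) (by positivity : (0 : ℝ) ≤ T.factorial)
        push_cast
        refine le_trans (le_of_eq ?_) this
        simp only [β]; ring
      have h5 := (h2.trans (mul_le_mul_of_nonneg_right h3
        (by have := hσ i; positivity))).trans h4
      simp only [Prod.ext_iff]
      exact_mod_cast h5)
    (fun i j hij => coprime_ell_ell (hA3 i j hij) (hT1 i) (hT1 j))
    (fun i => coprime_ell _ _ (by exact_mod_cast (ha0 i).ne') (by simpa using hT2 i))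
    (fun i j hij => coprime_ell _ _ (hdet' i j hij) (hT3 i j))
  set W := Fintype.card ((Σ s, G s) × Fin (B * T.factorial)) with hW
  have hW1 : W = L * g * (B * T.factorial) := by
    simp [hW, hG]
  let ew := (Fintype.equivFin ((Σ s, G s) × Fin (B * T.factorial))).symm
  set U := L * (Q * ∏ i, l i) with hU
  have hl0 : ∀ i, 0 < l i := fun i => Nat.succ_pos _
  have hU0 : 0 < U := by
    have : 0 < ∏ i, l i := prod_pos fun i _ => hl0 i
    positivity
  have hUr : (0 : ℝ) < U := by exact_mod_cast hU0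
  let ρ : D → ℝ := fun i => a i * W / U * cof l i
  have hρ : ∀ i, ρ i * ((1 + ε) * (2 * (A i * T.factorial) + 1)) =
      σ i * (B * β i * T.factorial) := fun i => by
    have h2 : (0 : ℝ) < cof l i := by exact_mod_cast prod_pos fun j _ => hl0 j
    have h3 : (0 : ℝ) < L := by exact_mod_cast hL0
    have := hσ i
    simp only [ρ, β, hW1, hU, ← mul_cof i]
    generalize cof l i = m at h2 ⊢
    simp only [l]
    push_cast
    field_simp
  have hρ0 : ∀ i, 0 ≤ ρ i := fun i => by simp only [ρ]; positivity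
  have hρ1 : ∀ i, ρ i ≤ σ i / 2 ∧ σ i / 2 ≤ (1 + ε) ^ 2 * ρ i := fun i =>
    rho_bounds (hσ i) hε0 hY (by have := hβ i; positivity) (hρ0 i) (hρ i) (hA1 i) (hA2 i) (hB1 i)
  refine ⟨W, U, Σ i, Fin (cof l i), inferInstance, fun j => a j.1,
    fun j => c j.1 / ‖c j.1‖ * u j, fun b => Z (ew b.1, b.2), fun b => ς (ew b.1, b.2),
    by rw [hW1]; have := T.factorial_pos; positivity, hU0, fun j => ha0 _, fun j => ?_,
    fun b => hZ1 (ew b.1, b.2), fun b b' hb => hZ2 (ew b.1, b.2) (ew b'.1, b'.2) fun h => hb ?_,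
    ?_, fun w k t => ?_⟩
  · have := norm_pos_iff.2 (hc j.1 j.1.2)
    rw [norm_mul, hu, norm_div, norm_real, norm_norm, div_self this.ne', one_mul]
  · simp only [Prod.mk.injEq, EmbeddingLike.apply_eq_iff_eq] at h
    exact Prod.ext h.1 h.2
  · rw [Fintype.sum_sigma]
    simp only [sum_const, card_univ, Fintype.card_fin, nsmul_eq_mul]
    have h2 : (W : ℝ) * ∑ i, (cof l i : ℝ) * a i = (∑ i, ρ i) * U := by
      rw [mul_sum, sum_mul]
      refine sum_congr rfl fun i _ => ?_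
      simp only [ρ]; field_simp
    have h3 := sum_le_sum fun i (_ : i ∈ univ) => (hρ1 i).2
    rw [← sum_div, hσ1, ← mul_sum] at h3
    rw [h2, ← mul_assoc]
    exact mul_le_mul_of_nonneg_right (cover h0 hε0 hε1 h3) hUr.le
  · obtain ⟨x, hx⟩ := hsum (ew w) k t
    rw [Fintype.sum_sigma]
    have h2 : ∀ i, ∑ η : Fin (cof l i), ((√(a i * W / U) : ℝ) : ℂ) * (c i / ‖c i‖ * u ⟨i, η⟩) *
        E (a i * t - k * spos (ς (ew w, ⟨i, η⟩)) (Z (ew w, ⟨i, η⟩)) (a i) / U) =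
        ((√(ρ i) : ℝ) : ℂ) * (c i / ‖c i‖ * E (dot (n i) x)) := by
      intro i
      have h3 := congrArg (fun y => ((√(a i * W / U) : ℝ) : ℂ) * (c i / ‖c i‖) * y) (hx i)
      simp only [mul_sum] at h3
      simp only [← mul_assoc] at h3 ⊢
      rw [h3]
      have h4 : √(ρ i) = √(a i * W / U) * √(cof l i) := Real.sqrt_mul (by positivity) _
      rw [h4]
      push_cast
      ring
    simp only [h2]
    have h3 := hF x
    rw [HF, ← sum_coe_sort D] at h3
    exact combine (fun i : D => c i) (fun i => E (dot (n i) x)) (fun i => hc i i.2)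
      (fun i => norm_E _) h3 h0 h1 hε0 hεK he ρ hσ2 (fun i => (hρ1 i).1) fun i => (hρ1 i).2

end Vale.Agent.P110
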