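import Vale.Agent.P110.Osc

/-! Gluing chirps into one Lipschitz frequency path. -/

namespace Vale.Agent.P110

open Complex Set intervalIntegral MeasureTheory

/-- a Lipschitz frequency path on `[0, x]` with end value `v`, end phase `θ` and
oscillatory integrals `I` -/
def Path (N Λ δ x v θ : ℝ) (I : ℤ → ℂ) : Prop :=
  ∃ τ : ℝ → ℝ, (∀ a b, |τ a - τ b| ≤ Λ * |a - b|) ∧ (∀ ξ ∈ Icc 0 x, δ ≤ τ ξ ∧ τ ξ ≤ 1 - δ) ∧
    τ x = v ∧ (∃ m : ℤ, N * ∫ s in (0 : ℝ)..x, τ s = θ + m) ∧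
    ∀ k : ℤ, ∫ ξ in (0 : ℝ)..x, E (N * (∫ s in (0 : ℝ)..ξ, τ s) - k * ξ) = I k

/-- oscillatory integral of one piece -/
noncomputable def piece (N θ : ℝ) (S : ℝ → ℝ) (x y : ℝ) (k : ℤ) : ℂ :=
  ∫ ξ in x..y, E (θ + N * (S ξ - S x) - k * ξ)

theorem cont_of_lip {τ : ℝ → ℝ} {Λ : ℝ} (h : ∀ a b, |τ a - τ b| ≤ Λ * |a - b|) : Continuous τ :=
  (LipschitzWith.of_dist_le' (K := Λ) fun a b => by simpa [Real.dist_eq] using h a b).continuous

theorem cont_prim {τ : ℝ → ℝ} (h : Continuous τ) : Continuous fun ξ => ∫ s in (0 : ℝ)..ξ, τ s :=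
  continuous_iff_continuousAt.2 fun u => (h.integral_hasStrictDerivAt 0 u).hasDerivAt.continuousAt

theorem Ph.phase {S σ χ : ℝ → ℝ} (h : Ph S σ χ) (N θ x k : ℝ) :
    Ph (fun ξ => θ + N * (S ξ - S x) - k * ξ) (fun ξ => N * σ ξ - k) (fun ξ => N * χ ξ) :=
  ⟨fun u => by
    simpa using ((((h.d1 u).sub_const (S x)).const_mul N).const_add θ).fun_sub
      ((hasDerivAt_id' u).const_mul k),
    fun u => ((h.d2 u).const_mul N).sub_const k, continuous_const.mul h.c⟩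

theorem Ph.lip {S σ χ : ℝ → ℝ} (h : Ph S σ χ) {x y Λ a b : ℝ} (hχ : ∀ ξ ∈ Icc x y, |χ ξ| ≤ Λ)
    (ha : a ∈ Icc x y) (hb : b ∈ Icc x y) : |σ a - σ b| ≤ Λ * |a - b| := by
  rw [h.sub_eq, ← Real.norm_eq_abs]
  exact norm_integral_le_of_norm_le_const (a := b) (b := a) (f := χ) fun u hu =>
    hχ u (uIcc_subset_Icc hb ha (uIoc_subset_uIcc hu))

theorem Path.mono {N Λ Λ' δ x v θ θ' : ℝ} {I : ℤ → ℂ} (h : Path N Λ δ x v θ I) (hΛ : Λ ≤ Λ')
    (hθ : ∃ m : ℤ, θ = θ' + m) : Path N Λ' δ x v θ' I := by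
  obtain ⟨τ, h1, h2, h3, ⟨m, h4⟩, h5⟩ := h
  obtain ⟨m', hm⟩ := hθ
  exact ⟨τ, fun a b => (h1 a b).trans (by gcongr), h2, h3,
    ⟨m + m', by rw [h4, hm]; push_cast; ring⟩, h5⟩

theorem Path.extend {N Λ Λ' δ x y v θ : ℝ} {I : ℤ → ℂ} {S σ χ : ℝ → ℝ} (h : Path N Λ δ x v θ I)
    (hx : 0 ≤ x) (hxy : x ≤ y) (hP : Ph S σ χ) (hχ : ∀ ξ ∈ Icc x y, |χ ξ| ≤ Λ')
    (hr : ∀ ξ ∈ Icc x y, δ ≤ σ ξ ∧ σ ξ ≤ 1 - δ) (hv : σ x = v) :
    Path N (Λ + Λ') δ y (σ y) (θ + N * (S y - S x)) (fun k => I k + piece N θ S x y k) := by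
  obtain ⟨τ, h1, h2, h3, ⟨m, h4⟩, h5⟩ := h
  have hΛ : 0 ≤ Λ := by simpa using (abs_nonneg _).trans (h1 1 0)
  have hΛ' : 0 ≤ Λ' := (abs_nonneg _).trans (hχ x ⟨le_rfl, hxy⟩)
  let τ' : ℝ → ℝ := fun ξ => τ (min ξ x) + σ (max x (min ξ y)) - v
  have e1 : ∀ ξ, ξ ≤ x → τ' ξ = τ ξ := fun ξ hξ => by
    simp only [τ']
    rw [min_eq_left hξ, max_eq_left ((min_le_left _ _).trans hξ), hv]; ring
  have e2 : ∀ ξ ∈ Icc x y, τ' ξ = σ ξ := fun ξ hξ => by
    simp only [τ']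
    rw [min_eq_right hξ.1, min_eq_left hξ.2, max_eq_right hξ.1, h3]; ring
  have e3 : ∀ a b, |τ' a - τ' b| ≤ (Λ + Λ') * |a - b| := by
    intro a b
    have f1 := h1 (min a x) (min b x)
    have f2 := hP.lip hχ (a := max x (min a y)) (b := max x (min b y))
      ⟨le_max_left _ _, max_le hxy (min_le_right _ _)⟩
      ⟨le_max_left _ _, max_le hxy (min_le_right _ _)⟩
    have f3 : |min a x - min b x| ≤ |a - b| := by simpa using abs_min_sub_min_le_max a x b x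
    have f4 : |min a y - min b y| ≤ |a - b| := by simpa using abs_min_sub_min_le_max a y b y
    have f5 : |max x (min a y) - max x (min b y)| ≤ |min a y - min b y| := by
      simpa using abs_max_sub_max_le_max x (min a y) x (min b y)
    have f6 : τ' a - τ' b = (τ (min a x) - τ (min b x)) +
        (σ (max x (min a y)) - σ (max x (min b y))) := by simp only [τ']; ring
    rw [f6]
    refine (abs_add_le _ _).trans ?_
    nlinarith [mul_le_mul_of_nonneg_left f3 hΛ, mul_le_mul_of_nonneg_left (f5.trans f4) hΛ']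
  have hc := cont_of_lip e3
  have e4 : ∀ ξ ∈ Icc 0 x, ∫ s in (0 : ℝ)..ξ, τ' s = ∫ s in (0 : ℝ)..ξ, τ s := fun ξ hξ =>
    integral_congr fun s hs => e1 s (by rw [uIcc_of_le hξ.1] at hs; exact hs.2.trans hξ.2)
  have e5 : ∀ ξ ∈ Icc x y, N * ∫ s in (0 : ℝ)..ξ, τ' s = θ + N * (S ξ - S x) + m := by
    intro ξ hξ
    rw [← integral_add_adjacent_intervals (hc.intervalIntegrable 0 x) (hc.intervalIntegrable x ξ),
      e4 x ⟨hx, le_rfl⟩, mul_add, h4, hP.sub_eq0,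
      integral_congr (f := τ') (g := σ) fun s hs => e2 s (by
        rw [uIcc_of_le hξ.1] at hs; exact ⟨hs.1, hs.2.trans hξ.2⟩)]
    ring
  refine ⟨τ', e3, fun ξ hξ => ?_, e2 y ⟨hxy, le_rfl⟩, ⟨m, e5 y ⟨hxy, le_rfl⟩⟩, fun k => ?_⟩
  · rcases le_total ξ x with h | h
    · rw [e1 ξ h]; exact h2 ξ ⟨hξ.1, h⟩
    · rw [e2 ξ ⟨h, hξ.2⟩]; exact hr ξ ⟨h, hξ.2⟩
  · have hE : Continuous fun ξ => E (N * (∫ s in (0 : ℝ)..ξ, τ' s) - k * ξ) :=
      continuous_E.comp ((continuous_const.mul (cont_prim hc)).sub (by fun_prop))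
    beta_reduce
    rw [← integral_add_adjacent_intervals (hE.intervalIntegrable 0 x) (hE.intervalIntegrable x y),
      ← h5 k, piece]
    congr 1
    · exact integral_congr fun ξ hξ => by
        rw [uIcc_of_le hx] at hξ
        simp only [e4 ξ hξ]
    · exact integral_congr fun ξ hξ => by
        rw [uIcc_of_le hxy] at hξ
        simp only [e5 ξ hξ]
        rw [← E_add_int _ (-m)]
        congr 1; push_cast; ring

/-- extension by a linear piece of slope `c` and length `w` -/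
theorem Path.lin {N Λ δ x v θ : ℝ} {I : ℤ → ℂ} (h : Path N Λ δ x v θ I) (hN : 0 < N) (hx : 0 ≤ x)
    (c w : ℝ) (hw : 0 ≤ w) (hv : δ ≤ v ∧ v ≤ 1 - δ) (hv' : δ ≤ v + c * w ∧ v + c * w ≤ 1 - δ) :
    ∃ J : ℤ → ℂ, Path N (Λ + |c|) δ (x + w) (v + c * w) (θ + N * (v * w + c * w ^ 2 / 2))
      (fun k => I k + J k) ∧ ∀ k : ℤ, (∀ r, 0 < r → 1 / r ^ 2 ≤ |c| → √N * ‖J k‖ ≤ 4 * r) ∧
        ∀ μ, 0 < μ → 0 ≤ c → (k / N + μ ≤ v ∨ v + c * w + μ ≤ k / N) →
          √N * ‖J k‖ ≤ 1 / (μ * √N) := by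
  have hP : Ph (fun ξ => v * ξ + c * (ξ - x) ^ 2 / 2) (fun ξ => v + c * (ξ - x)) (fun _ => c) :=
    ⟨fun u => by
      have := ((hasDerivAt_id' u).const_mul v).fun_add
        (((((hasDerivAt_id' u).sub_const x).fun_pow 2).const_mul c).div_const 2)
      refine this.congr_deriv ?_
      norm_num; ring,
    fun u => by simpa using (((hasDerivAt_id' u).sub_const x).const_mul c).const_add v,
    continuous_const⟩
  have hs := Real.sqrt_pos.2 hN
  have hss := Real.mul_self_sqrt hN.le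
  refine ⟨piece N θ (fun ξ => v * ξ + c * (ξ - x) ^ 2 / 2) x (x + w), ?_, fun k => ⟨?_, ?_⟩⟩
  · have := h.extend (Λ' := |c|) hx (by linarith : x ≤ x + w) hP (fun _ _ => le_rfl)
      (fun ξ hξ => by
        rcases le_total 0 c with h0 | h0 <;> constructor <;> nlinarith [hξ.1, hξ.2, hv.1, hv.2])
      (by simp)
    convert this using 1
    · ring
    · ring
  · intro r hr hc
    have := second_deriv (hP.phase N θ x k) (by linarith : x ≤ x + w) (r := r / √N)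
      (by positivity) (by
        rw [div_pow, Real.sq_sqrt hN.le, one_div_div, ← mul_one_div]
        rcases le_total 0 c with h0 | h0
        · rw [abs_of_nonneg h0] at hc
          exact Or.inl fun _ _ => by gcongr
        · rw [abs_of_nonpos h0] at hc
          exact Or.inr fun _ _ => by nlinarith)
    refine (mul_le_mul_of_nonneg_left this hs.le).trans_eq ?_
    field_simp
  · intro μ hμ hc hk
    have := first_deriv (hP.phase N θ x k) (by linarith : x ≤ x + w) (μ := N * μ) (by positivity)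
      (Or.inl fun _ _ => by positivity) (fun ξ hξ => by
        have e : N * (v + c * (ξ - x)) - k = N * (v + c * (ξ - x) - k / N) := by field_simp
        rw [e, abs_mul, abs_of_pos hN]
        refine mul_le_mul_of_nonneg_left ?_ hN.le
        rcases hk with hk | hk
        · exact le_trans (by nlinarith [hξ.1]) (le_abs_self _)
        · exact le_trans (by nlinarith [hξ.2]) (neg_le_abs _))
    refine (mul_le_mul_of_nonneg_left this hs.le).trans_eq ?_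
    rw [mul_one_div, div_eq_div_iff (by positivity) (by positivity)]
    nlinarith

theorem gap {N Λ δ x v θ v' θ' γ g s μ w ε : ℝ} {I : ℤ → ℂ} (h : Path N Λ δ x v θ I)
    (hx : 0 ≤ x) (hμ : 0 < μ) (hw : 0 < w) (hε : 0 < ε) (hδ : 0 ≤ δ) (hγ : 3 * w ≤ γ)
    (hg : γ ≤ g) (hv : δ ≤ v ∧ v ≤ s) (hv' : δ ≤ v' ∧ v' ≤ s) (hs : s + 3 * μ + 64 * g ≤ 1 - δ)
    (hwε : 144 * w ≤ μ * ε ^ 2) (hN : 0 < N) (hN1 : 1 ≤ N * μ * w) (hN2 : 3 ≤ ε * μ * √N) :
    ∃ I' : ℤ → ℂ, Path N (Λ + (2 / w + 64)) δ (x + g) v' θ' I' ∧ ∀ k : ℤ,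
      √N * ‖I' k - I k‖ ≤ ε + if s < k / N ∧ k / N ≤ s + 3 * μ + 64 * g then 1 / 2 else 0 := by
  set C := θ + N * (w * (v + s + μ) / 2 + (g - 2 * w) * (s + μ + 32 * (g - 2 * w)) +
    w * (s + μ + 64 * (g - 2 * w) + v') / 2) with hC
  have hgw : 0 < N * (g - w) := mul_pos hN (by linarith)
  set t := Int.fract (θ' - C) / (N * (g - w)) with ht
  have ht0 : 0 ≤ t := div_nonneg (Int.fract_nonneg _) hgw.le
  have ht1 : t ≤ μ := by
    rw [ht, div_le_iff₀ hgw]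
    have := Int.fract_lt_one (θ' - C)
    nlinarith [mul_pos hN hμ]
  set m := s + μ + t with hm
  have e1 : v + (m - v) / w * w = m := by field_simp; ring
  obtain ⟨J1, p1, b1⟩ := h.lin hN hx ((m - v) / w) w hw.le ⟨hv.1, by linarith [hv.2]⟩
    (by rw [e1]; constructor <;> linarith [hv.1, hv.2])
  rw [e1] at p1
  obtain ⟨J2, p2, b2⟩ := p1.lin hN (by linarith) 64 (g - 2 * w) (by linarith)
    (by constructor <;> linarith [hv.1, hv.2]) (by constructor <;> linarith [hv.1, hv.2])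
  set m' := m + 64 * (g - 2 * w) with hm'
  have e2 : m' + (v' - m') / w * w = v' := by field_simp; ring
  obtain ⟨J3, p3, b3⟩ := p2.lin hN (by linarith) ((v' - m') / w) w hw.le
    (by constructor <;> linarith [hv.1, hv.2])
    (by rw [e2]; constructor <;> linarith [hv'.1, hv'.2])
  rw [e2, show x + w + (g - 2 * w) + w = x + g by ring] at p3
  have a1 : μ / w ≤ |(m - v) / w| ∧ |(m - v) / w| ≤ 1 / w := by
    rw [abs_of_nonneg (div_nonneg (by linarith [hv.2]) hw.le)]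
    constructor <;> gcongr <;> linarith [hv.1, hv.2]
  have a3 : μ / w ≤ |(v' - m') / w| ∧ |(v' - m') / w| ≤ 1 / w := by
    rw [abs_div, abs_of_pos hw, abs_of_nonpos (by linarith [hv'.2])]
    constructor <;> gcongr <;> linarith [hv'.1, hv'.2]
  refine ⟨_, p3.mono ?_ ⟨-⌊θ' - C⌋, ?_⟩, fun k => ?_⟩
  · rw [abs_of_pos (by norm_num : (0 : ℝ) < 64), show 2 / w = 1 / w + 1 / w by ring]
    linarith [a1.2, a3.2]
  · have e3 : N * (g - w) * t = θ' - C - ⌊θ' - C⌋ := by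
      rw [ht, mul_div_cancel₀ _ hgw.ne', Int.fract]
    have e4 : θ + N * (v * w + (m - v) / w * w ^ 2 / 2) +
        N * (m * (g - 2 * w) + 64 * (g - 2 * w) ^ 2 / 2) +
        N * (m' * w + (v' - m') / w * w ^ 2 / 2) = C + N * (g - w) * t := by
      rw [hC, hm', hm]; field_simp; ring
    rw [e4, e3]; push_cast; ring
  · have hr : 1 / (ε / 12) ^ 2 ≤ μ / w := by
      rw [div_le_div_iff₀ (by positivity) hw]; nlinarith
    have f1 := (b1 k).1 (ε / 12) (by positivity) (hr.trans a1.1)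
    have f3 := (b3 k).1 (ε / 12) (by positivity) (hr.trans a3.1)
    have hsq := Real.sqrt_pos.2 hN
    have f2 : √N * ‖J2 k‖ ≤ ε / 3 +
        if s < k / N ∧ k / N ≤ s + 3 * μ + 64 * g then 1 / 2 else 0 := by
      split_ifs with hk
      · have := (b2 k).1 (1 / 8) (by norm_num) (by norm_num)
        linarith
      · have := (b2 k).2 μ hμ (by norm_num) (by
          by_cases h1 : s < k / N
          · have h2 := not_le.1 fun h2 => hk ⟨h1, h2⟩
            right; linarith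
          · left; linarith)
        refine this.trans ?_
        rw [div_le_iff₀ (by positivity)]; nlinarith
    have f4 : ‖I k + J1 k + J2 k + J3 k - I k‖ ≤ ‖J1 k‖ + ‖J2 k‖ + ‖J3 k‖ := by
      rw [show I k + J1 k + J2 k + J3 k - I k = J1 k + J2 k + J3 k by ring]
      exact norm_add₃_le
    nlinarith [mul_le_mul_of_nonneg_left f4 hsq.le]

theorem glue_ind {B : Type} [DecidableEq B] (p q θ : B → ℝ) (S σ χ : B → ℝ → ℝ)
    {N δ γ T μ w ε Λ : ℝ} (hμ : 0 < μ) (hw : 0 < w) (hε : 0 < ε) (hδ : 0 ≤ δ) (hγ : 3 * w ≤ γ)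
    (hT : δ ≤ T) (hΛ : 0 ≤ Λ)
    (hwε : 144 * w ≤ μ * ε ^ 2) (hN : 0 < N) (hN1 : 1 ≤ N * μ * w) (hN2 : 3 ≤ ε * μ * √N)
    (hp : ∀ b, γ ≤ p b) (hpq : ∀ b, p b ≤ q b)
    (hd : ∀ b b', b ≠ b' → q b + γ ≤ p b' ∨ q b' + γ ≤ p b)
    (hP : ∀ b, Ph (S b) (σ b) (χ b)) (hχ : ∀ b, ∀ ξ ∈ Icc (p b) (q b), |χ b ξ| ≤ Λ)
    (hσ : ∀ b, ∀ ξ ∈ Icc (p b) (q b), δ ≤ σ b ξ ∧ σ b ξ ≤ T) (s : Finset B) :
    ∀ y v' θ' : ℝ, γ ≤ y → (∀ b ∈ s, q b + γ ≤ y) → δ ≤ v' ∧ v' ≤ T →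
      T + 3 * μ * (s.card + 1) + 64 * (y - ∑ b ∈ s, (q b - p b)) ≤ 1 - δ →
      ∑ b ∈ s, (q b - p b) ≤ y ∧ ∃ I : ℤ → ℂ,
        Path N ((2 / w + 64 + Λ) * (s.card + 1)) δ y v' θ' I ∧ ∀ k : ℤ,
          √N * ‖I k - ∑ b ∈ s, piece N (θ b) (S b) (p b) (q b) k‖ ≤ ε * (s.card + 1) +
            if T < k / N ∧ k / N ≤ T + 3 * μ * (s.card + 1) + 64 * (y - ∑ b ∈ s, (q b - p b))
            then 1 / 2 else 0 := by
  have hγ0 : 0 < γ := by linarith
  induction s using Finset.induction_on_max_value p with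
  | empty =>
    intro y v' θ' hy _ hv' hs
    simp only [Finset.card_empty, Finset.sum_empty, Nat.cast_zero, zero_add, mul_one,
      sub_zero] at hs ⊢
    have h0 : Path N 0 δ 0 δ 0 0 :=
      ⟨fun _ => δ, by simp, fun _ _ => ⟨le_rfl, by linarith⟩, rfl, ⟨0, by simp⟩, by simp⟩
    obtain ⟨I, h1, h2⟩ := gap (θ' := θ') h0 le_rfl hμ hw hε hδ hγ hy ⟨le_rfl, hT⟩ hv' hs hwε hN
      hN1 hN2
    rw [zero_add y] at h1
    exact ⟨by linarith, I, h1.mono (by linarith) ⟨0, by simp⟩, by simpa using h2⟩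
  | insert a s ha hmax ih =>
    intro y v' θ' hy hq hv' hs
    rw [Finset.card_insert_of_notMem ha, Finset.sum_insert ha] at hs ⊢
    have hqa := hq a (Finset.mem_insert_self _ _)
    have hpa := hpq a
    push_cast at hs ⊢
    obtain ⟨h1, I, h2, h3⟩ := ih (p a) (σ a (p a)) (θ a) (hp a) (fun b hb => by
      rcases hd b a (fun h => ha (h ▸ hb)) with h | h
      · exact h
      · linarith [hmax b hb]) (hσ a _ ⟨le_rfl, hpa⟩) (by linarith)
    have hc : (0 : ℝ) ≤ s.card := by positivity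
    have hT1 : T ≤ T + 3 * μ * (s.card + 1) + 64 * (p a - ∑ b ∈ s, (q b - p b)) := by
      have : 0 ≤ 3 * μ * (s.card + 1) := by positivity
      linarith
    have h4 := h2.extend (by linarith [hp a]) hpa (hP a) (hχ a) (fun ξ hξ =>
      ⟨(hσ a ξ hξ).1, by linarith [(hσ a ξ hξ).2]⟩) rfl
    have h5 := hσ a _ ⟨hpa, le_rfl⟩
    obtain ⟨I', h6, h7⟩ := gap (θ' := θ') (g := y - q a) h4 (by linarith [hp a]) hμ hw hε hδ hγ
      (by linarith) ⟨h5.1, h5.2.trans hT1⟩ ⟨hv'.1, hv'.2.trans hT1⟩ (by linarith) hwε hN hN1 hN2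
    rw [add_sub_cancel] at h6
    refine ⟨by linarith, I', h6.mono (le_of_eq (by ring)) ⟨0, by simp⟩, fun k => ?_⟩
    have h8 := h3 k
    have h9 := h7 k
    rw [Finset.sum_insert ha]
    have h10 : ‖I' k - (piece N (θ a) (S a) (p a) (q a) k +
        ∑ b ∈ s, piece N (θ b) (S b) (p b) (q b) k)‖ ≤
        ‖I' k - (I k + piece N (θ a) (S a) (p a) (q a) k)‖ +
          ‖I k - ∑ b ∈ s, piece N (θ b) (S b) (p b) (q b) k‖ := by
      refine le_trans (le_of_eq ?_) (norm_add_le _ _)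
      congr 1; ring
    have h11 := mul_le_mul_of_nonneg_left h10 (Real.sqrt_nonneg N)
    rw [mul_add] at h11
    refine h11.trans ((add_le_add h9 h8).trans ?_)
    split_ifs with c1 c2 c3 c4 c5 c6 c7
    · linarith [c1.1, c2.2]
    · linarith [c1.1, c2.2]
    · linarith
    · exact absurd ⟨by linarith [c1.1], by linarith [c1.2]⟩ c4
    · linarith
    · exact absurd ⟨c5.1, by linarith [c5.2]⟩ c6
    · linarith
    · linarith

theorem glue {B : Type} [Fintype B] (p q : B → ℝ) (S σ χ : B → ℝ → ℝ) {δ γ T Λ ε : ℝ}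
    (hε : 0 < ε) (hδ : 0 < δ) (hγ : 0 < γ) (hγ1 : γ ≤ 1 / 2) (hT : δ ≤ T) (hΛ : 0 ≤ Λ)
    (hp : ∀ b, γ ≤ p b) (hpq : ∀ b, p b ≤ q b) (hq : ∀ b, q b + γ ≤ 1 / 2)
    (hd : ∀ b b', b ≠ b' → q b + γ ≤ p b' ∨ q b' + γ ≤ p b)
    (hP : ∀ b, Ph (S b) (σ b) (χ b)) (hχ : ∀ b, ∀ ξ ∈ Icc (p b) (q b), |χ b ξ| ≤ Λ)
    (hσ : ∀ b, ∀ ξ ∈ Icc (p b) (q b), δ ≤ σ b ξ ∧ σ b ξ ≤ T)
    (hs : T + 3 * δ + 64 * (1 / 2 - ∑ b, (q b - p b)) ≤ 1 - δ) :
    ∃ Λ' N0 : ℝ, ∀ N, N0 ≤ N → ∀ θ : B → ℝ, ∃ I : ℤ → ℂ, Path N Λ' δ (1 / 2) δ 0 I ∧ ∀ k : ℤ,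
      √N * ‖I k - ∑ b, piece N (θ b) (S b) (p b) (q b) k‖ ≤
        ε + if T < k / N then 1 / 2 else 0 := by
  classical
  set n : ℝ := (Finset.univ : Finset B).card + 1 with hn
  have hn0 : 0 < n := by positivity
  set μ := δ / n with hμ
  set ε' := ε / n with hε'
  have hμ0 : 0 < μ := by positivity
  have hε0 : 0 < ε' := by positivity
  set w := min (γ / 3) (μ * ε' ^ 2 / 144) with hw
  have hw0 : 0 < w := by positivity
  refine ⟨(2 / w + 64 + Λ) * n, max (1 / (μ * w)) ((3 / (ε' * μ)) ^ 2), fun N hN θ => ?_⟩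
  have h1 := (le_max_left _ _).trans hN
  have h2 := Real.le_sqrt_of_sq_le ((le_max_right _ _).trans hN)
  have hN0 : 0 < N := lt_of_lt_of_le (by positivity) h1
  rw [div_le_iff₀ (by positivity)] at h1 h2
  have h3 : 3 * μ * n = 3 * δ := by rw [hμ]; field_simp
  obtain ⟨-, I, h4, h5⟩ := glue_ind p q θ S σ χ hμ0 hw0 hε0 hδ.le
    (by linarith [min_le_left (γ / 3) (μ * ε' ^ 2 / 144)]) hT hΛ
    (by linarith [min_le_right (γ / 3) (μ * ε' ^ 2 / 144)]) hN0 (by linarith) (by linarith)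
    hp hpq hd hP hχ hσ Finset.univ (1 / 2) δ 0 hγ1 (fun b _ => hq b) ⟨le_rfl, hT⟩
    (by rw [← hn, h3]; exact hs)
  refine ⟨I, h4, fun k => (h5 k).trans ?_⟩
  rw [← hn, show ε' * n = ε by rw [hε']; field_simp]
  split_ifs with c1 c2
  · exact le_rfl
  · exact absurd c1.1 c2
  · linarith
  · exact le_rfl

end Vale.Agent.P110
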