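import Vale.Agent.P110.Spencer
import Vale.Agent.P110.Basic

/-! Full colouring, dyadic rounding, and rounding of trigonometric polynomials. -/

namespace Vale.Agent.P110

open Finset

theorem full_color {J : Type} [Fintype J] [DecidableEq J] (n : ℕ) :
    ∀ (ι : Type) [Fintype ι] [DecidableEq ι], Fintype.card ι = n → n ≤ Fintype.card J →
    ∀ (v : J → ι → ℝ), (∀ j i, |v j i| ≤ 1) → ∀ T : ℝ, 0 < T →
    (n : ℝ) * (Fintype.card J : ℝ) ^ 3 ≤ T ^ 8 →
    ∃ s : ι → ℝ, (∀ i, s i = 1 ∨ s i = -1) ∧ ∀ j, |∑ i, s i * v j i| ≤ 1600 * T := by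
  induction n using Nat.strong_induction_on with
  | _ n ih =>
  intro ι _ _ hn hm v hv T hT0 hT
  rcases Nat.eq_zero_or_pos n with h0 | h0
  · have : IsEmpty ι := Fintype.card_eq_zero_iff.1 (hn.trans h0)
    refine ⟨fun _ => 1, fun i => Or.inl rfl, fun j => ?_⟩
    simp; positivity
  obtain ⟨χ, h1, h2, h3⟩ := half_color (ι := ι) (J := J) (by omega) (by omega) v hv hT0
    (by rw [hn]; exact hT)
  have hc : Fintype.card {i // χ i = 0} = (univ.filter fun i => χ i = 0).card :=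
    Fintype.card_subtype _
  obtain ⟨s, h4, h5⟩ := ih _ (by omega : (univ.filter fun i => χ i = 0).card < n)
    {i // χ i = 0} hc (by omega) (fun j i => v j i) (fun j i => hv j i) (63 / 64 * T)
    (by positivity) (by
      have h6 : ((univ.filter fun i => χ i = 0).card : ℝ) ≤ 7 / 8 * n := by
        have : ((8 * (univ.filter fun i => χ i = 0).card : ℕ) : ℝ) ≤ ((7 * n : ℕ) : ℝ) := by
          exact_mod_cast hn ▸ h2
        push_cast at this; linarith
      have h7 : (0 : ℝ) ≤ (Fintype.card J : ℝ) ^ 3 := by positivity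
      have h8 : (0 : ℝ) ≤ T ^ 8 := by positivity
      rw [mul_pow]
      nlinarith)
  refine ⟨fun i => if h : χ i = 0 then s ⟨i, h⟩ else χ i, fun i => ?_, fun j => ?_⟩
  · beta_reduce
    split_ifs with h
    · exact h4 _
    · rcases h1 i with h' | h'
      · exact absurd h' h
      · exact h'
  · have h6 : ∑ i, (if h : χ i = 0 then s ⟨i, h⟩ else χ i) * v j i =
        ∑ i, χ i * v j i + ∑ i : {i // χ i = 0}, s i * v j i := by
      rw [← Fintype.sum_subtype_add_sum_subtype (fun i => χ i = 0),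
        ← Fintype.sum_subtype_add_sum_subtype (fun i => χ i = 0) (fun i => χ i * v j i)]
      have e1 : ∑ i : {i // χ i = 0}, χ i * v j i = 0 :=
        sum_eq_zero fun i _ => by rw [i.2, zero_mul]
      have e2 : ∑ i : {i // χ i = 0}, (if h : χ i = 0 then s ⟨i, h⟩ else χ i) * v j i =
          ∑ i : {i // χ i = 0}, s i * v j i := sum_congr rfl fun i _ => by rw [dif_pos i.2]
      have e3 : ∑ i : {i // ¬ χ i = 0}, (if h : χ i = 0 then s ⟨i, h⟩ else χ i) * v j i =
          ∑ i : {i // ¬ χ i = 0}, χ i * v j i := sum_congr rfl fun i _ => by rw [dif_neg i.2]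
      rw [e1, e2, e3]; ring
    rw [h6]
    refine (abs_add_le _ _).trans ?_
    linarith [h3 j, h5 j]

theorem full_color_neg {ι J : Type} [Fintype ι] [DecidableEq ι] [Fintype J] [DecidableEq J]
    (hm : Fintype.card ι ≤ Fintype.card J) (v : J → ι → ℝ) (hv : ∀ j i, |v j i| ≤ 1) {T : ℝ}
    (hT0 : 0 < T) (hT : (Fintype.card ι : ℝ) * (Fintype.card J : ℝ) ^ 3 ≤ T ^ 8) :
    ∃ s : ι → ℝ, (∀ i, s i = 1 ∨ s i = -1) ∧ ∑ i, s i ≤ 0 ∧
      ∀ j, |∑ i, s i * v j i| ≤ 1600 * T := by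
  obtain ⟨s, h1, h2⟩ := full_color _ ι rfl hm v hv T hT0 hT
  rcases le_total (∑ i, s i) 0 with h | h
  · exact ⟨s, h1, h, h2⟩
  · refine ⟨fun i => -s i, fun i => ?_, by simpa using h, fun j => ?_⟩
    · rcases h1 i with h' | h' <;> simp [h']
    · simpa [abs_neg] using h2 j

theorem dyadic_round {ι J : Type} [Fintype ι] [DecidableEq ι] [Fintype J] [DecidableEq J]
    (hm : Fintype.card ι ≤ Fintype.card J) (v : J → ι → ℝ) (hv : ∀ j i, |v j i| ≤ 1) {T S : ℝ}
    (hT0 : 0 < T) (hT : S * (Fintype.card J : ℝ) ^ 3 ≤ T ^ 8) (r : ℕ) :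
    ∀ β : ι → ℕ, (∀ i, β i ≤ 2 ^ r) → ∑ i, (β i : ℝ) ≤ 2 ^ r * S →
      ∃ β' : ι → ℕ, (∀ i, β' i ≤ 1) ∧
        ∀ j, |∑ i, ((β' i : ℝ) - β i / 2 ^ r) * v j i| ≤ 4800 * T * (1 - (3 / 4) ^ r) := by
  induction r with
  | zero =>
    intro β h1 _
    exact ⟨β, by simpa using h1, fun j => by simp⟩
  | succ r ih =>
    intro β h1 h2
    have hO : (Fintype.card {i // β i % 2 = 1} : ℝ) ≤ 2 ^ (r + 1) * S := by
      refine le_trans ?_ h2
      rw [Fintype.card_subtype, card_filter]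
      push_cast
      refine sum_le_sum fun i _ => ?_
      split_ifs with h
      · have : 1 ≤ β i := by omega
        exact_mod_cast this
      · positivity
    obtain ⟨s, hs1, hs2, hs3⟩ := full_color_neg (ι := {i // β i % 2 = 1}) (J := J)
      ((Fintype.card_subtype_le _).trans hm) (fun j i => v j i) (fun j i => hv j i)
      (T := (3 / 2) ^ (r + 1) * T) (by positivity) (by
        have h3 : (2 : ℝ) ^ (r + 1) ≤ ((3 / 2) ^ (r + 1)) ^ 8 := by
          rw [← pow_mul, mul_comm, pow_mul]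
          exact pow_le_pow_left₀ (by norm_num) (by norm_num) _
        have h4 : (0 : ℝ) ≤ (Fintype.card J : ℝ) ^ 3 := by positivity
        rw [mul_pow]
        calc _ ≤ 2 ^ (r + 1) * S * (Fintype.card J : ℝ) ^ 3 := by gcongr
          _ = 2 ^ (r + 1) * (S * (Fintype.card J : ℝ) ^ 3) := by ring
          _ ≤ 2 ^ (r + 1) * T ^ 8 := by gcongr
          _ ≤ _ := by gcongr)
    let χ : ι → ℝ := fun i => if h : β i % 2 = 1 then s ⟨i, h⟩ else 0
    have hχ : ∀ f : ι → ℝ, ∑ i, χ i * f i = ∑ i : {i // β i % 2 = 1}, s i * f i := by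
      intro f
      rw [← Fintype.sum_subtype_add_sum_subtype (fun i => β i % 2 = 1)]
      have e2 : ∑ i : {i // β i % 2 = 1}, χ i * f i = ∑ i : {i // β i % 2 = 1}, s i * f i :=
        sum_congr rfl fun i _ => by simp only [χ]; rw [dif_pos i.2]
      have e3 : ∑ i : {i // ¬ β i % 2 = 1}, χ i * f i = 0 :=
        sum_eq_zero fun i _ => by simp only [χ]; rw [dif_neg i.2, zero_mul]
      rw [e2, e3, add_zero]
    let β1 : ι → ℕ := fun i => if χ i = 1 then β i / 2 + 1 else β i / 2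
    have hβ1 : ∀ i, 2 * (β1 i : ℝ) = β i + χ i := by
      intro i
      have h3 : ((2 * (β i / 2) + β i % 2 : ℕ) : ℝ) = β i := by rw [Nat.div_add_mod]
      by_cases h : β i % 2 = 1
      · rw [h] at h3
        have h4 : χ i = s ⟨i, h⟩ := dif_pos h
        push_cast at h3
        rcases hs1 ⟨i, h⟩ with h' | h'
        · simp only [β1, h4, h', if_true]; push_cast; linarith
        · have : ¬ (-1 : ℝ) = 1 := by norm_num
          simp only [β1, h4, h', this, if_false]; linarith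
      · have h4 : χ i = 0 := dif_neg h
        have h5 : β i % 2 = 0 := by omega
        rw [h5] at h3
        push_cast at h3
        simp only [β1, h4, zero_ne_one, if_false]; linarith
    obtain ⟨β', h5, h6⟩ := ih β1 (by
        intro i
        have h3 := h1 i
        rw [pow_succ] at h3
        by_cases h : β i % 2 = 1
        · simp only [β1]; split_ifs <;> omega
        · have h4 : χ i = 0 := dif_neg h
          simp only [β1, h4, zero_ne_one, if_false]; omega) (by
        have h3 : 2 * ∑ i, (β1 i : ℝ) = ∑ i, (β i : ℝ) + ∑ i, χ i := by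
          rw [mul_sum, ← sum_add_distrib]; exact sum_congr rfl fun i _ => hβ1 i
        have h4 := hχ (fun _ => 1)
        simp only [mul_one] at h4
        rw [pow_succ] at h2
        linarith)
    refine ⟨β', h5, fun j => ?_⟩
    have h7 : ∑ i, ((β' i : ℝ) - β i / 2 ^ (r + 1)) * v j i =
        ∑ i, ((β' i : ℝ) - β1 i / 2 ^ r) * v j i + (∑ i, χ i * v j i) / 2 ^ (r + 1) := by
      rw [sum_div, ← sum_add_distrib]
      refine sum_congr rfl fun i _ => ?_
      have : (β i : ℝ) = 2 * β1 i - χ i := by linarith [hβ1 i]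
      rw [this, pow_succ]; field_simp; ring
    rw [h7, hχ]
    refine (abs_add_le _ _).trans ?_
    have h8 : |(∑ i : {i // β i % 2 = 1}, s i * v j i) / 2 ^ (r + 1)| ≤
        1600 * T * (3 / 4) ^ (r + 1) := by
      rw [abs_div, abs_of_pos (by positivity : (0 : ℝ) < 2 ^ (r + 1)),
        div_le_iff₀ (by positivity)]
      refine (hs3 j).trans (le_of_eq ?_)
      rw [mul_assoc (1600 * T), ← mul_pow]; norm_num; ring
    have h9 := h6 j
    rw [pow_succ (3 / 4 : ℝ)] at h8 ⊢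
    nlinarith

/-- rounding a point of the cube to a vertex -/
theorem cube_round {ι J : Type} [Fintype ι] [DecidableEq ι] [Fintype J] [DecidableEq J]
    (hm : Fintype.card ι ≤ Fintype.card J) (v : J → ι → ℝ) (hv : ∀ j i, |v j i| ≤ 1) {T S : ℝ}
    (hT0 : 0 < T) (hT : S * (Fintype.card J : ℝ) ^ 3 ≤ T ^ 8) (a : ι → ℝ) (ha : ∀ i, |a i| ≤ 1)
    (hS : ∑ i, (1 - a i ^ 2) ≤ S) :
    ∃ s : ι → ℝ, (∀ i, s i = 1 ∨ s i = -1) ∧ ∀ j, |∑ i, (s i - a i) * v j i| ≤ 10000 * T := by
  obtain ⟨r, hr⟩ := pow_unbounded_of_one_lt (Fintype.card ι / T) (by norm_num : (1 : ℝ) < 2)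
  let σ : ι → ℝ := fun i => if 0 ≤ a i then 1 else -1
  have hσ : ∀ i, σ i * |a i| = a i := by
    intro i; simp only [σ]; split_ifs with h
    · rw [abs_of_nonneg h, one_mul]
    · rw [abs_of_neg (not_le.1 h)]; ring
  have hσ1 : ∀ i, |σ i| = 1 := by intro i; simp only [σ]; split_ifs <;> simp
  let b : ι → ℝ := fun i => (1 - |a i|) / 2
  have hb0 : ∀ i, 0 ≤ b i := fun i => by simp only [b]; linarith [ha i]
  have hb1 : ∀ i, b i ≤ 1 := fun i => by simp only [b]; linarith [abs_nonneg (a i)]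
  have hp : (0 : ℝ) < 2 ^ r := by positivity
  let β : ι → ℕ := fun i => ⌊2 ^ r * b i⌋₊
  have hβ1 : ∀ i, (β i : ℝ) ≤ 2 ^ r * b i := fun i => Nat.floor_le (mul_nonneg hp.le (hb0 i))
  have hβ2 : ∀ i, 2 ^ r * b i < β i + 1 := fun i => Nat.lt_floor_add_one _
  obtain ⟨β', h1, h2⟩ := dyadic_round hm (fun j i => σ i * v j i)
    (fun j i => by rw [abs_mul, hσ1, one_mul]; exact hv j i) hT0 hT r β
    (fun i => by
      have : (β i : ℝ) ≤ ((2 ^ r : ℕ) : ℝ) := by
        push_cast; nlinarith [hβ1 i, hb1 i]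
      exact_mod_cast this)
    (by
      refine (sum_le_sum fun i _ => hβ1 i).trans ?_
      rw [← mul_sum]
      gcongr
      refine le_trans (sum_le_sum fun i _ => ?_) hS
      simp only [b]
      rw [← sq_abs]
      nlinarith [ha i, abs_nonneg (a i)])
  refine ⟨fun i => σ i * (1 - 2 * β' i), fun i => ?_, fun j => ?_⟩
  · have h3 : β' i = 0 ∨ β' i = 1 := by have := h1 i; omega
    simp only [σ]
    rcases h3 with h | h <;> rw [h] <;> split_ifs <;> norm_num
  · have h3 : ∑ i, (σ i * (1 - 2 * β' i) - a i) * v j i =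
        -2 * ∑ i, ((β' i : ℝ) - β i / 2 ^ r) * (σ i * v j i) +
          2 * ∑ i, (b i - β i / 2 ^ r) * (σ i * v j i) := by
      rw [mul_sum, mul_sum, ← sum_add_distrib]
      refine sum_congr rfl fun i _ => ?_
      simp only [b]
      have := hσ i
      linear_combination (v j i) * this
    have h4 : |∑ i, (b i - β i / 2 ^ r) * (σ i * v j i)| ≤ T := by
      refine (abs_sum_le_sum_abs _ _).trans ?_
      have h5 : ∀ i, |(b i - β i / 2 ^ r) * (σ i * v j i)| ≤ 1 / 2 ^ r := by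
        intro i
        rw [abs_mul, abs_mul, hσ1, one_mul]
        have h6 : |b i - β i / 2 ^ r| ≤ 1 / 2 ^ r := by
          have : b i - β i / 2 ^ r = (2 ^ r * b i - β i) / 2 ^ r := by field_simp
          rw [this, abs_div, abs_of_pos hp]
          gcongr
          rw [abs_le]; constructor <;> linarith [hβ1 i, hβ2 i]
        exact (mul_le_mul h6 (hv j i) (abs_nonneg _) (by positivity)).trans (le_of_eq (mul_one _))
      refine (sum_le_sum fun i _ => h5 i).trans ?_
      rw [sum_const, card_univ, nsmul_eq_mul, mul_one_div, div_le_iff₀ hp]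
      rw [div_lt_iff₀ hT0] at hr
      linarith
    have h5 := h2 j
    have h6 : (0 : ℝ) ≤ (3 / 4) ^ r := by positivity
    rw [h3]
    refine (abs_add_le _ _).trans ?_
    rw [abs_mul, abs_mul, abs_neg, abs_two]
    nlinarith

/-- a trigonometric polynomial with real coefficients -/
noncomputable def TP (N : ℕ) (a : ℕ → ℝ) (x : ℝ) : ℂ := ∑ k ∈ range N, (a k : ℂ) * E (k * x)

theorem card_pairs {N k : ℕ} (hk : k < N) :
    ∑ a ∈ range (2 * N), ∑ b ∈ range N, (if k + b = a then (1 : ℂ) else 0) = N := by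
  rw [sum_comm]
  have : ∀ b ∈ range N, ∑ a ∈ range (2 * N), (if k + b = a then (1 : ℂ) else 0) = 1 := by
    intro b hb
    rw [sum_ite_eq, if_pos]
    simp at hb ⊢; omega
  rw [sum_congr rfl this]; simp

theorem interp (N : ℕ) (hN : 0 < N) (d : ℕ → ℝ) (x : ℝ) :
    (2 * N * N : ℂ) * TP N d x = ∑ j ∈ range (2 * N), TP N d (j / (2 * N : ℕ)) *
      ((∑ a ∈ range (2 * N), E (a * x) * E (a * (((-1 : ℤ) : ℝ) * j / (2 * N : ℕ)))) *
        ∑ b ∈ range N, E (-(b * x)) * E (b * (((1 : ℤ) : ℝ) * j / (2 * N : ℕ)))) := by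
  have h1 : ∀ k j a b : ℕ, (d k : ℂ) * E (k * (j / (2 * N : ℕ))) *
      (E (a * x) * E (a * (((-1 : ℤ) : ℝ) * j / (2 * N : ℕ))) *
        (E (-(b * x)) * E (b * (((1 : ℤ) : ℝ) * j / (2 * N : ℕ))))) =
      d k * E ((a - b) * x) * E (j * ((((k + b : ℕ) : ℤ) - a : ℤ) / (2 * N : ℕ))) := by
    intro k j a b
    simp only [mul_assoc, ← E_add]
    congr 2
    push_cast; ring
  have h0 : ∀ j : ℕ, TP N d (j / (2 * N : ℕ)) *
      ((∑ a ∈ range (2 * N), E (a * x) * E (a * (((-1 : ℤ) : ℝ) * j / (2 * N : ℕ)))) *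
        ∑ b ∈ range N, E (-(b * x)) * E (b * (((1 : ℤ) : ℝ) * j / (2 * N : ℕ)))) =
      ∑ k ∈ range N, ∑ a ∈ range (2 * N), ∑ b ∈ range N,
        d k * E ((a - b) * x) * E (j * ((((k + b : ℕ) : ℤ) - a : ℤ) / (2 * N : ℕ))) := by
    intro j
    unfold TP
    rw [sum_mul_sum, sum_mul]
    refine sum_congr rfl fun k _ => ?_
    rw [mul_sum]
    refine sum_congr rfl fun a _ => ?_
    rw [mul_sum]
    exact sum_congr rfl fun b _ => h1 k j a b
  simp only [h0]
  rw [sum_comm, TP, mul_sum]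
  refine sum_congr rfl fun k hk => ?_
  rw [sum_comm]
  have h2 : ∀ a ∈ range (2 * N), ∑ j ∈ range (2 * N), ∑ b ∈ range N,
      d k * E ((a - b) * x) * E (j * ((((k + b : ℕ) : ℤ) - a : ℤ) / (2 * N : ℕ))) =
      ∑ b ∈ range N, (2 * N : ℂ) * (d k * E (k * x)) * (if k + b = a then (1 : ℂ) else 0) := by
    intro a ha
    rw [sum_comm]
    refine sum_congr rfl fun b hb => ?_
    rw [← mul_sum, sum_E_orth (by omega)]
    simp only [mem_range] at ha hb hk
    by_cases h : k + b = a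
    · rw [if_pos ((dvd_iff_of_lt (by omega) ha).2 h), if_pos h, ← h]
      push_cast
      rw [show ((k : ℝ) + b - b) = k by ring]; ring
    · rw [if_neg (fun h' => h ((dvd_iff_of_lt (by omega) ha).1 h')), if_neg h]; simp
  rw [sum_congr rfl h2]
  simp only [← mul_sum]
  rw [card_pairs (mem_range.1 hk)]; ring

theorem grid_bound (N : ℕ) (hN : 0 < N) (d : ℕ → ℝ) {A : ℝ}
    (h : ∀ j ∈ range (2 * N), ‖TP N d (j / (2 * N : ℕ))‖ ≤ A) (x : ℝ) :
    ‖TP N d x‖ ≤ 3 / 2 * A := by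
  have hA : 0 ≤ A := (norm_nonneg _).trans (h 0 (by simp; omega))
  have h1 := congrArg norm (interp N hN d x)
  rw [norm_mul] at h1
  have h2 : ‖(2 * N * N : ℂ)‖ = 2 * N * N := by simp
  have h3 := disc_parseval (m := 2 * N) (n := 2 * N) le_rfl (by omega) (fun a => E (a * x)) (-1)
    (Or.inr rfl)
  have h4 := disc_parseval (m := 2 * N) (n := N) (by omega) (by omega) (fun a => E (-(a * x))) 1
    (Or.inl rfl)
  simp only [norm_E, one_pow, sum_const, card_range, nsmul_eq_mul, mul_one] at h3 h4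
  have h5 : 2 * N * N * ‖TP N d x‖ ≤ A * ((((2 * N : ℕ) : ℝ) * (2 * N : ℕ) +
      ((2 * N : ℕ) : ℝ) * N) / 2) := by
    rw [← h2, h1, ← h3, ← h4, ← sum_add_distrib, sum_div, mul_sum]
    refine (norm_sum_le _ _).trans (sum_le_sum fun j hj => ?_)
    rw [norm_mul, norm_mul]
    gcongr
    · exact h j hj
    · nlinarith [sq_nonneg (‖∑ a ∈ range (2 * N),
        E (a * x) * E (a * (((-1 : ℤ) : ℝ) * j / (2 * N : ℕ)))‖ -
        ‖∑ b ∈ range N, E (-(b * x)) * E (b * (((1 : ℤ) : ℝ) * j / (2 * N : ℕ)))‖)]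
  push_cast at h5
  have hN' : (0 : ℝ) < N := by exact_mod_cast hN
  have h6 : 2 * N * N * ‖TP N d x‖ ≤ 2 * N * N * (3 / 2 * A) := by nlinarith
  exact le_of_mul_le_mul_left h6 (by positivity)

theorem energy_lower (N : ℕ) (hN : 0 < N) (a : ℕ → ℝ) {A : ℝ} (hA : 0 ≤ A)
    (h : ∀ x, A ≤ ‖TP N a x‖) : A ^ 2 ≤ ∑ k ∈ range N, a k ^ 2 := by
  have h1 := disc_parseval (m := N) (n := N) le_rfl hN (fun k => (a k : ℂ)) 1 (Or.inl rfl)
  have h2 : ∑ _j ∈ range N, A ^ 2 ≤ ∑ j ∈ range N,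
      ‖∑ k ∈ range N, (a k : ℂ) * E (k * (((1 : ℤ) : ℝ) * j / N))‖ ^ 2 :=
    sum_le_sum fun j _ => pow_le_pow_left₀ hA (h _) 2
  rw [h1] at h2
  simp only [sum_const, card_range, nsmul_eq_mul, Complex.norm_real, Real.norm_eq_abs,
    sq_abs] at h2
  exact le_of_mul_le_mul_left h2 (by exact_mod_cast hN)

/-- rounding of a trigonometric polynomial with coefficients in `[-1,1]` -/
theorem poly_round (N : ℕ) (hN : 0 < N) (a : ℕ → ℝ) (ha : ∀ k, |a k| ≤ 1) {θ : ℝ} (hθ : 0 < θ)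
    (hS : ∑ k ∈ range N, (1 - a k ^ 2) ≤ θ ^ 8 * N) :
    ∃ s : ℕ → ℝ, (∀ k, s k = 1 ∨ s k = -1) ∧
      ∀ x, ‖TP N s x - TP N a x‖ ≤ 60000 * θ * √N := by
  have hN' : (0 : ℝ) < N := by exact_mod_cast hN
  let v : Fin (2 * N) × Bool → Fin N → ℝ := fun p k =>
    if p.2 then (E (k * ((p.1 : ℕ) / (2 * N : ℕ)))).re else (E (k * ((p.1 : ℕ) / (2 * N : ℕ)))).im
  obtain ⟨s, h1, h2⟩ := cube_round (ι := Fin N) (J := Fin (2 * N) × Bool) (by simp; omega) v
    (fun p k => by
      simp only [v]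
      split_ifs
      · exact (Complex.abs_re_le_norm _).trans (norm_E _).le
      · exact (Complex.abs_im_le_norm _).trans (norm_E _).le)
    (T := 2 * θ * √N) (S := θ ^ 8 * N) (by positivity) (by
      have : (√(N : ℝ)) ^ 8 = N ^ 4 := by
        rw [show 8 = 2 * 4 by norm_num, pow_mul, Real.sq_sqrt hN'.le]
      rw [mul_pow, mul_pow, this]
      simp only [Fintype.card_prod, Fintype.card_fin, Fintype.card_bool]
      push_cast
      have : 0 ≤ θ ^ 8 * N ^ 4 := by positivity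
      nlinarith) (fun k => a k) (fun k => ha k) (by
      rwa [Fin.sum_univ_eq_sum_range (fun k => 1 - a k ^ 2)])
  let s' : ℕ → ℝ := fun k => if h : k < N then s ⟨k, h⟩ else 1
  refine ⟨s', fun k => ?_, fun x => ?_⟩
  · simp only [s']; split_ifs
    · exact h1 _
    · exact Or.inl rfl
  · have h3 : ∀ y, TP N s' y - TP N a y = TP N (fun k => s' k - a k) y := by
      intro y; unfold TP; rw [← sum_sub_distrib]
      exact sum_congr rfl fun k _ => by push_cast; ring
    rw [h3]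
    refine (grid_bound N hN _ (A := 40000 * θ * √N) (fun j hj => ?_) x).trans (le_of_eq (by ring))
    have h4 : TP N (fun k => s' k - a k) (j / (2 * N : ℕ)) =
        ∑ k : Fin N, ((s k - a k : ℝ) : ℂ) * E (k * (j / (2 * N : ℕ))) := by
      unfold TP
      rw [← Fin.sum_univ_eq_sum_range (fun k => ((s' k - a k : ℝ) : ℂ) * E (k * (j / (2 * N : ℕ))))]
      refine sum_congr rfl fun k _ => ?_
      simp only [s', k.2, dif_pos]
    refine (Complex.norm_le_abs_re_add_abs_im _).trans ?_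
    have h5 := h2 (⟨j, mem_range.1 hj⟩, true)
    have h6 := h2 (⟨j, mem_range.1 hj⟩, false)
    simp only [v, if_true, Bool.false_eq_true, if_false] at h5 h6
    rw [h4, Complex.re_sum, Complex.im_sum]
    simp only [Complex.re_ofReal_mul, Complex.im_ofReal_mul]
    linarith

end Vale.Agent.P110
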