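import Vale.Agent.P110.Glue
import Vale.Agent.P110.Round
import Mathlib.MeasureTheory.Integral.IntervalIntegral.Periodic
import Mathlib.Algebra.Order.Round

/-! From a frequency path to a polynomial of almost constant modulus. -/

namespace Vale.Agent.P110

open Complex Set intervalIntegral MeasureTheory

theorem circle {N Λ δ v : ℝ} {I : ℤ → ℂ} (h : Path N Λ δ (1 / 2) v 0 I) :
    ∃ α t : ℝ → ℝ, Continuous α ∧ (∀ a b, α b - α a = ∫ s in a..b, N * t s) ∧
      (∀ a b, |t a - t b| ≤ Λ * |a - b|) ∧ (∀ ξ, δ ≤ t ξ ∧ t ξ ≤ 1 - δ) ∧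
      (∀ ξ, E (α (ξ + 1)) = E (α ξ)) ∧
      ∀ k : ℤ, ∫ ξ in (-(1 / 2) : ℝ)..(1 / 2), E (α ξ - k * ξ) = ((2 * (I k).re : ℝ) : ℂ) := by
  obtain ⟨τ, h1, h2, -, ⟨m, h4⟩, h5⟩ := h
  have hΛ : 0 ≤ Λ := by simpa using (abs_nonneg _).trans (h1 1 0)
  let d : ℝ → ℝ := fun ξ => |ξ - round ξ|
  have d1 : ∀ a b, d a - d b ≤ |a - b| := fun a b => by
    have := round_le a (round b)
    have := abs_add_le (a - b) (b - round b)
    simp only [d, sub_add_sub_cancel] at *
    linarith
  have d2 : ∀ a, d (-a) = d a := fun a => by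
    have e : ∀ a : ℝ, d (-a) ≤ d a := fun a => by
      have := round_le (-a) (-round a)
      simp only [d]
      rwa [show -a - ((-round a : ℤ) : ℝ) = -(a - round a) by push_cast; ring, abs_neg] at this
    exact le_antisymm (e a) (by simpa using e (-a))
  have d3 : ∀ a, d (a + 1) = d a := fun a => by simp [d]
  have d4 : ∀ a ∈ Icc (0 : ℝ) (1 / 2), d a = a := fun a ha => by
    refine le_antisymm (by simpa [abs_of_nonneg ha.1] using round_le a 0) ?_
    rcases le_or_gt (round a) 0 with h | h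
    · have : ((round a : ℤ) : ℝ) ≤ 0 := by exact_mod_cast h
      exact le_trans (by linarith) (le_abs_self _)
    · have : (1 : ℝ) ≤ (round a : ℤ) := by exact_mod_cast h
      exact le_trans (by linarith [ha.2]) (neg_le_abs _)
  let t : ℝ → ℝ := fun ξ => τ (d ξ)
  have t1 : ∀ a b, |t a - t b| ≤ Λ * |a - b| := fun a b =>
    (h1 _ _).trans (mul_le_mul_of_nonneg_left
      (abs_le.2 ⟨by linarith [d1 b a, abs_sub_comm a b], d1 a b⟩) hΛ)
  have hc := cont_of_lip t1
  let α : ℝ → ℝ := fun ξ => N * ∫ s in (0 : ℝ)..ξ, t s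
  have hα : Continuous α := continuous_const.mul (cont_prim hc)
  have a1 : ∀ a b, α b - α a = ∫ s in a..b, N * t s := fun a b => by
    simp only [α]
    rw [intervalIntegral.integral_const_mul, ← mul_sub,
      integral_interval_sub_left (hc.intervalIntegrable _ _) (hc.intervalIntegrable _ _)]
  have a2 : ∀ a, α (-a) = -α a := fun a => by
    have e := integral_comp_neg (a := 0) (b := a) (f := t)
    simp only [t, d2, neg_zero] at e
    simp only [α, t]
    rw [e, integral_symm]; ring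
  have a3 : ∀ ξ ∈ Icc (0 : ℝ) (1 / 2), α ξ = N * ∫ s in (0 : ℝ)..ξ, τ s := fun ξ hξ => by
    simp only [α]
    rw [integral_congr (g := τ) fun s hs => by
      rw [uIcc_of_le hξ.1] at hs
      simp only [t, d4 s ⟨hs.1, hs.2.trans hξ.2⟩]]
  have a4 : α (1 / 2) = m := by rw [a3 _ ⟨by norm_num, le_rfl⟩, h4, zero_add]
  refine ⟨α, t, hα, a1, t1, fun ξ => h2 _ ⟨abs_nonneg _, abs_sub_round ξ⟩, fun ξ => ?_, fun k => ?_⟩
  · have hp : Function.Periodic (fun s => N * t s) 1 := fun s => by simp only [t, d3]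
    have e := hp.intervalIntegral_add_eq ξ (-(1 / 2))
    rw [← a1, ← a1, show -(1 / 2) + 1 = (1 / 2 : ℝ) by norm_num, a2, a4] at e
    rw [← E_add_int (α ξ) (2 * m)]
    congr 1; push_cast; linarith
  · have hE : Continuous fun ξ => E (α ξ - k * ξ) := continuous_E.comp (hα.sub (by fun_prop))
    have e1 : ∫ ξ in (0 : ℝ)..(1 / 2), E (α ξ - k * ξ) = I k := by
      rw [← h5 k]
      exact integral_congr fun ξ hξ => by
        rw [uIcc_of_le (by norm_num)] at hξ
        simp only [a3 ξ hξ]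
    have e2 := integral_comp_neg (a := 0) (b := 1 / 2) (f := fun ξ => E (α ξ - k * ξ))
    have e3 : ∀ ξ, E (α (-ξ) - k * -ξ) = (starRingEnd ℂ) (E (α ξ - k * ξ)) := fun ξ => by
      rw [← E_neg, a2]; congr 1; ring
    simp only [e3, neg_zero] at e2
    rw [intervalIntegral_conj, e1] at e2
    rw [← integral_add_adjacent_intervals (hE.intervalIntegrable _ 0) (hE.intervalIntegrable 0 _),
      ← e2, e1, add_comm, Complex.add_conj]

theorem int_E (m : ℤ) :
    ∫ s in (-(1 / 2) : ℝ)..(1 / 2), E (m * s) = if m = 0 then 1 else 0 := by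
  split_ifs with h
  · simp [h]; norm_num
  · have hc : (I * (2 * Real.pi * m) : ℂ) ≠ 0 := by simp [Real.pi_ne_zero, h]
    have hd : ∀ s ∈ uIcc (-(1 / 2) : ℝ) (1 / 2),
        HasDerivAt (fun s : ℝ => E (m * s) / (I * (2 * Real.pi * m))) (E (m * s)) s := by
      intro s _
      have := (hasDerivAt_E ((hasDerivAt_id' s).const_mul (m : ℝ))).div_const
        (I * (2 * Real.pi * m))
      refine this.congr_deriv ?_
      rw [div_eq_iff hc]; push_cast; ring
    rw [integral_eq_sub_of_hasDerivAt hd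
      ((continuous_E.comp (by fun_prop)).intervalIntegrable _ _), ← E_add_int (m * -(1 / 2)) m,
      show (m : ℝ) * -(1 / 2) + m = m * (1 / 2) by ring, sub_self]

open Finset in
theorem sum_trap {N n1 n2 : ℕ} (h : n1 + n2 = N + 1) (c : ℕ → ℂ) :
    ∑ k ∈ range N, ((∑ b ∈ range n2, if b ≤ k ∧ k < b + n1 then (1 : ℝ) else 0 : ℝ) : ℂ) * c k =
      ∑ b ∈ range n2, ∑ a ∈ range n1, c (b + a) := by
  push_cast
  simp only [sum_mul]
  rw [sum_comm]
  refine sum_congr rfl fun b hb => ?_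
  have e : (range N).filter (fun k => b ≤ k ∧ k < b + n1) = Finset.Ico b (b + n1) := by
    have := Finset.mem_range.1 hb
    ext k; simp only [mem_filter, Finset.mem_range, Finset.mem_Ico]; omega
  have := sum_Ico_eq_sum_range c b (b + n1)
  rw [Nat.add_sub_cancel_left] at this
  rw [← this, ← e, sum_filter]
  refine sum_congr rfl fun k _ => ?_
  split_ifs <;> simp

/-- the trapezoidal kernel -/
noncomputable def Kn (n1 n2 : ℕ) (s : ℝ) : ℂ :=
  (∑ a ∈ Finset.range n1, E (a * s)) * (∑ b ∈ Finset.range n2, E (b * s)) / n2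

theorem Kn_eq (n1 n2 : ℕ) (s : ℝ) : Kn n1 n2 s =
    (∑ b ∈ Finset.range n2, ∑ a ∈ Finset.range n1, E ((b + a : ℕ) * s)) / n2 := by
  rw [Kn, mul_comm, Finset.sum_mul_sum]
  congr 1
  refine Finset.sum_congr rfl fun b _ => Finset.sum_congr rfl fun a _ => ?_
  rw [← E_add]; congr 1; push_cast; ring

theorem cont_Kn (n1 n2 : ℕ) : Continuous (Kn n1 n2) := by
  have := continuous_E
  unfold Kn; fun_prop

theorem Kn_per (n1 n2 : ℕ) (s : ℝ) : Kn n1 n2 (s + 1) = Kn n1 n2 s := by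
  have : ∀ a : ℕ, E (a * (s + 1)) = E (a * s) := fun a => by rw [mul_add, mul_one, E_add, E_nat, mul_one]
  simp only [Kn, this]

theorem Kn_int {n1 n2 k : ℕ} (h0 : 0 < n2) (h1 : n2 ≤ k + 1) (h2 : k < n1) :
    ∫ s in (-(1 / 2) : ℝ)..(1 / 2), E (-(k * s)) * Kn n1 n2 s = 1 := by
  have hE := continuous_E
  have e : ∀ s : ℝ, E (-(k * s)) * Kn n1 n2 s = (∑ b ∈ Finset.range n2, ∑ a ∈ Finset.range n1,
      E (((b + a - k : ℤ) : ℝ) * s)) / n2 := fun s => by
    rw [Kn_eq, ← mul_div_assoc, Finset.mul_sum]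
    congr 1
    refine Finset.sum_congr rfl fun b _ => ?_
    rw [Finset.mul_sum]
    refine Finset.sum_congr rfl fun a _ => ?_
    rw [← E_add]; congr 1; push_cast; ring
  simp only [e]
  rw [intervalIntegral.integral_div, integral_finsetSum fun b _ =>
    Continuous.intervalIntegrable (by fun_prop) _ _, div_eq_one_iff_eq (by exact_mod_cast h0.ne')]
  rw [Finset.sum_congr rfl (g := fun _ => 1) fun b hb => ?_]
  · simp
  · rw [integral_finsetSum fun a _ => Continuous.intervalIntegrable (by fun_prop) _ _]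
    simp only [int_E]
    simp only [Finset.mem_range] at hb
    rw [Finset.sum_eq_single (k - b), if_pos (by omega)]
    · intro a _ ha; rw [if_neg (by omega)]
    · intro h; exact absurd (Finset.mem_range.2 (by omega)) h

theorem Kn_bound {n1 n2 : ℕ} (h0 : 0 < n2) {s : ℝ} (hs : |s| ≤ 1 / 2) :
    ‖Kn n1 n2 s‖ * (2 * |s|) ≤ 1 ∧ ‖Kn n1 n2 s‖ * (4 * s ^ 2 * n2) ≤ 1 := by
  have h1 := norm_dirichlet_mul hs n1
  have h2 := norm_dirichlet_mul hs n2
  have h3 := norm_dirichlet_le n2 s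
  have h4 : (0 : ℝ) < n2 := by exact_mod_cast h0
  rw [Kn, norm_div, norm_mul, Complex.norm_natCast]
  have h5 := norm_nonneg (∑ a ∈ Finset.range n1, E (a * s))
  have h6 := norm_nonneg (∑ a ∈ Finset.range n2, E (a * s))
  constructor
  · rw [div_mul_eq_mul_div, div_le_one h4]
    nlinarith [mul_le_mul h1 h3 h6 zero_le_one]
  · have := mul_le_mul h1 h2 (by positivity) zero_le_one
    rw [← sq_abs s]
    refine le_trans (le_of_eq ?_) (this.trans_eq (mul_one 1))
    generalize ‖∑ a ∈ Finset.range n1, E (a * s)‖ = x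
    generalize ‖∑ a ∈ Finset.range n2, E (a * s)‖ = y
    field_simp; ring

theorem conv_err {N Λ δ ε r : ℝ} {α t : ℝ → ℝ} {n1 n2 k : ℕ} (hα : Continuous α) (hN : 0 ≤ N)
    (a1 : ∀ a b, α b - α a = ∫ s in a..b, N * t s) (t1 : ∀ a b, |t a - t b| ≤ Λ * |a - b|)
    (hδ : 0 < δ) (h0 : 0 < n2) (h1 : n2 ≤ k + 1) (h2 : k < n1) (h3 : δ * N ≤ 2 * n2) (ξ : ℝ)
    (hk : |N * t ξ - k| ≤ 1) (hr : 0 < r) (hr1 : r ≤ 1 / 2)
    (hr2 : 2 * r * (7 * (Λ / (2 * δ) + 1 / 2)) ≤ ε / 2) (hr3 : 1 ≤ ε * r ^ 2 * n2) :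
    ‖(∫ s in (-(1 / 2) : ℝ)..(1 / 2), E (α (ξ - s)) * Kn n1 n2 s) - E (α ξ)‖ ≤ ε := by
  have hE := continuous_E
  have hK := cont_Kn n1 n2
  have hΛ : 0 ≤ Λ := by simpa using (abs_nonneg _).trans (t1 1 0)
  have hn : (0 : ℝ) < n2 := by exact_mod_cast h0
  let D : ℝ → ℂ := fun s => (E (α (ξ - s)) - E (α ξ - k * s)) * Kn n1 n2 s
  have hD : Continuous D := by simp only [D]; fun_prop
  have e1 : (∫ s in (-(1 / 2) : ℝ)..(1 / 2), E (α (ξ - s)) * Kn n1 n2 s) - E (α ξ) =
      ∫ s in (-(1 / 2) : ℝ)..(1 / 2), D s := by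
    simp only [D, sub_mul]
    rw [integral_sub (Continuous.intervalIntegrable (by fun_prop) _ _)
      (Continuous.intervalIntegrable (by fun_prop) _ _)]
    simp only [sub_eq_add_neg (α ξ), E_add, mul_assoc]
    rw [intervalIntegral.integral_const_mul, Kn_int h0 h1 h2, mul_one]
  have e2 : ∀ s, |α (ξ - s) - (α ξ - k * s)| ≤ N * Λ * s ^ 2 + |s| := fun s => by
    have hc := cont_of_lip t1
    have f1 : α (ξ - s) - α ξ + N * t ξ * s = ∫ u in ξ..ξ - s, (N * t u - N * t ξ) := by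
      rw [integral_sub (Continuous.intervalIntegrable (by fun_prop) _ _)
        (Continuous.intervalIntegrable (by fun_prop) _ _), ← a1]
      simp; ring
    have f2 := norm_integral_le_of_norm_le_const (a := ξ) (b := ξ - s) (C := N * Λ * |s|)
      (f := fun u => N * t u - N * t ξ) fun u hu => by
        have := abs_sub_left_of_mem_uIcc (uIoc_subset_uIcc hu)
        rw [show ξ - s - ξ = -s by ring, abs_neg] at this
        rw [Real.norm_eq_abs, ← mul_sub, abs_mul, abs_of_nonneg hN, mul_assoc]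
        exact mul_le_mul_of_nonneg_left ((t1 _ _).trans (by gcongr)) hN
    rw [← f1, show ξ - s - ξ = -s by ring, abs_neg, mul_assoc _ |s|, abs_mul_abs_self,
      Real.norm_eq_abs] at f2
    have f3 : |(N * t ξ - k) * s| ≤ |s| := by
      rw [abs_mul]; nlinarith [abs_nonneg s]
    rw [show α (ξ - s) - (α ξ - k * s) = (α (ξ - s) - α ξ + N * t ξ * s) - (N * t ξ - k) * s by ring]
    refine (abs_sub _ _).trans ?_
    nlinarith
  have e3 : ∀ s, |s| ≤ 1 / 2 → ‖D s‖ ≤ 7 * (Λ / (2 * δ) + 1 / 2) := fun s hs => by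
    obtain ⟨b1, b2⟩ := Kn_bound (n1 := n1) h0 hs
    have b3 := (norm_E_sub _ _).trans (mul_le_mul_of_nonneg_left (e2 s) (by norm_num))
    have b4 := norm_nonneg (Kn n1 n2 s)
    have b5 : N * Λ * s ^ 2 * ‖Kn n1 n2 s‖ ≤ Λ / (2 * δ) := by
      rw [le_div_iff₀ (by positivity)]
      nlinarith [mul_le_mul_of_nonneg_left b2 hΛ,
        mul_le_mul_of_nonneg_left h3 (by positivity : 0 ≤ Λ * s ^ 2 * ‖Kn n1 n2 s‖)]
    simp only [D]
    rw [norm_mul]
    nlinarith [mul_le_mul_of_nonneg_right b3 b4]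
  have e4 : ∀ s, r ≤ |s| → |s| ≤ 1 / 2 → ‖D s‖ ≤ ε / 2 := fun s hs hs' => by
    obtain ⟨-, b2⟩ := Kn_bound (n1 := n1) h0 hs'
    have b3 := norm_E_sub_le_two (α (ξ - s)) (α ξ - k * s)
    have b4 := norm_nonneg (Kn n1 n2 s)
    have b5 : r ^ 2 ≤ s ^ 2 := by rw [← sq_abs s]; gcongr
    have b6 : ‖Kn n1 n2 s‖ * (4 * r ^ 2 * n2) ≤ 1 := le_trans (by gcongr) b2
    have b7 : ‖Kn n1 n2 s‖ ≤ ε / 4 := by
      refine le_of_mul_le_mul_right ?_ (by positivity : 0 < 4 * r ^ 2 * n2)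
      linarith
    simp only [D]
    rw [norm_mul]
    nlinarith [mul_le_mul_of_nonneg_right b3 b4]
  rw [e1, ← integral_add_adjacent_intervals (hD.intervalIntegrable _ (-r))
    (hD.intervalIntegrable _ _), ← integral_add_adjacent_intervals (hD.intervalIntegrable (-r) r)
    (hD.intervalIntegrable _ _)]
  have i1 := norm_integral_le_of_norm_le_const (a := -(1 / 2)) (b := -r) (f := D) fun s hs => by
    rw [uIoc_of_le (by linarith)] at hs
    exact e4 s (by rw [abs_of_nonpos (by linarith [hs.2])]; linarith [hs.2])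
      (by rw [abs_of_nonpos (by linarith [hs.2])]; linarith [hs.1])
  have i2 := norm_integral_le_of_norm_le_const (a := -r) (b := r) (f := D) fun s hs => by
    rw [uIoc_of_le (by linarith)] at hs
    exact e3 s (by rw [abs_le]; constructor <;> linarith [hs.1, hs.2])
  have i3 := norm_integral_le_of_norm_le_const (a := r) (b := 1 / 2) (f := D) fun s hs => by
    rw [uIoc_of_le (by linarith)] at hs
    exact e4 s (by rw [abs_of_nonneg (by linarith [hs.1])]; linarith [hs.1])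
      (by rw [abs_of_nonneg (by linarith [hs.1])]; linarith [hs.2])
  rw [abs_of_nonneg (by linarith)] at i1 i2 i3
  have hε : 0 ≤ ε := by
    by_contra h
    push Not at h
    nlinarith [mul_pos (mul_pos hr hr) hn]
  refine (norm_add_le _ _).trans ((add_le_add_right (norm_add_le _ _) _).trans ?_)
  nlinarith

theorem kernel {Λ δ ε : ℝ} (hδ : 0 < δ) (hε : 0 < ε) :
    ∃ N0 : ℝ, ∀ N : ℕ, N0 ≤ N → ∀ (v : ℝ) (I : ℤ → ℂ), Path N Λ δ (1 / 2) v 0 I →
      ∃ a : ℕ → ℝ, (∀ k, |a k| ≤ √N * |2 * (I k).re|) ∧ ∀ ξ, |‖TP N a ξ‖ - √N| ≤ ε * √N := by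
  set r := min (1 / 2) (ε / (4 * (7 * (|Λ| / (2 * δ) + 1 / 2)))) with hr
  have hr0 : 0 < r := by positivity
  refine ⟨max (2 / δ) (2 / (δ * (ε * r ^ 2))), fun N hN v I h => ?_⟩
  obtain ⟨α, t, hα, a1, t1, t2, a2, a3⟩ := circle h
  have hΛ : 0 ≤ Λ := by simpa using (abs_nonneg _).trans (t1 1 0)
  have h1 := (le_max_left _ _).trans hN
  have h2 := (le_max_right _ _).trans hN
  rw [div_le_iff₀ (by positivity)] at h1 h2
  have hN0 : (0 : ℝ) ≤ N := by positivity
  set n2 := ⌊δ * N⌋₊ with hn2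
  have h3 : (n2 : ℝ) ≤ δ * N := Nat.floor_le (by positivity)
  have h4 : δ * N < n2 + 1 := Nat.lt_floor_add_one _
  have h5 : δ * N ≤ 2 * n2 := by linarith
  have h6 : 0 < n2 := by
    have : (0 : ℝ) < n2 := by linarith
    exact_mod_cast this
  have hn : (0 : ℝ) < n2 := by exact_mod_cast h6
  have h7 : n2 ≤ N := by
    have : (n2 : ℝ) ≤ N := by nlinarith [t2 0]
    exact_mod_cast this
  set n1 := N + 1 - n2 with hn1
  let ψ : ℕ → ℝ := fun k =>
    ∑ b ∈ Finset.range n2, if b ≤ k ∧ k < b + n1 then (1 : ℝ) else 0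
  refine ⟨fun k => ψ k / n2 * (√N * (2 * (I k).re)), fun k => ?_, fun ξ => ?_⟩
  · have e1 : 0 ≤ ψ k := Finset.sum_nonneg fun b _ => by split_ifs <;> norm_num
    have e2 : ψ k ≤ n2 := (Finset.sum_le_card_nsmul _ _ 1 fun b _ => by
      split_ifs <;> norm_num).trans_eq (by simp)
    rw [abs_mul, abs_mul, abs_of_nonneg (Real.sqrt_nonneg _), abs_of_nonneg (by positivity)]
    exact mul_le_of_le_one_left (by positivity) ((div_le_one hn).2 e2)
  · have hE := continuous_E
    have hK := cont_Kn n1 n2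
    have e1 : TP N (fun k => ψ k / n2 * (√N * (2 * (I k).re))) ξ =
        (√N : ℝ) * ∫ s in (-(1 / 2) : ℝ)..(1 / 2), E (α (ξ - s)) * Kn n1 n2 s := by
      have hp : Function.Periodic (fun s => E (α (ξ - s)) * Kn n1 n2 s) 1 := fun s => by
        simp only [Kn_per]
        rw [← a2, show ξ - (s + 1) + 1 = ξ - s by ring]
      have f1 := hp.intervalIntegral_add_eq (ξ - 1 / 2) (-(1 / 2))
      rw [show -(1 / 2) + 1 = (1 / 2 : ℝ) by norm_num,
        show ξ - 1 / 2 + 1 = ξ - -(1 / 2) by ring, ← integral_comp_sub_left] at f1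
      rw [← f1]
      have f2 : ∀ u, E (α (ξ - (ξ - u))) * Kn n1 n2 (ξ - u) = ∑ k ∈ Finset.range N,
          ((ψ k / n2 : ℝ) : ℂ) * E (k * ξ) * E (α u - (k : ℤ) * u) := fun u => by
        rw [Kn_eq, ← sum_trap (N := N) (by omega) (fun k => E (k * (ξ - u))), Finset.sum_div,
          Finset.mul_sum]
        refine Finset.sum_congr rfl fun k _ => ?_
        have : E (k * ξ) * E (α u - (k : ℤ) * u) = E (α (ξ - (ξ - u))) * E (k * (ξ - u)) := by
          rw [← E_add, ← E_add, sub_sub_cancel]; congr 1; push_cast; ring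
        rw [mul_assoc, this]
        simp only [ψ, ofReal_div, ofReal_natCast]; ring
      simp only [f2]
      rw [integral_finsetSum fun b _ => Continuous.intervalIntegrable (by fun_prop) _ _,
        Finset.mul_sum, TP]
      refine Finset.sum_congr rfl fun k _ => ?_
      rw [intervalIntegral.integral_const_mul, a3]
      push_cast; ring
    have ht := t2 ξ
    have g0 : 0 ≤ N * t ξ := mul_nonneg hN0 (by linarith [ht.1])
    have g1 := Nat.floor_le g0
    have g2 := Nat.lt_floor_add_one (N * t ξ)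
    have g3 : n2 ≤ ⌊N * t ξ⌋₊ := Nat.floor_mono (by nlinarith [ht.1])
    have g4 : ⌊N * t ξ⌋₊ + n2 ≤ N := by
      have : (⌊N * t ξ⌋₊ : ℝ) + n2 ≤ N := by nlinarith [ht.2]
      exact_mod_cast this
    have e2 := conv_err (ε := ε) (n1 := n1) (k := ⌊N * t ξ⌋₊) hα hN0 a1 t1 hδ h6 (by omega)
      (by omega) h5 ξ (by rw [abs_le]; constructor <;> linarith) hr0 (min_le_left _ _) (by
        have := min_le_right (1 / 2) (ε / (4 * (7 * (|Λ| / (2 * δ) + 1 / 2))))
        rw [← hr, abs_of_nonneg hΛ, le_div_iff₀ (by positivity)] at this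
        linarith) (by nlinarith [mul_le_mul_of_nonneg_left h5 (by positivity : 0 ≤ ε * r ^ 2)])
    have e3 := (abs_norm_sub_norm_le _ _).trans e2
    rw [norm_E] at e3
    rw [e1, norm_mul, norm_real, Real.norm_eq_abs, abs_of_nonneg (Real.sqrt_nonneg _),
      ← mul_sub_one, abs_mul, abs_of_nonneg (Real.sqrt_nonneg _), mul_comm]
    gcongr

end Vale.Agent.P110
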