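import Vale.Agent.P110.Kernel
import Vale.Agent.P110.Branch
import Vale.Agent.P110.Design2

/-! Assembly: real polynomials with almost bounded coefficients and almost constant modulus,
then rounding. -/

namespace Vale.Agent.P110

open Complex Set intervalIntegral MeasureTheory

theorem exists_E {z : ℂ} (hz : ‖z‖ = 1) : ∃ x, E x = z := by
  obtain ⟨θ, h⟩ := (Complex.norm_eq_one_iff z).1 hz
  refine ⟨θ / (2 * Real.pi), ?_⟩
  rw [← h, E, mul_div_cancel₀ _ (by positivity), mul_comm]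

theorem slot {G g h : ℝ → ℝ} (hP : Ph G g h) (hG : G 0 = 0) (ς : Bool) (t p : ℝ) {D l : ℝ}
    (hD : 0 < D) (hl : 0 < l) :
    ∃ S σ χ : ℝ → ℝ, Ph S σ χ ∧
      (∀ ξ ∈ Icc p (p + l), ∃ u ∈ Icc (0 : ℝ) 1, σ ξ = t + D * g u ∧ |χ ξ| = D / l * |h u|) ∧
      ∀ N c : ℝ, 0 < N → ∃ θ, ∀ k : ℤ, (piece N θ S p (p + l) k).re =
        l * (E (c - k * if ς then p else -(p + l)) *
          ∫ u in (0 : ℝ)..1, E (N * D * l * (G u - (k / N - t) / D * u))).re := by
  cases ς
  · have d : ∀ ξ, HasDerivAt (fun ξ => (p + l - ξ) / l) (-1 / l) ξ := fun ξ =>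
      ((hasDerivAt_id' ξ).const_sub (p + l)).div_const l
    refine ⟨fun ξ => t * ξ - D * l * G ((p + l - ξ) / l), fun ξ => t + D * g ((p + l - ξ) / l),
      fun ξ => -(D / l * h ((p + l - ξ) / l)), ⟨fun ξ => ?_, fun ξ => ?_, ?_⟩, fun ξ hξ => ?_,
      fun N c hN => ⟨-c - N * (t * l + D * l * G 1), fun k => ?_⟩⟩
    · refine (((hasDerivAt_id' ξ).const_mul t).fun_sub
        (((hP.d1 _).comp ξ (d ξ)).const_mul (D * l))).congr_deriv ?_
      field_simp; ring
    · refine ((((hP.d2 _).comp ξ (d ξ)).const_mul D).const_add t).congr_deriv ?_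
      field_simp
    · have := hP.c; fun_prop
    · refine ⟨(p + l - ξ) / l, ⟨div_nonneg (by linarith [hξ.2]) hl.le,
        (div_le_one hl).2 (by linarith [hξ.1])⟩, rfl, ?_⟩
      rw [abs_neg, abs_mul, abs_of_pos (div_pos hD hl)]
    · have e := smul_integral_comp_sub_mul (a := 0) (b := 1) (fun ξ => E (-c - N * (t * l + D * l * G 1) +
        N * (t * ξ - D * l * G ((p + l - ξ) / l) - (t * p - D * l * G ((p + l - p) / l))) - k * ξ))
        l (p + l)
      rw [mul_one, mul_zero, sub_zero, add_sub_cancel_right] at e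
      rw [piece, ← e, ← intervalIntegral.integral_const_mul, ← conj_re (∫ _ in _.._, _ * _),
        ← intervalIntegral_conj, real_smul, re_ofReal_mul]
      congr 3
      ext u
      rw [← E_add, ← E_neg, show (p + l - (p + l - l * u)) / l = u by field_simp; ring,
        show (p + l - p) / l = 1 by field_simp; ring]
      congr 1
      simp only [Bool.false_eq_true, if_false]
      field_simp; ring
  · have d : ∀ ξ, HasDerivAt (fun ξ => (ξ - p) / l) (1 / l) ξ := fun ξ =>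
      ((hasDerivAt_id' ξ).sub_const p).div_const l
    refine ⟨fun ξ => t * ξ + D * l * G ((ξ - p) / l), fun ξ => t + D * g ((ξ - p) / l),
      fun ξ => D / l * h ((ξ - p) / l), ⟨fun ξ => ?_, fun ξ => ?_, ?_⟩, fun ξ hξ => ?_,
      fun N c hN => ⟨c, fun k => ?_⟩⟩
    · refine (((hasDerivAt_id' ξ).const_mul t).fun_add
        (((hP.d1 _).comp ξ (d ξ)).const_mul (D * l))).congr_deriv ?_
      field_simp
    · refine ((((hP.d2 _).comp ξ (d ξ)).const_mul D).const_add t).congr_deriv ?_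
      field_simp
    · have := hP.c; fun_prop
    · refine ⟨(ξ - p) / l, ⟨div_nonneg (by linarith [hξ.1]) hl.le,
        (div_le_one hl).2 (by linarith [hξ.2])⟩, rfl, ?_⟩
      rw [abs_mul, abs_of_pos (div_pos hD hl)]
    · have e := smul_integral_comp_add_mul (a := 0) (b := 1) (fun ξ => E (c +
        N * (t * ξ + D * l * G ((ξ - p) / l) - (t * p + D * l * G ((p - p) / l))) - k * ξ)) l p
      rw [mul_one, mul_zero, add_zero] at e
      rw [piece, ← e, ← intervalIntegral.integral_const_mul, real_smul, re_ofReal_mul]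
      congr 3
      ext u
      rw [← E_add, show (p + l * u - p) / l = u by field_simp; ring, sub_self, zero_div, hG]
      congr 1
      simp only [if_true]
      field_simp; ring

theorem one_window {W : ℕ} (m : Fin W → ℝ) {x c : ℝ} (hc : 0 ≤ c) (h1 : ∀ w, m w ≤ c)
    (h2 : ∀ w, m w ≠ 0 → 0 < x - (w : ℕ) ∧ x - (w : ℕ) < 1) :
    ∑ w, m w ≤ if W < x then 0 else c := by
  by_cases h : ∀ w, m w = 0
  · simp only [h, Finset.sum_const_zero]; split_ifs; exacts [le_rfl, hc]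
  · push Not at h
    obtain ⟨w, hw⟩ := h
    have h3 := h2 w hw
    have h4 : ((w : ℕ) : ℝ) + 1 ≤ W := by exact_mod_cast w.2
    rw [if_neg (by linarith [h3.2]), Finset.sum_eq_single w (fun v _ hv => ?_) (by simp)]
    · exact h1 w
    · by_contra h5
      have h6 := h2 v h5
      have h7 : ((v : ℕ) : ℝ) < (w : ℕ) + 1 := by linarith [h6.1, h3.2]
      have h8 : ((w : ℕ) : ℝ) < (v : ℕ) + 1 := by linarith [h6.2, h3.1]
      have h9 : (v : ℕ) < w + 1 := by exact_mod_cast h7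
      have h10 : (w : ℕ) < v + 1 := by exact_mod_cast h8
      exact hv (Fin.ext (by omega))

theorem re_close {N l D ε m x : ℝ} {I y : ℂ} (hN : 0 < N) (hl : 0 < l) (hD : 0 < D)
    (h : ‖(√(N * D * l) : ℝ) * I - m * y‖ ≤ ε) :
    |√N * (l * (E x * I).re) - m * (((√(l / D) : ℝ) : ℂ) * (E x * y)).re| ≤ √(l / D) * ε := by
  have e1 : √N * l = √(l / D) * √(N * D * l) := by
    rw [← Real.sqrt_mul (by positivity), show l / D * (N * D * l) = N * l ^ 2 by field_simp,
      Real.sqrt_mul hN.le, Real.sqrt_sq hl.le]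
  have e2 : √N * (l * (E x * I).re) - m * (((√(l / D) : ℝ) : ℂ) * (E x * y)).re =
      √(l / D) * (E x * ((√(N * D * l) : ℝ) * I - m * y)).re := by
    rw [← mul_assoc, e1, mul_sub (E x), mul_left_comm (E x), mul_left_comm (E x), sub_re,
      re_ofReal_mul, re_ofReal_mul, re_ofReal_mul]
    ring
  rw [e2, abs_mul, abs_of_nonneg (Real.sqrt_nonneg _)]
  refine mul_le_mul_of_nonneg_left ((abs_re_le_norm _).trans ?_) (Real.sqrt_nonneg _)
  rwa [norm_mul, norm_E, one_mul]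

theorem final_num {δ r A B C M : ℝ} {P : Prop} [Decidable P] (hδ : 0 < δ) (hδ1 : δ ≤ 1 / 1000)
    (hr0 : 0 ≤ r) (hr1 : r ≤ 1 + 100 * δ) (h8 : |A - B| ≤ δ + if P then 1 / 2 else 0)
    (h2 : |B - C| ≤ δ) (h3 : |2 * C| ≤ M * (r * (1 + δ))) (h4 : M ≤ if P then 0 else 1 + δ) :
    |2 * A| ≤ 1 + 110 * δ := by
  rw [abs_le] at h2 h3 h8 ⊢
  have h9 : 0 ≤ r * (1 + δ) := by positivity
  have h10 := mul_le_mul_of_nonneg_right h4 h9
  have h11 : (1 + δ) * (r * (1 + δ)) ≤ 1 + 106 * δ := by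
    nlinarith [mul_le_mul_of_nonneg_right hr1 (by positivity : 0 ≤ (1 + δ) ^ 2), mul_pos hδ hδ]
  split_ifs at h8 h10 <;> constructor <;> linarith [h8.1, h8.2, h2.1, h2.2, h3.1, h3.2]

theorem r_num {δ : ℝ} (hδ : 0 < δ) (hδ1 : δ ≤ 1 / 1000) :
    √((1 - 2 * δ) / (1 - 101 * δ)) ≤ 1 + 100 * δ := by
  refine Real.sqrt_le_iff.2 ⟨by linarith, ?_⟩
  rw [div_le_iff₀ (by linarith)]
  nlinarith [mul_pos hδ hδ, mul_pos hδ (mul_pos hδ hδ)]

theorem len_num {δ a U : ℝ} (hδ1 : δ ≤ 1 / 1000) (ha : 1 ≤ a) (hU : 0 < U) :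
    1 ≤ 2 * U * ((1 - 2 * δ) * a / U) := by
  rw [mul_div_assoc', le_div_iff₀ hU]
  nlinarith [mul_le_mul_of_nonneg_left ha hU.le]

theorem cov_num {δ s U W : ℝ} (hδ : 0 < δ) (hδ1 : δ ≤ 1 / 1000) (hU : 0 < U)
    (hcov : (1 - δ) * U ≤ 2 * (W * s)) :
    1 - 100 * δ + 3 * δ + 64 * (1 / 2 - W * ((1 - 2 * δ) * s / U)) ≤ 1 - δ := by
  have : (1 - 2 * δ) * (1 - δ) / 2 ≤ W * ((1 - 2 * δ) * s / U) := by
    rw [← mul_div_assoc, le_div_iff₀ hU]
    nlinarith [mul_le_mul_of_nonneg_left hcov (by linarith : 0 ≤ 1 - 2 * δ)]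
  nlinarith

theorem path_exists {δ : ℝ} (hδ : 0 < δ) (hδ1 : δ ≤ 1 / 1000) :
    ∃ Λ N0 : ℝ, ∀ N, N0 ≤ N → ∃ I : ℤ → ℂ, Path N Λ δ (1 / 2) δ 0 I ∧
      ∀ k, √N * |2 * (I k).re| ≤ 1 + 110 * δ := by
  obtain ⟨W, U, J, _, a, u, Z, ς, hW, hU, ha, hu, hZ1, hZ2, hcov, hsum⟩ :=
    design hδ (by linarith)
  have hWr : (0 : ℝ) < W := by exact_mod_cast hW
  have hUr : (0 : ℝ) < U := by exact_mod_cast hU
  have har : ∀ j, (1 : ℝ) ≤ a j := fun j => by exact_mod_cast ha j
  set D := (1 - 101 * δ) / W with hD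
  have hD0 : 0 < D := div_pos (by linarith) hWr
  have hDW : D * W = 1 - 101 * δ := by rw [hD]; field_simp
  let l : J → ℝ := fun j => (1 - 2 * δ) * a j / U
  have hl : ∀ j, 0 < l j := fun j => div_pos (mul_pos (by linarith) (by linarith [har j])) hUr
  set ρ := W * ∑ j, √(l j / D) with hρ
  have hρ0 : 0 ≤ ρ := mul_nonneg hWr.le (Finset.sum_nonneg fun j _ => Real.sqrt_nonneg _)
  obtain ⟨G, g, h, H, R0, ω, hP, hG0, hg0, hg1, hH, hω, hbr⟩ :=
    branch hδ (by linarith) (ε := δ / (ρ + 1)) (by positivity)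
  let p : Fin W × J → ℝ := fun b => (Z b + δ * a b.2) / U
  choose S σ χ hS hr hθ using fun b : Fin W × J =>
    slot hP hG0 (ς b) (δ + (b.1 : ℕ) * D) (p b) hD0 (hl b.2)
  have hH0 : 0 ≤ H := (hH 0 ⟨le_rfl, zero_le_one⟩).1.trans (hH 0 ⟨le_rfl, zero_le_one⟩).2
  have hq : ∀ b, p b + l b.2 + δ / U = (Z b + a b.2 - δ * (a b.2 - 1)) / U := fun b => by
    simp only [p, l]; field_simp; ring
  obtain ⟨Λ, N0, hgl⟩ := glue p (fun b => p b + l b.2) S σ χ (δ := δ) (γ := δ / U)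
    (T := 1 - 100 * δ) (Λ := D * (2 * U) * H) hδ hδ (by positivity)
    (by rw [div_le_iff₀ hUr]; have : (1 : ℝ) ≤ U := by exact_mod_cast hU
        linarith)
    (by linarith) (by positivity)
    (fun b => div_le_div_of_nonneg_right
      (by nlinarith [har b.2, (by positivity : (0 : ℝ) ≤ Z b)]) hUr.le)
    (fun b => by linarith [hl b.2])
    (fun b => by
      have : (2 * (Z b + a b.2) : ℝ) ≤ U := by exact_mod_cast hZ1 b
      rw [hq, div_le_iff₀ hUr]
      nlinarith [har b.2])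
    (fun b b' hb => by
      rw [hq, hq]
      refine (hZ2 b b' hb).imp (fun h => ?_) fun h => ?_
      · have : (Z b + a b.2 : ℝ) ≤ Z b' := by exact_mod_cast h
        exact div_le_div_of_nonneg_right (by nlinarith [har b.2, har b'.2]) hUr.le
      · have : (Z b' + a b'.2 : ℝ) ≤ Z b := by exact_mod_cast h
        exact div_le_div_of_nonneg_right (by nlinarith [har b.2, har b'.2]) hUr.le)
    hS
    (fun b ξ hξ => by
      obtain ⟨v, hv, -, h2⟩ := hr b ξ hξ
      rw [h2, abs_of_nonneg (hH v hv).1]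
      refine mul_le_mul ?_ (hH v hv).2 (hH v hv).1 (by positivity)
      rw [div_le_iff₀ (hl b.2), mul_assoc]
      exact le_mul_of_one_le_right hD0.le (len_num hδ1 (har b.2) hUr))
    (fun b ξ hξ => by
      obtain ⟨v, hv, h1, -⟩ := hr b ξ hξ
      have e1 := hP.grow (l := 0) hv.1 fun x hx => (hH x ⟨hx.1, hx.2.trans hv.2⟩).1
      have e2 := hP.grow (l := 0) hv.2 fun x hx => (hH x ⟨hv.1.trans hx.1, hx.2⟩).1
      have e3 : ((b.1 : ℕ) : ℝ) + 1 ≤ W := by exact_mod_cast b.1.2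
      have e4 : (0 : ℝ) ≤ (b.1 : ℕ) := by positivity
      rw [h1]
      constructor <;> nlinarith)
    (by
      simp only [add_sub_cancel_left, Fintype.sum_prod_type, Finset.sum_const, Finset.card_univ,
        Fintype.card_fin, nsmul_eq_mul, l]
      rw [← Finset.sum_div, ← Finset.mul_sum]
      exact cov_num hδ hδ1 hUr hcov)
  choose c hc using fun j => exists_E (z := u j / ω) (by rw [norm_div, hu, hω, div_one])
  have hω0 : ω ≠ 0 := fun h => by simp [h] at hω
  refine ⟨Λ, max (max N0 1) (|R0| * (2 * U) / D), fun N hN => ?_⟩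
  have hN0 : 0 < N := lt_of_lt_of_le one_pos ((le_max_right _ _).trans ((le_max_left _ _).trans hN))
  have hR : ∀ j, R0 ≤ N * D * l j := fun j => by
    have h1 := (le_max_right _ _).trans hN
    rw [div_le_iff₀ hD0] at h1
    have h2 : 1 ≤ 2 * U * l j := len_num hδ1 (har j) hUr
    nlinarith [le_abs_self R0, abs_nonneg R0, mul_le_mul_of_nonneg_right h1 (hl j).le]
  choose θ hθ' using fun b : Fin W × J => hθ b N (c b.2) hN0
  obtain ⟨I, hI, hI2⟩ := hgl N ((le_max_left _ _).trans ((le_max_left _ _).trans hN)) θ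
  refine ⟨I, hI, fun k => ?_⟩
  choose m T hm0 hm1 hm2 hm3 using fun w : Fin W => hbr ((k / N - (δ + (w : ℕ) * D)) / D)
  set r := √((1 - 2 * δ) / (1 - 101 * δ)) with hr'
  have hr0 : 0 ≤ r := Real.sqrt_nonneg _
  let F : Fin W → J → ℂ := fun w j => (√(a j * W / U) : ℝ) * u j *
    E (a j * (N * D * (1 - 2 * δ) * T w / U - k * δ / U) -
      k * spos (ς (w, j)) (Z (w, j)) (a j) / U)
  have h1 : ∀ w j, |√N * (piece N (θ (w, j)) (S (w, j)) (p (w, j)) (p (w, j) + l j) k).re -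
      m w * (r * (F w j).re)| ≤ √(l j / D) * (δ / (ρ + 1)) := by
    intro w j
    have e1 := re_close (x := c j - k * if ς (w, j) then p (w, j) else -(p (w, j) + l j))
      hN0 (hl j) hD0 (hm3 w _ (hR j))
    have e2 : √(l j / D) = r * √(a j * W / U) := by
      rw [hr', ← Real.sqrt_mul (div_nonneg (by linarith) (by linarith))]
      congr 1
      have : 1 - 101 * δ ≠ 0 := by linarith
      simp only [l, hD]; field_simp
    have e3 : (if ς (w, j) then p (w, j) else -(p (w, j) + l j)) =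
        (spos (ς (w, j)) (Z (w, j)) (a j) + δ * a j) / U := by
      simp only [spos, p, l]
      split_ifs <;> push_cast <;> field_simp
      ring
    have e4 : ((√(l j / D) : ℝ) : ℂ) * (E (c j - k * if ς (w, j) then p (w, j) else
        -(p (w, j) + l j)) * (E (N * D * l j * T w) * ω)) = r * F w j := by
      have e5 : u j = E (c j) * ω := by rw [hc]; field_simp
      have e6 : E (c j - k * if ς (w, j) then p (w, j) else -(p (w, j) + l j)) *
          E (N * D * l j * T w) = E (c j) * E (a j * (N * D * (1 - 2 * δ) * T w / U - k * δ / U) -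
            k * spos (ς (w, j)) (Z (w, j)) (a j) / U) := by
        rw [← E_add, ← E_add, e3]
        congr 1
        simp only [l]; field_simp; ring
      simp only [F]
      rw [← mul_assoc (E _), e6, e2, e5]
      push_cast; ring
    rw [e4, re_ofReal_mul] at e1
    rw [hθ' (w, j) k]
    exact e1
  have h2 : |√N * (∑ b, piece N (θ b) (S b) (p b) (p b + l b.2) k).re -
      ∑ w, m w * (r * (∑ j, F w j).re)| ≤ δ := by
    rw [Fintype.sum_prod_type, re_sum, Finset.mul_sum, ← Finset.sum_sub_distrib]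
    refine (Finset.abs_sum_le_sum_abs _ _).trans ((Finset.sum_le_sum fun w _ =>
      (?_ : _ ≤ (∑ j, √(l j / D)) * (δ / (ρ + 1)))).trans ?_)
    · rw [re_sum, re_sum, Finset.mul_sum, Finset.mul_sum, Finset.mul_sum,
        ← Finset.sum_sub_distrib, Finset.sum_mul]
      exact (Finset.abs_sum_le_sum_abs _ _).trans (Finset.sum_le_sum fun j _ => h1 w j)
    · rw [Finset.sum_const, Finset.card_univ, Fintype.card_fin, nsmul_eq_mul, ← mul_assoc, ← hρ,
        ← mul_div_assoc, div_le_iff₀ (by positivity)]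
      linarith
  have h3 : |2 * ∑ w, m w * (r * (∑ j, F w j).re)| ≤ (∑ w, m w) * (r * (1 + δ)) := by
    rw [Finset.mul_sum, Finset.sum_mul]
    refine (Finset.abs_sum_le_sum_abs _ _).trans (Finset.sum_le_sum fun w _ => ?_)
    rw [mul_left_comm, mul_left_comm 2, abs_mul, abs_mul r, abs_of_nonneg (hm0 w),
      abs_of_nonneg hr0]
    exact mul_le_mul_of_nonneg_left (mul_le_mul_of_nonneg_left (hsum w k _) hr0) (hm0 w)
  have h4 := one_window m (x := (k / N - δ) / D) (by linarith : 0 ≤ 1 + δ) hm1 fun w hw => by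
    have := hm2 w hw
    rwa [show (k / N - (δ + (w : ℕ) * D)) / D = (k / N - δ) / D - (w : ℕ) by field_simp; ring] at this
  have h5 := hI2 k
  have h6 := mul_le_mul_of_nonneg_left (abs_re_le_norm (I k - ∑ b, piece N (θ b) (S b) (p b)
    (p b + l b.2) k)) (Real.sqrt_nonneg N)
  rw [← abs_of_nonneg (Real.sqrt_nonneg N), ← abs_mul, abs_of_nonneg (Real.sqrt_nonneg N),
    sub_re, mul_sub] at h6
  have h7 : (W < (k / N - δ) / D) ↔ 1 - 100 * δ < k / N := by
    rw [lt_div_iff₀ hD0, mul_comm, hDW]; constructor <;> intro <;> linarith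
  simp only [h7] at h4
  rw [← abs_of_nonneg (Real.sqrt_nonneg N), ← abs_mul, mul_left_comm]
  exact final_num hδ hδ1 hr0 (r_num hδ hδ1) (h6.trans h5) h2 h3 h4

theorem flat_exists {c : ℝ} (hc : 0 < c) : ∃ N0 : ℕ, ∀ N : ℕ, N0 ≤ N → ∃ s : ℕ → ℝ,
    (∀ k, s k = 1 ∨ s k = -1) ∧ ∀ ξ, |‖TP N s ξ‖ - √N| ≤ c * √N := by
  set θ := min (1 / 2) (c / 120000) with hθ
  have hθ0 : 0 < θ := by positivity
  have hθ1 : θ ≤ 1 / 2 := min_le_left _ _
  have hθ2 : θ ≤ c / 120000 := min_le_right _ _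
  have hθ3 : θ ^ 8 ≤ θ := pow_le_of_le_one hθ0.le (by linarith) (by norm_num)
  set δ := θ ^ 8 / 1000 with hδ
  have hδ0 : 0 < δ := by positivity
  obtain ⟨Λ, N1, h1⟩ := path_exists hδ0 (by linarith)
  obtain ⟨N2, h2⟩ := kernel (Λ := Λ) hδ0 hδ0
  obtain ⟨N0, h0⟩ := exists_nat_ge (max N1 N2)
  refine ⟨N0 + 1, fun N hN => ?_⟩
  have hN1 : (N0 : ℝ) ≤ N := by exact_mod_cast (by omega : N0 ≤ N)
  have hN0 : 0 < N := by omega
  obtain ⟨I, h3, h4⟩ := h1 N ((le_max_left _ _).trans (h0.trans hN1))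
  obtain ⟨a, h5, h6⟩ := h2 N ((le_max_right _ _).trans (h0.trans hN1)) _ I h3
  have hs := Real.sqrt_nonneg (N : ℝ)
  have hb : 0 < 1 + 110 * δ := by positivity
  have e1 : ∀ ξ, ‖TP N (fun k => a k / (1 + 110 * δ)) ξ‖ = ‖TP N a ξ‖ / (1 + 110 * δ) := by
    intro ξ
    have : TP N (fun k => a k / (1 + 110 * δ)) ξ = TP N a ξ / ((1 + 110 * δ : ℝ) : ℂ) := by
      simp only [TP, Finset.sum_div, ofReal_div]
      exact Finset.sum_congr rfl fun k _ => by ring
    rw [this, norm_div, norm_real, Real.norm_eq_abs, abs_of_pos hb]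
  have e2 : ∀ ξ, |‖TP N (fun k => a k / (1 + 110 * δ)) ξ‖ - √N| ≤ 111 * δ * √N := by
    intro ξ
    have := abs_le.1 (h6 ξ)
    have hd := mul_nonneg hδ0.le hs
    rw [e1, abs_le, le_sub_iff_add_le, sub_le_iff_le_add, le_div_iff₀ hb, div_le_iff₀ hb]
    constructor <;> nlinarith [mul_nonneg hδ0.le hd]
  have e3 := energy_lower N hN0 (fun k => a k / (1 + 110 * δ)) (A := (1 - 111 * δ) * √N)
    (mul_nonneg (by linarith) hs) fun x => by linarith [(abs_le.1 (e2 x)).1]
  obtain ⟨s, h7, h8⟩ := poly_round N hN0 (fun k => a k / (1 + 110 * δ))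
    (fun k => by
      rw [abs_div, abs_of_pos hb, div_le_one hb]
      exact (h5 k).trans (h4 k)) hθ0 (by
      have hN2 : (0 : ℝ) ≤ N := by positivity
      rw [mul_pow, Real.sq_sqrt hN2] at e3
      rw [Finset.sum_sub_distrib, Finset.sum_const, Finset.card_range, nsmul_eq_mul, mul_one,
        show θ ^ 8 = 1000 * δ by rw [hδ]; ring]
      nlinarith [mul_nonneg hδ0.le hN2, mul_nonneg (mul_nonneg hδ0.le hδ0.le) hN2])
  refine ⟨s, h7, fun ξ => ?_⟩
  have e4 := abs_le.1 ((abs_norm_sub_norm_le _ _).trans (h8 ξ))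
  have e5 := abs_le.1 (e2 ξ)
  have e6 : (60000 * θ + 111 * δ) * √N ≤ c * √N := mul_le_mul_of_nonneg_right (by linarith) hs
  rw [abs_le]
  constructor <;> linarith [e4.1, e4.2, e5.1, e5.2]

end Vale.Agent.P110
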