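import Vale.Agent.P110.Basic
import Mathlib.Analysis.SpecialFunctions.Gaussian.GaussianIntegral
import Mathlib.MeasureTheory.Integral.IntervalIntegral.FundThmCalculus

/-! Oscillatory integrals: derivative tests and stationary phase. -/

namespace Vale.Agent.P110

open Complex Set intervalIntegral MeasureTheory Filter Topology

/-- a phase with two continuous derivatives -/
structure Ph (ψ φ χ : ℝ → ℝ) : Prop where
  d1 : ∀ x, HasDerivAt ψ (φ x) x
  d2 : ∀ x, HasDerivAt φ (χ x) x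
  c : Continuous χ

variable {ψ φ χ : ℝ → ℝ}

theorem Ph.cont1 (h : Ph ψ φ χ) : Continuous φ :=
  continuous_iff_continuousAt.2 fun x => (h.d2 x).continuousAt

theorem Ph.cont0 (h : Ph ψ φ χ) : Continuous ψ :=
  continuous_iff_continuousAt.2 fun x => (h.d1 x).continuousAt

theorem Ph.contE (h : Ph ψ φ χ) : Continuous fun x => E (ψ x) := continuous_E.comp h.cont0

theorem Ph.ii (h : Ph ψ φ χ) (a b : ℝ) : IntervalIntegrable (fun x => E (ψ x)) volume a b :=
  h.contE.intervalIntegrable a b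

theorem Ph.neg (h : Ph ψ φ χ) : Ph (fun x => -ψ x) (fun x => -φ x) (fun x => -χ x) :=
  ⟨fun x => (h.d1 x).neg, fun x => (h.d2 x).neg, h.c.neg⟩

theorem norm_int_neg (ψ : ℝ → ℝ) (a b : ℝ) :
    ‖∫ x in a..b, E (-ψ x)‖ = ‖∫ x in a..b, E (ψ x)‖ := by
  simp only [E_neg]
  rw [intervalIntegral_conj, RCLike.norm_conj]

theorem Ph.sub_eq (h : Ph ψ φ χ) (a b : ℝ) : φ b - φ a = ∫ x in a..b, χ x :=
  (integral_eq_sub_of_hasDerivAt (fun x _ => h.d2 x) (h.c.intervalIntegrable a b)).symm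

theorem Ph.sub_eq0 (h : Ph ψ φ χ) (a b : ℝ) : ψ b - ψ a = ∫ x in a..b, φ x :=
  (integral_eq_sub_of_hasDerivAt (fun x _ => h.d1 x) (h.cont1.intervalIntegrable a b)).symm

theorem Ph.grow (h : Ph ψ φ χ) {a b l : ℝ} (hab : a ≤ b) (hl : ∀ x ∈ Icc a b, l ≤ χ x) :
    l * (b - a) ≤ φ b - φ a := by
  rw [h.sub_eq]
  have := integral_mono_on hab (continuous_const.intervalIntegrable (μ := volume) a b)
    (h.c.intervalIntegrable a b) hl
  simpa [mul_comm] using this

theorem first_deriv_pos (h : Ph ψ φ χ) {a b μ : ℝ} (hab : a ≤ b) (hμ : 0 < μ)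
    (hs : ∀ x ∈ Icc a b, 0 ≤ χ x) (hφ : ∀ x ∈ Icc a b, μ ≤ |φ x|) :
    ‖∫ x in a..b, E (ψ x)‖ ≤ 1 / μ := by
  have hne : ∀ x ∈ Icc a b, φ x ≠ 0 := fun x hx h0 => by
    have := hφ x hx; rw [h0, abs_zero] at this; linarith
  have hp := Real.pi_pos
  have hc : (I * (2 * Real.pi) : ℂ) ≠ 0 := by simp [hp.ne']
  let F : ℝ → ℂ := fun x => E (ψ x) / (I * (2 * Real.pi) * φ x)
  let G : ℝ → ℂ := fun x => E (ψ x) * χ x / (I * (2 * Real.pi) * φ x ^ 2)
  have hF : ∀ x ∈ uIcc a b, HasDerivAt F (E (ψ x) - G x) x := by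
    intro x hx
    rw [uIcc_of_le hab] at hx
    have h0 : (φ x : ℂ) ≠ 0 := by exact_mod_cast hne x hx
    have h1 := (hasDerivAt_E (h.d1 x)).fun_div
      ((h.d2 x).ofReal_comp.const_mul (I * (2 * Real.pi))) (mul_ne_zero hc h0)
    refine h1.congr_deriv ?_
    simp only [G]
    have : (Real.pi : ℂ) ≠ 0 := by exact_mod_cast hp.ne'
    field_simp
  have hG : ContinuousOn G (uIcc a b) := by
    rw [uIcc_of_le hab]
    refine ContinuousOn.div (h.contE.mul (continuous_ofReal.comp h.c)).continuousOn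
      (continuous_const.mul ((continuous_ofReal.comp h.cont1).pow 2)).continuousOn fun x hx => ?_
    exact mul_ne_zero hc (pow_ne_zero _ (by exact_mod_cast hne x hx))
  have h1 := integral_eq_sub_of_hasDerivAt hF ((h.ii a b).sub hG.intervalIntegrable)
  rw [integral_sub (h.ii a b) hG.intervalIntegrable] at h1
  have h2 : ∫ x in a..b, E (ψ x) = F b - F a + ∫ x in a..b, G x := by rw [← h1]; ring
  have hFn : ∀ x ∈ Icc a b, ‖F x‖ ≤ 1 / (6 * μ) := by
    intro x hx
    simp only [F, norm_div, norm_mul, norm_E, norm_I, norm_real, Real.norm_eq_abs, one_mul,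
      Complex.norm_ofNat, abs_of_pos hp]
    have := hφ x hx
    have := Real.pi_gt_three
    gcongr
    nlinarith
  have hinv : ∀ x ∈ uIcc a b, HasDerivAt (fun x => -(φ x)⁻¹) (χ x / φ x ^ 2) x := by
    intro x hx
    rw [uIcc_of_le hab] at hx
    have := ((h.d2 x).fun_inv (hne x hx)).fun_neg
    refine this.congr_deriv ?_
    ring
  have hci : ContinuousOn (fun x => χ x / φ x ^ 2) (uIcc a b) := by
    rw [uIcc_of_le hab]
    exact h.c.continuousOn.div (h.cont1.pow 2).continuousOn fun x hx => pow_ne_zero _ (hne x hx)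
  have h3 := integral_eq_sub_of_hasDerivAt hinv hci.intervalIntegrable
  have h4 : ‖∫ x in a..b, G x‖ ≤ ∫ x in a..b, (1 / 6) * (χ x / φ x ^ 2) := by
    refine norm_integral_le_of_norm_le hab (Eventually.of_forall fun x hx => ?_)
      (hci.intervalIntegrable.const_mul _)
    have hx' : x ∈ Icc a b := Ioc_subset_Icc_self hx
    simp only [G, norm_div, norm_mul, norm_E, norm_I, norm_real, Real.norm_eq_abs, one_mul,
      Complex.norm_ofNat, abs_of_pos hp, norm_pow, sq_abs, abs_of_nonneg (hs x hx')]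
    have h5 : 0 < φ x ^ 2 := by have := hne x hx'; positivity
    have := Real.pi_gt_three
    have := hs x hx'
    rw [one_div_mul_eq_div, div_div]
    refine div_le_div_of_nonneg_left this (by positivity) ?_
    nlinarith
  rw [intervalIntegral.integral_const_mul, h3] at h4
  have h5 : ∀ x ∈ Icc a b, |(φ x)⁻¹| ≤ 1 / μ := by
    intro x hx
    rw [abs_inv, one_div]
    exact inv_anti₀ hμ (hφ x hx)
  have h6 := abs_le.1 (h5 a ⟨le_rfl, hab⟩)
  have h7 := abs_le.1 (h5 b ⟨hab, le_rfl⟩)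
  have h8 := hFn a ⟨le_rfl, hab⟩
  have h9 := hFn b ⟨hab, le_rfl⟩
  have h10 : 1 / (6 * μ) = (1 / 6) * (1 / μ) := by field_simp
  have h11 : 0 < 1 / μ := by positivity
  rw [h2]
  refine (norm_add_le _ _).trans ((add_le_add_left (norm_sub_le _ _) _).trans ?_)
  linarith [h6.1, h6.2, h7.1, h7.2]

/-- first derivative test -/
theorem first_deriv (h : Ph ψ φ χ) {a b μ : ℝ} (hab : a ≤ b) (hμ : 0 < μ)
    (hs : (∀ x ∈ Icc a b, 0 ≤ χ x) ∨ ∀ x ∈ Icc a b, χ x ≤ 0) (hφ : ∀ x ∈ Icc a b, μ ≤ |φ x|) :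
    ‖∫ x in a..b, E (ψ x)‖ ≤ 1 / μ := by
  rcases hs with hs | hs
  · exact first_deriv_pos h hab hμ hs hφ
  · rw [← norm_int_neg]
    exact first_deriv_pos h.neg hab hμ (fun x hx => by simpa using hs x hx)
      fun x hx => by simpa using hφ x hx

theorem norm_int_le_len (ψ : ℝ → ℝ) {a b : ℝ} (hab : a ≤ b) :
    ‖∫ x in a..b, E (ψ x)‖ ≤ b - a := by
  have := norm_integral_le_of_norm_le_const (a := a) (b := b) (C := 1) (f := fun x => E (ψ x))
    fun x _ => (norm_E _).le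
  rwa [one_mul, abs_of_nonneg (by linarith)] at this

theorem second_deriv_pos (h : Ph ψ φ χ) {a b r : ℝ} (hab : a ≤ b) (hr : 0 < r)
    (hs : ∀ x ∈ Icc a b, 1 / r ^ 2 ≤ χ x) : ‖∫ x in a..b, E (ψ x)‖ ≤ 4 * r := by
  have hl : 0 < 1 / r ^ 2 := by positivity
  have hg : ∀ x ∈ Icc a b, ∀ y ∈ Icc a b, x + r ≤ y → 1 / r ≤ φ y - φ x := by
    intro x hx y hy hxy
    have h1 := h.grow (by linarith : x ≤ y) fun z hz => hs z ⟨hx.1.trans hz.1, hz.2.trans hy.2⟩
    have h2 : 1 / r = 1 / r ^ 2 * r := by field_simp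
    have h3 : 1 / r ^ 2 * r ≤ 1 / r ^ 2 * (y - x) := by gcongr; linarith
    linarith
  have hx0 : ∃ x0 ∈ Icc a b, (∀ x ∈ Icc a b, x0 + r ≤ x → 1 / r ≤ φ x) ∧
      ∀ x ∈ Icc a b, x + r ≤ x0 → φ x ≤ -(1 / r) := by
    by_cases ha : 0 ≤ φ a
    · refine ⟨a, ⟨le_rfl, hab⟩, fun x hx h1 => ?_, fun x hx h1 => ?_⟩
      · linarith [hg a ⟨le_rfl, hab⟩ x hx h1]
      · linarith [hx.1]
    by_cases hb : φ b ≤ 0
    · refine ⟨b, ⟨hab, le_rfl⟩, fun x hx h1 => ?_, fun x hx h1 => ?_⟩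
      · linarith [hx.2]
      · linarith [hg x hx b ⟨hab, le_rfl⟩ h1]
    obtain ⟨x0, h0, h1⟩ := intermediate_value_Icc hab h.cont1.continuousOn
      (⟨(not_le.1 ha).le, (not_le.1 hb).le⟩ : (0 : ℝ) ∈ Icc (φ a) (φ b))
    refine ⟨x0, h0, fun x hx h2 => ?_, fun x hx h2 => ?_⟩
    · linarith [hg x0 h0 x hx h2]
    · linarith [hg x hx x0 h0 h2]
  obtain ⟨x0, h0, h1, h2⟩ := hx0
  have hr' : 0 < 1 / r := by positivity
  have e1 : ‖∫ x in a..max a (x0 - r), E (ψ x)‖ ≤ r := by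
    rcases le_total (x0 - r) a with h3 | h3
    · rw [max_eq_left h3]; simp [hr.le]
    · rw [max_eq_right h3]
      have := first_deriv_pos h h3 hr' (fun x hx => hl.le.trans (hs x ⟨hx.1, by linarith [hx.2, h0.2]⟩))
        fun x hx => by
          have := h2 x ⟨hx.1, by linarith [hx.2, h0.2]⟩ (by linarith [hx.2])
          rw [le_abs]; right; linarith
      rwa [one_div_one_div] at this
  have e2 : ‖∫ x in min b (x0 + r)..b, E (ψ x)‖ ≤ r := by
    rcases le_total b (x0 + r) with h3 | h3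
    · rw [min_eq_left h3]; simp [hr.le]
    · rw [min_eq_right h3]
      have := first_deriv_pos h h3 hr' (fun x hx => hl.le.trans (hs x ⟨by linarith [hx.1, h0.1], hx.2⟩))
        fun x hx => by
          have := h1 x ⟨by linarith [hx.1, h0.1], hx.2⟩ hx.1
          rw [le_abs]; left; linarith
      rwa [one_div_one_div] at this
  have e3 : ‖∫ x in max a (x0 - r)..min b (x0 + r), E (ψ x)‖ ≤ 2 * r := by
    refine (norm_int_le_len ψ ?_).trans ?_
    · exact max_le (le_min hab (by linarith [h0.1])) (le_min (by linarith [h0.2]) (by linarith))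
    · linarith [min_le_right b (x0 + r), le_max_right a (x0 - r)]
  rw [← integral_add_adjacent_intervals (h.ii a (max a (x0 - r))) (h.ii _ b),
    ← integral_add_adjacent_intervals (h.ii (max a (x0 - r)) (min b (x0 + r))) (h.ii _ b)]
  refine (norm_add_le _ _).trans ((add_le_add_right (norm_add_le _ _) _).trans ?_)
  linarith

/-- second derivative test -/
theorem second_deriv (h : Ph ψ φ χ) {a b r : ℝ} (hab : a ≤ b) (hr : 0 < r)
    (hs : (∀ x ∈ Icc a b, 1 / r ^ 2 ≤ χ x) ∨ ∀ x ∈ Icc a b, χ x ≤ -(1 / r ^ 2)) :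
    ‖∫ x in a..b, E (ψ x)‖ ≤ 4 * r := by
  rcases hs with hs | hs
  · exact second_deriv_pos h hab hr hs
  · rw [← norm_int_neg]
    exact second_deriv_pos h.neg hab hr fun x hx => by linarith [hs x hx]

theorem gauss_tail {b : ℂ} (hb : 0 ≤ b.re) (hb2 : 1 ≤ ‖b‖) {R S : ℝ} (hR : 0 < R) (hRS : R ≤ S) :
    ‖∫ y in R..S, cexp (-b * (y : ℂ) ^ 2)‖ ≤ 1 / R := by
  have hb0 : b ≠ 0 := by rintro rfl; norm_num at hb2
  have hn : ∀ y : ℝ, ‖cexp (-b * (y : ℂ) ^ 2)‖ ≤ 1 := by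
    intro y
    rw [norm_cexp_neg_mul_sq, Real.exp_le_one_iff]
    nlinarith [sq_nonneg y]
  let F : ℝ → ℂ := fun y => cexp (-b * (y : ℂ) ^ 2) / (-2 * b * y)
  let G : ℝ → ℂ := fun y => cexp (-b * (y : ℂ) ^ 2) / (2 * b * y ^ 2)
  have hpos : ∀ y ∈ uIcc R S, 0 < y := fun y hy => by
    rw [uIcc_of_le hRS] at hy; linarith [hy.1]
  have hF : ∀ y ∈ uIcc R S, HasDerivAt F (cexp (-b * (y : ℂ) ^ 2) + G y) y := by
    intro y hy
    have h0 : (y : ℂ) ≠ 0 := by exact_mod_cast (hpos y hy).ne'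
    have h1 : HasDerivAt (fun y : ℝ => (y : ℂ)) 1 y := (hasDerivAt_id y).ofReal_comp
    have h2 := (((h1.fun_pow 2).const_mul (-b)).cexp).fun_div (h1.const_mul (-2 * b))
      (mul_ne_zero (mul_ne_zero (by norm_num) hb0) h0)
    refine h2.congr_deriv ?_
    simp only [G]
    field_simp
    ring
  have hc : Continuous fun y : ℝ => cexp (-b * (y : ℂ) ^ 2) := by fun_prop
  have hG : ContinuousOn G (uIcc R S) := by
    refine hc.continuousOn.div (by fun_prop) fun y hy => ?_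
    exact mul_ne_zero (mul_ne_zero (by norm_num) hb0)
      (pow_ne_zero _ (by exact_mod_cast (hpos y hy).ne'))
  have h1 := integral_eq_sub_of_hasDerivAt hF
    ((hc.intervalIntegrable R S).add hG.intervalIntegrable)
  rw [integral_add (hc.intervalIntegrable R S) hG.intervalIntegrable] at h1
  have h2 : ∫ y in R..S, cexp (-b * (y : ℂ) ^ 2) = F S - F R - ∫ y in R..S, G y := by
    rw [← h1]; ring
  have hFn : ∀ y, 0 < y → ‖F y‖ ≤ (1 / 2) * y⁻¹ := by
    intro y hy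
    simp only [F, norm_div, norm_mul, norm_neg, norm_real, Real.norm_eq_abs, Complex.norm_ofNat,
      abs_of_pos hy]
    rw [div_le_iff₀ (by positivity)]
    have : 1 / 2 * y⁻¹ * (2 * ‖b‖ * y) = ‖b‖ := by field_simp
    rw [this]
    exact (hn y).trans hb2
  have hinv : ∀ y ∈ uIcc R S, HasDerivAt (fun y : ℝ => -y⁻¹) (1 / y ^ 2) y := by
    intro y hy
    refine ((hasDerivAt_inv (hpos y hy).ne').fun_neg).congr_deriv ?_
    simp
  have hci : ContinuousOn (fun y : ℝ => 1 / y ^ 2) (uIcc R S) :=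
    continuousOn_const.div (by fun_prop) fun y hy => pow_ne_zero _ (hpos y hy).ne'
  have h3 := integral_eq_sub_of_hasDerivAt hinv hci.intervalIntegrable
  have h4 : ‖∫ y in R..S, G y‖ ≤ ∫ y in R..S, (1 / 2) * (1 / y ^ 2) := by
    refine norm_integral_le_of_norm_le hRS (Eventually.of_forall fun y hy => ?_)
      (hci.intervalIntegrable.const_mul _)
    have hy0 : 0 < y := by linarith [hy.1]
    simp only [G, norm_div, norm_mul, norm_real, Real.norm_eq_abs, Complex.norm_ofNat, norm_pow,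
      sq_abs]
    rw [div_le_iff₀ (by positivity)]
    have : 1 / 2 * (1 / y ^ 2) * (2 * ‖b‖ * y ^ 2) = ‖b‖ := by field_simp
    rw [this]
    exact (hn y).trans hb2
  rw [intervalIntegral.integral_const_mul, h3] at h4
  rw [h2, one_div]
  refine (norm_sub_le _ _).trans ((add_le_add_left (norm_sub_le _ _) _).trans ?_)
  linarith [hFn S (by linarith), hFn R hR]

theorem gauss_trunc {b : ℂ} (hb : 0 < b.re) (hb2 : 1 ≤ ‖b‖) {R : ℝ} (hR : 0 < R) :
    ‖(∫ y in -R..R, cexp (-b * (y : ℂ) ^ 2)) - (Real.pi / b) ^ (1 / 2 : ℂ)‖ ≤ 2 / R := by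
  rw [← integral_gaussian_complex hb]
  have hc : Continuous fun y : ℝ => cexp (-b * (y : ℂ) ^ 2) := by fun_prop
  have h1 := intervalIntegral_tendsto_integral (integrable_cexp_neg_mul_sq hb)
    tendsto_neg_atTop_atBot (tendsto_id (x := atTop))
  have h2 := ((tendsto_const_nhds (x := ∫ y in -R..R, cexp (-b * (y : ℂ) ^ 2))).sub h1).norm
  refine le_of_tendsto h2 ?_
  filter_upwards [eventually_ge_atTop R] with S hS
  have h3 := gauss_tail hb.le hb2 hR hS
  have h4 : ∫ y in -S..-R, cexp (-b * (y : ℂ) ^ 2) = ∫ y in R..S, cexp (-b * (y : ℂ) ^ 2) := by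
    rw [← intervalIntegral.integral_comp_neg (fun y : ℝ => cexp (-b * (y : ℂ) ^ 2))]
    simp
  simp only [id]
  rw [← integral_add_adjacent_intervals (hc.intervalIntegrable (-S) (-R))
      (hc.intervalIntegrable _ S),
    ← integral_add_adjacent_intervals (hc.intervalIntegrable (-R) R) (hc.intervalIntegrable _ S),
    h4]
  have : ∀ u v : ℂ, u - (v + (u + v)) = -(2 * v) := fun u v => by ring
  rw [this, norm_neg, norm_mul, Complex.norm_ofNat, div_eq_mul_one_div 2]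
  linarith

theorem fresnel : ∃ ω : ℂ, ‖ω‖ = 1 ∧ ∀ R : ℝ, 0 < R →
    ‖(∫ y in -R..R, E (y ^ 2 / 2)) - ω‖ ≤ 2 / R := by
  have hp := Real.pi_pos
  have hp' : (Real.pi : ℂ) ≠ 0 := by exact_mod_cast hp.ne'
  have hI : (Real.pi : ℂ) / (((0 : ℝ) : ℂ) - Real.pi * I) = I := by
    rw [div_eq_iff (by simp [hp.ne'])]
    simp only [ofReal_zero, zero_sub, mul_neg]
    rw [mul_comm (Real.pi : ℂ), ← mul_assoc, I_mul_I]; ring
  refine ⟨I ^ (1 / 2 : ℂ), ?_, fun R hR => ?_⟩
  · have : (1 / 2 : ℂ) = ((1 / 2 : ℝ) : ℂ) := by push_cast; ring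
    rw [this, norm_cpow_real]; simp
  have h1 : ContinuousAt (fun e : ℝ => ((Real.pi : ℂ) / ((e : ℂ) - Real.pi * I)) ^ (1 / 2 : ℂ)) 0 := by
    refine ContinuousAt.cpow (ContinuousAt.div (by fun_prop) (by fun_prop) (by simp [hp.ne']))
      continuousAt_const ?_
    rw [hI]; right; simp
  have h2 : ContinuousAt (fun e : ℝ => ∫ y in -R..R,
      cexp (-((e : ℂ) - Real.pi * I) * (y : ℂ) ^ 2)) 0 := by
    refine Continuous.continuousAt ?_
    exact intervalIntegral.continuous_parametric_intervalIntegral_of_continuous' (by fun_prop) _ _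
  have h3 := ((h2.sub h1).norm.tendsto).mono_left (nhdsWithin_le_nhds (s := Ioi 0))
  have h4 : ∫ y in -R..R, cexp (-(((0 : ℝ) : ℂ) - Real.pi * I) * (y : ℂ) ^ 2) =
      ∫ y in -R..R, E (y ^ 2 / 2) := by
    refine integral_congr fun y _ => ?_
    unfold E
    congr 1; push_cast; ring
  simp only [Pi.sub_apply, hI, h4] at h3
  refine le_of_tendsto h3 ?_
  filter_upwards [self_mem_nhdsWithin] with e he
  refine gauss_trunc (by simpa using he) ?_ hR
  refine le_trans ?_ (abs_im_le_norm _)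
  simp [abs_of_pos hp]; linarith [Real.pi_gt_three]

/-- stationary phase -/
theorem stat_phase {ω : ℂ} (hω : ∀ R : ℝ, 0 < R → ‖(∫ y in -R..R, E (y ^ 2 / 2)) - ω‖ ≤ 2 / R)
    (h : Ph ψ φ χ) {a b x0 s A ρ : ℝ} (hs : 0 < s) (hA : 0 < A) (hρ : ρ ≤ 1 / 2)
    (ha : a ≤ x0 - A / s) (hb : x0 + A / s ≤ b) (h0 : φ x0 = 0) (hχ : ∀ x ∈ Icc a b, 0 ≤ χ x)
    (hB : ∀ x ∈ Icc (x0 - A / s) (x0 + A / s), |χ x - s ^ 2| ≤ ρ * s ^ 2) :
    ‖s * (∫ x in a..b, E (ψ x)) - E (ψ x0) * ω‖ ≤ 6 / A + 14 * ρ * A ^ 3 := by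
  set r := A / s with hr
  have hr0 : 0 < r := by positivity
  have hρ0 : 0 ≤ ρ := by
    have := (abs_nonneg _).trans (hB x0 ⟨by linarith, by linarith⟩)
    exact nonneg_of_mul_nonneg_left this (by positivity)
  have hlow : ∀ x ∈ Icc (x0 - r) (x0 + r), s ^ 2 / 2 ≤ χ x := fun x hx => by
    have := (abs_le.1 (hB x hx)).1
    nlinarith [sq_nonneg s]
  have hμ : 0 < s * A / 2 := by positivity
  have hsr : s ^ 2 / 2 * r = s * A / 2 := by rw [hr]; field_simp
  have e1 : ‖∫ x in a..x0 - r, E (ψ x)‖ ≤ 1 / (s * A / 2) := by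
    refine first_deriv_pos h ha hμ (fun x hx => hχ x ⟨hx.1, by linarith [hx.2]⟩) fun x hx => ?_
    have h1 := h.grow hx.2 (l := 0) fun y hy => hχ y ⟨hx.1.trans hy.1, by linarith [hy.2]⟩
    have h2 := h.grow (by linarith : x0 - r ≤ x0) fun y hy => hlow y ⟨hy.1, by linarith [hy.2]⟩
    rw [le_abs]; right
    rw [show x0 - (x0 - r) = r by ring] at h2
    linarith
  have e2 : ‖∫ x in x0 + r..b, E (ψ x)‖ ≤ 1 / (s * A / 2) := by
    refine first_deriv_pos h hb hμ (fun x hx => hχ x ⟨by linarith [hx.1], hx.2⟩) fun x hx => ?_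
    have h1 := h.grow hx.1 (l := 0) fun y hy => hχ y ⟨by linarith [hy.1], hy.2.trans hx.2⟩
    have h2 := h.grow (by linarith : x0 ≤ x0 + r) fun y hy => hlow y ⟨by linarith [hy.1], hy.2⟩
    rw [le_abs]; left
    rw [show x0 + r - x0 = r by ring] at h2
    linarith
  have hq : Ph (fun x => ψ x - s ^ 2 * (x - x0) ^ 2 / 2) (fun x => φ x - s ^ 2 * (x - x0))
      (fun x => χ x - s ^ 2) := by
    refine ⟨fun x => ?_, fun x => ?_, h.c.sub continuous_const⟩
    · refine ((h.d1 x).fun_sub ((((hasDerivAt_id x).sub_const x0).fun_pow 2).const_mul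
        (s ^ 2) |>.div_const 2)).congr_deriv ?_
      simp; ring
    · refine ((h.d2 x).fun_sub (((hasDerivAt_id x).sub_const x0).const_mul (s ^ 2))).congr_deriv ?_
      simp
  have hsub : ∀ x ∈ Icc (x0 - r) (x0 + r), ∀ y ∈ uIoc x0 x, y ∈ Icc (x0 - r) (x0 + r) := by
    intro x hx y hy
    have := uIoc_subset_uIcc hy
    rw [mem_uIcc] at this
    rcases this with h | h <;> constructor <;> linarith [hx.1, hx.2, h.1, h.2]
  have hd : ∀ x ∈ Icc (x0 - r) (x0 + r), |x - x0| ≤ r := fun x hx => by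
    rw [abs_le]; constructor <;> linarith [hx.1, hx.2]
  have t1 : ∀ x ∈ Icc (x0 - r) (x0 + r), |φ x - s ^ 2 * (x - x0)| ≤ ρ * s ^ 2 * r := by
    intro x hx
    have h1 := hq.sub_eq x0 x
    simp only [h0, sub_self, mul_zero, sub_zero] at h1
    rw [h1]
    have := norm_integral_le_of_norm_le_const (a := x0) (b := x) (C := ρ * s ^ 2)
      (f := fun x => χ x - s ^ 2) fun y hy => hB y (hsub x hx y hy)
    refine this.trans ?_
    gcongr
    exact hd x hx
  have t2 : ∀ x ∈ Icc (x0 - r) (x0 + r),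
      |ψ x - (ψ x0 + (s * x - s * x0) ^ 2 / 2)| ≤ ρ * A ^ 2 := by
    intro x hx
    have h1 := hq.sub_eq0 x0 x
    have h2 : ψ x - (ψ x0 + (s * x - s * x0) ^ 2 / 2) =
        ψ x - s ^ 2 * (x - x0) ^ 2 / 2 - (ψ x0 - s ^ 2 * (x0 - x0) ^ 2 / 2) := by ring
    rw [h2, h1]
    have := norm_integral_le_of_norm_le_const (a := x0) (b := x) (C := ρ * s ^ 2 * r)
      (f := fun x => φ x - s ^ 2 * (x - x0)) fun y hy => t1 y (hsub x hx y hy)
    refine this.trans ?_
    calc _ ≤ ρ * s ^ 2 * r * r := by gcongr; exact hd x hx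
      _ = _ := by rw [hr]; field_simp
  have hc2 : Continuous fun x => E (ψ x0 + (s * x - s * x0) ^ 2 / 2) :=
    continuous_E.comp (by fun_prop)
  have e3 : ‖(∫ x in x0 - r..x0 + r, E (ψ x)) -
      ∫ x in x0 - r..x0 + r, E (ψ x0 + (s * x - s * x0) ^ 2 / 2)‖ ≤ 7 * (ρ * A ^ 2) * (2 * r) := by
    rw [← integral_sub (h.ii _ _) (hc2.intervalIntegrable _ _)]
    have := norm_integral_le_of_norm_le_const (a := x0 - r) (b := x0 + r) (C := 7 * (ρ * A ^ 2))
      (f := fun x => E (ψ x) - E (ψ x0 + (s * x - s * x0) ^ 2 / 2)) fun y hy => by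
        rw [uIoc_of_le (by linarith)] at hy
        refine (norm_E_sub _ _).trans ?_
        gcongr
        exact t2 y (Ioc_subset_Icc_self hy)
    rwa [show x0 + r - (x0 - r) = 2 * r by ring, abs_of_pos (by positivity : 0 < 2 * r)] at this
  have e4 : (s : ℂ) * ∫ x in x0 - r..x0 + r, E (ψ x0 + (s * x - s * x0) ^ 2 / 2) =
      E (ψ x0) * ∫ y in -A..A, E (y ^ 2 / 2) := by
    simp only [E_add]
    rw [intervalIntegral.integral_const_mul, mul_left_comm]
    congr 1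
    have := smul_integral_comp_mul_add (a := x0 - r) (b := x0 + r) (fun y : ℝ => E (y ^ 2 / 2)) s
      (-(s * x0))
    rw [show s * (x0 - r) + -(s * x0) = -A by rw [hr]; field_simp; ring,
      show s * (x0 + r) + -(s * x0) = A by rw [hr]; field_simp; ring] at this
    rw [← this, Complex.real_smul]
    simp only [sub_eq_add_neg]
  rw [← integral_add_adjacent_intervals (h.ii a (x0 - r)) (h.ii _ b),
    ← integral_add_adjacent_intervals (h.ii (x0 - r) (x0 + r)) (h.ii _ b)]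
  set I1 := ∫ x in a..x0 - r, E (ψ x)
  set I2 := ∫ x in x0 - r..x0 + r, E (ψ x)
  set I3 := ∫ x in x0 + r..b, E (ψ x)
  set I4 := ∫ x in x0 - r..x0 + r, E (ψ x0 + (s * x - s * x0) ^ 2 / 2)
  have e5 : (s : ℂ) * (I1 + (I2 + I3)) - E (ψ x0) * ω =
      s * I1 + s * I3 + s * (I2 - I4) + E (ψ x0) * ((∫ y in -A..A, E (y ^ 2 / 2)) - ω) := by
    rw [mul_sub (E (ψ x0)), ← e4]; ring
  rw [e5]
  refine (norm_add_le _ _).trans ((add_le_add_left ((norm_add_le _ _).trans
    (add_le_add_left (norm_add_le _ _) _)) _).trans ?_)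
  simp only [norm_mul, norm_real, Real.norm_eq_abs, abs_of_pos hs, norm_E, one_mul]
  have f1 : s * ‖I1‖ ≤ 2 / A :=
    (mul_le_mul_of_nonneg_left e1 hs.le).trans (le_of_eq (by field_simp))
  have f2 : s * ‖I3‖ ≤ 2 / A :=
    (mul_le_mul_of_nonneg_left e2 hs.le).trans (le_of_eq (by field_simp))
  have f3 : s * ‖I2 - I4‖ ≤ 14 * ρ * A ^ 3 :=
    (mul_le_mul_of_nonneg_left e3 hs.le).trans (le_of_eq (by rw [hr]; field_simp; ring))
  have f4 := hω A hA
  have : 6 / A = 2 / A + 2 / A + 2 / A := by ring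
  linarith

end Vale.Agent.P110
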