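import Mathlib.Analysis.SpecialFunctions.Trigonometric.Series
import Mathlib.Analysis.SpecialFunctions.Log.Basic
import Mathlib.Analysis.SpecificLimits.Basic
import Mathlib.Topology.Algebra.InfiniteSum.NatInt
import Mathlib.Algebra.Order.Round
import Mathlib.Algebra.BigOperators.Field
import Mathlib.Analysis.Complex.ExponentialBounds

/-! The partial colouring lemma (entropy method). -/

set_option linter.unnecessarySeqFocus false

namespace Vale.Agent.P110

open Finset Real

/-- sign of a Boolean -/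
def sg (b : Bool) : ℝ := if b then 1 else -1

section moments

variable {ι : Type} [Fintype ι] [DecidableEq ι]

theorem mgf_le (v : ι → ℝ) (hv : ∀ i, |v i| ≤ 1) (t : ℝ) :
    ∑ x : ι → Bool, exp (t * ∑ i, sg (x i) * v i) ≤
      2 ^ Fintype.card ι * exp (Fintype.card ι * t ^ 2 / 2) := by
  have h1 : ∀ x : ι → Bool, exp (t * ∑ i, sg (x i) * v i) = ∏ i, exp (t * (sg (x i) * v i)) := by
    intro x; rw [mul_sum, exp_sum]
  simp only [h1]
  rw [← Fintype.piFinset_univ, ← prod_univ_sum (fun _ => univ)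
    (fun i b => exp (t * (sg b * v i)))]
  have h2 : ∀ i, ∑ b : Bool, exp (t * (sg b * v i)) ≤ 2 * exp (t ^ 2 / 2) := by
    intro i
    have h3 := cosh_le_exp_half_sq (t * v i)
    rw [cosh_eq] at h3
    have h4 : exp ((t * v i) ^ 2 / 2) ≤ exp (t ^ 2 / 2) := by
      apply exp_le_exp.2
      have : (v i) ^ 2 ≤ 1 := by rw [← sq_abs]; nlinarith [hv i, abs_nonneg (v i)]
      nlinarith [sq_nonneg t]
    simp only [Fintype.sum_bool, sg]
    simp only [if_true, one_mul, Bool.false_eq_true, if_false, neg_mul, mul_neg]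
    linarith
  calc _ ≤ ∏ _i : ι, 2 * exp (t ^ 2 / 2) :=
        prod_le_prod (fun i _ => sum_nonneg fun b _ => (exp_pos _).le) fun i _ => h2 i
    _ = _ := by
        rw [prod_const, card_univ, mul_pow, ← exp_nat_mul]; congr 2; ring

theorem pow_four_le (y : ℝ) : y ^ 4 ≤ 24 * (exp y + exp (-y)) := by
  have h := pow_div_factorial_le_exp |y| (abs_nonneg y) 4
  have h2 : exp |y| ≤ exp y + exp (-y) := by
    rcases abs_cases y with h | h <;> rw [h.1] <;> linarith [exp_pos y, exp_pos (-y)]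
  have h3 : |y| ^ 4 = y ^ 4 := by rw [← abs_pow]; exact abs_of_nonneg (by positivity)
  rw [h3] at h
  norm_num [Nat.factorial] at h
  linarith

theorem exp_half_le : exp (1 / 2) ≤ 5 / 3 := by
  have h : exp (1 / 2) ^ 2 = exp 1 := by rw [← exp_nat_mul]; norm_num
  have := exp_one_lt_d9
  nlinarith [exp_pos (1 / 2)]

theorem fourth_moment (v : ι → ℝ) (hv : ∀ i, |v i| ≤ 1) (hn : 0 < Fintype.card ι) :
    ∑ x : ι → Bool, (∑ i, sg (x i) * v i) ^ 4 ≤
      80 * (Fintype.card ι : ℝ) ^ 2 * 2 ^ Fintype.card ι := by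
  set n : ℝ := (Fintype.card ι : ℝ) with hn'
  have hn0 : 0 < n := by rw [hn']; exact_mod_cast hn
  set t : ℝ := 1 / √n with ht
  have ht2 : n * t ^ 2 = 1 := by rw [ht, div_pow, sq_sqrt hn0.le]; field_simp
  have h1 := mgf_le v hv t
  have h2 := mgf_le v hv (-t)
  rw [← hn'] at h1 h2
  rw [neg_sq] at h2
  rw [ht2] at h1 h2
  have h3 : ∀ x : ι → Bool, (∑ i, sg (x i) * v i) ^ 4 ≤
      n ^ 2 * (24 * (exp (t * ∑ i, sg (x i) * v i) + exp (-t * ∑ i, sg (x i) * v i))) := by
    intro x
    have := pow_four_le (t * ∑ i, sg (x i) * v i)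
    rw [neg_mul]
    calc _ = n ^ 2 * (t * ∑ i, sg (x i) * v i) ^ 4 := by
          rw [mul_pow, ← mul_assoc, show n ^ 2 * t ^ 4 = (n * t ^ 2) ^ 2 by ring, ht2]; ring
      _ ≤ _ := by gcongr
  refine (sum_le_sum fun x _ => h3 x).trans ?_
  rw [← mul_sum, ← mul_sum, sum_add_distrib]
  have h4 := exp_half_le
  have h5 : (0 : ℝ) < 2 ^ Fintype.card ι := by positivity
  have h6 : (2 : ℝ) ^ Fintype.card ι * exp (1 / 2) ≤ 2 ^ Fintype.card ι * (5 / 3) := by gcongr
  nlinarith [sq_nonneg n]

theorem ball_le (x0 : ι → Bool) :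
    ((univ.filter fun y : ι → Bool =>
        8 * (univ.filter fun i => x0 i ≠ y i).card ≤ Fintype.card ι).card : ℝ) *
      (3 / 4) ^ Fintype.card ι ≤ (1 + (3 / 4) ^ 8) ^ Fintype.card ι := by
  have h1 : ∑ y : ι → Bool, ∏ i, (if x0 i ≠ y i then ((3 / 4 : ℝ)) ^ 8 else 1) =
      (1 + (3 / 4) ^ 8) ^ Fintype.card ι := by
    rw [← Fintype.piFinset_univ, ← prod_univ_sum (fun _ => univ)
      (fun i b => if x0 i ≠ b then ((3 / 4 : ℝ)) ^ 8 else 1), ← card_univ, ← prod_const]
    refine prod_congr rfl fun i _ => ?_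
    cases x0 i <;> simp [add_comm]
  rw [← h1, ← nsmul_eq_mul, ← sum_const]
  refine le_trans (sum_le_sum fun y hy => ?_) (sum_le_sum_of_subset_of_nonneg (filter_subset _ _)
    fun y _ _ => prod_nonneg fun i _ => by split_ifs <;> positivity)
  rw [prod_ite, prod_const_one, mul_one, prod_const, ← pow_mul]
  exact pow_le_pow_of_le_one (by norm_num) (by norm_num) (mem_filter.1 hy).2

end moments

theorem bucket {X Y : Type} [Fintype X] [Nonempty X] [DecidableEq Y] (B : X → Y) (W : Y → ℝ)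
    (hW0 : ∀ y, 0 ≤ W y) (hW : ∑ y ∈ univ.image B, W y ≤ 1) (cost : X → ℝ) (c : ℝ)
    (hc : ∀ x, exp (-cost x) ≤ W (B x)) (hs : ∑ x, cost x ≤ c * Fintype.card X) :
    ∃ x0, Fintype.card X * exp (-c) ≤ (univ.filter fun x => B x = B x0).card := by
  obtain ⟨x0, -, h0⟩ := exists_max_image (univ : Finset X)
    (fun x0 => (univ.filter fun x => B x = B x0).card) univ_nonempty
  refine ⟨x0, ?_⟩
  have h1 : ∑ x, W (B x) ≤ (univ.filter fun x => B x = B x0).card := by
    rw [sum_comp W B]
    calc _ ≤ ∑ y ∈ univ.image B, ((univ.filter fun x => B x = B x0).card : ℝ) * W y := by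
          refine sum_le_sum fun y hy => ?_
          obtain ⟨x, -, rfl⟩ := mem_image.1 hy
          rw [nsmul_eq_mul]
          have := h0 x (mem_univ _)
          gcongr
          exact hW0 _
      _ ≤ _ := by
          rw [← mul_sum]
          exact mul_le_of_le_one_right (Nat.cast_nonneg _) hW
  refine le_trans ?_ h1
  have h2 : ∀ x, exp (-c) * (1 + c - cost x) ≤ W (B x) := by
    intro x
    refine le_trans ?_ (hc x)
    have : exp (-cost x) = exp (-c) * exp (c - cost x) := by rw [← exp_add]; congr 1; ring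
    rw [this]
    have := add_one_le_exp (c - cost x)
    gcongr; linarith
  refine le_trans ?_ (sum_le_sum fun x _ => h2 x)
  rw [← mul_sum, sum_sub_distrib, sum_const, card_univ, nsmul_eq_mul, mul_comm]
  gcongr
  nlinarith

theorem sum_half_le (s : Finset ℤ) : ∑ b ∈ s, (1 / 2 : ℝ) ^ b.natAbs ≤ 3 := by
  have h1 : HasSum (fun n : ℕ => (1 / 2 : ℝ) ^ (n : ℤ).natAbs) 2 := by
    simpa using hasSum_geometric_two
  have h2 : HasSum (fun n : ℕ => (1 / 2 : ℝ) ^ (-((n : ℤ) + 1)).natAbs) 1 := by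
    have := hasSum_geometric_two.mul_left (1 / 2)
    have h3 : (fun n : ℕ => (1 / 2 : ℝ) ^ (-((n : ℤ) + 1)).natAbs) =
        fun n : ℕ => (1 / 2 : ℝ) * (1 / 2) ^ n := by
      funext n
      have : (-((n : ℤ) + 1)).natAbs = n + 1 := by omega
      rw [this, pow_succ']
    rw [h3]
    simpa using this
  have h3 := HasSum.of_nat_of_neg_add_one (f := fun b : ℤ => (1 / 2 : ℝ) ^ b.natAbs) h1 h2
  have := sum_le_hasSum s (fun b _ => by positivity) h3
  linarith

/-- bucket weight -/
noncomputable def wt (γ : ℝ) (b : ℤ) : ℝ := if b = 0 then 1 - γ else γ / 3 * (1 / 2) ^ b.natAbs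

theorem wt_nonneg {γ : ℝ} (h0 : 0 ≤ γ) (h1 : γ ≤ 1) (b : ℤ) : 0 ≤ wt γ b := by
  unfold wt; split_ifs
  · linarith
  · positivity

theorem sum_wt_le {γ : ℝ} (h0 : 0 ≤ γ) (h1 : γ ≤ 1) (s : Finset ℤ) : ∑ b ∈ s, wt γ b ≤ 1 := by
  have h2 : ∀ b, wt γ b ≤ (if b = 0 then 1 - γ else 0) + γ / 3 * (1 / 2) ^ b.natAbs := by
    intro b; unfold wt; split_ifs
    · have : 0 ≤ γ / 3 * (1 / 2 : ℝ) ^ b.natAbs := by positivity
      linarith
    · simp
  refine (sum_le_sum fun b _ => h2 b).trans ?_
  rw [sum_add_distrib, ← mul_sum, sum_ite_eq']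
  have := sum_half_le s
  split_ifs <;> nlinarith

theorem exp_le_wt {γ u y : ℝ} (h0 : 0 < γ) (h1 : γ ≤ 1 / 2) (hu : 0 < u) (hγu : 3 / γ ≤ u ^ 2) :
    exp (-(2 * γ + 32 * u * y ^ 4)) ≤ wt γ (round y) := by
  unfold wt
  split_ifs with h
  · have h2 := add_one_le_exp (2 * γ + 32 * u * y ^ 4)
    have h3 : 0 ≤ 32 * u * y ^ 4 := by positivity
    rw [exp_neg, inv_le_comm₀ (exp_pos _) (by linarith)]
    refine le_trans ?_ h2
    rw [inv_le_iff_one_le_mul₀ (by linarith)]
    nlinarith
  · set b := round y with hb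
    have h2 := abs_sub_round y
    rw [← hb] at h2
    have h3 : (1 : ℝ) ≤ |(b : ℝ)| := by
      have : 1 ≤ |b| := Int.one_le_abs h
      exact_mod_cast this
    have h4 : |(b : ℝ)| ≤ |y| + 1 / 2 := by
      have := abs_sub_abs_le_abs_sub (b : ℝ) y
      rw [abs_sub_comm] at this; linarith
    have h5 : 1 ≤ 2 * |y| := by linarith
    have h6 : |(b : ℝ)| ≤ 16 * y ^ 4 := by
      have h7 : y ^ 4 = |y| ^ 4 := by rw [← abs_pow]; exact (abs_of_nonneg (by positivity)).symm
      have h8 : 1 ≤ (2 * |y|) ^ 3 := one_le_pow₀ h5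
      rw [h7]; nlinarith
    have h9 : ((b.natAbs : ℕ) : ℝ) = |(b : ℝ)| := by
      rw [Nat.cast_natAbs]; simp
    have hlog : log (3 / γ) + 1 ≤ 2 * u := by
      have h10 : log (3 / γ) ≤ log (u ^ 2) := log_le_log (by positivity) hγu
      rw [log_pow] at h10
      have := log_le_sub_one_of_pos hu
      push_cast at h10; linarith
    have hl0 : 0 ≤ log (3 / γ) := log_nonneg (by rw [le_div_iff₀ h0]; linarith)
    have h11 : exp (-1) ≤ 1 / 2 := by
      rw [exp_neg, inv_le_comm₀ (exp_pos _) (by norm_num)]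
      have := add_one_le_exp 1
      norm_num at this ⊢; linarith
    calc _ ≤ exp (-(log (3 / γ) + b.natAbs)) := by
          apply exp_le_exp.2
          rw [h9]
          have : log (3 / γ) + |(b : ℝ)| ≤ (log (3 / γ) + 1) * |(b : ℝ)| := by nlinarith
          have : (log (3 / γ) + 1) * |(b : ℝ)| ≤ 2 * u * (16 * y ^ 4) := by gcongr
          linarith
      _ = γ / 3 * exp (-1) ^ b.natAbs := by
          rw [neg_add, exp_add, exp_neg, exp_log (by positivity), ← exp_nat_mul]
          congr 1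
          · simp
          · congr 1; ring
      _ ≤ _ := by gcongr

/-- partial colouring -/
theorem half_color {ι J : Type} [Fintype ι] [DecidableEq ι] [Fintype J] [DecidableEq J]
    (hn : 0 < Fintype.card ι) (hm : Fintype.card ι ≤ Fintype.card J) (v : J → ι → ℝ)
    (hv : ∀ j i, |v j i| ≤ 1) {T : ℝ} (hT0 : 0 < T)
    (hT : (Fintype.card ι : ℝ) * (Fintype.card J : ℝ) ^ 3 ≤ T ^ 8) :
    ∃ χ : ι → ℝ, (∀ i, χ i = 0 ∨ χ i = 1 ∨ χ i = -1) ∧
      8 * (univ.filter fun i => χ i = 0).card ≤ 7 * Fintype.card ι ∧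
      ∀ j, |∑ i, χ i * v j i| ≤ 25 * T := by
  set n : ℝ := (Fintype.card ι : ℝ) with hn'
  set m : ℝ := (Fintype.card J : ℝ) with hm'
  have hn0 : 0 < n := by rw [hn']; exact_mod_cast hn
  have hnm : n ≤ m := by rw [hn', hm']; exact_mod_cast hm
  have hm0 : 0 < m := by linarith
  set γ : ℝ := n / (100 * m) with hγ
  have hγ0 : 0 < γ := by positivity
  have hγ1 : γ ≤ 1 / 2 := by rw [hγ, div_le_iff₀ (by positivity)]; linarith
  set u : ℝ := 18 * T ^ 4 / (n * m) with hu
  have hu0 : 0 < u := by positivity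
  have hγu : 3 / γ ≤ u ^ 2 := by
    rw [hγ, hu, div_pow, div_div_eq_mul_div, div_le_div_iff₀ (by positivity) (by positivity)]
    have : (18 * T ^ 4) ^ 2 * n = 324 * n * T ^ 8 := by ring
    rw [this]
    have : 3 * (100 * m) * (n * m) ^ 2 = 300 * n * (n * m ^ 3) := by ring
    rw [this]
    have : 0 ≤ n * m ^ 3 := by positivity
    nlinarith
  let Xf : J → (ι → Bool) → ℝ := fun j x => ∑ i, sg (x i) * v j i
  let B : (ι → Bool) → (J → ℤ) := fun x j => round (Xf j x / (50 * T))
  have hcard : (Fintype.card (ι → Bool) : ℝ) = 2 ^ Fintype.card ι := by simp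
  obtain ⟨x0, hx0⟩ := bucket B (fun y => ∏ j, wt γ (y j))
    (fun y => prod_nonneg fun j _ => wt_nonneg hγ0.le (by linarith) _)
    (by
      have hsub : univ.image B ⊆ Fintype.piFinset fun j => univ.image fun x => B x j := by
        intro y hy
        obtain ⟨x, -, rfl⟩ := mem_image.1 hy
        rw [Fintype.mem_piFinset]
        exact fun j => mem_image.2 ⟨x, mem_univ _, rfl⟩
      refine (sum_le_sum_of_subset_of_nonneg hsub fun y _ _ =>
        prod_nonneg fun j _ => wt_nonneg hγ0.le (by linarith) _).trans ?_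
      rw [← prod_univ_sum (fun j => univ.image fun x => B x j) (fun _ b => wt γ b)]
      exact prod_le_one (fun j _ => sum_nonneg fun b _ => wt_nonneg hγ0.le (by linarith) _)
        fun j _ => sum_wt_le hγ0.le (by linarith) _)
    (fun x => ∑ j, (2 * γ + 32 * u * (Xf j x / (50 * T)) ^ 4)) (n / 30)
    (by
      intro x
      rw [← sum_neg_distrib, exp_sum]
      exact prod_le_prod (fun j _ => (exp_pos _).le) fun j _ => exp_le_wt hγ0 hγ1 hu0 hγu)
    (by
      rw [sum_comm, hcard]
      have h1 : ∀ j, ∑ x : ι → Bool, (2 * γ + 32 * u * (Xf j x / (50 * T)) ^ 4) ≤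
          (n / 30 / m) * 2 ^ Fintype.card ι := by
        intro j
        have h2 := fourth_moment (v j) (hv j) hn
        rw [← hn'] at h2
        have h8 : ∑ x : ι → Bool, (2 * γ + 32 * u * (Xf j x / (50 * T)) ^ 4) =
            2 ^ Fintype.card ι * (2 * γ) +
              32 * u * (∑ x : ι → Bool, Xf j x ^ 4) / (50 * T) ^ 4 := by
          rw [sum_add_distrib, sum_const, card_univ, nsmul_eq_mul, hcard, mul_sum, sum_div]
          congr 1
          refine sum_congr rfl fun x _ => ?_
          rw [div_pow]; ring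
        rw [h8]
        have h3 : 32 * u * (∑ x : ι → Bool, Xf j x ^ 4) / (50 * T) ^ 4 ≤
            32 * u * (80 * n ^ 2 * 2 ^ Fintype.card ι) / (50 * T) ^ 4 := by gcongr
        refine (add_le_add_right h3 _).trans ?_
        have h4 : 32 * u * (80 * n ^ 2 * 2 ^ Fintype.card ι) / (50 * T) ^ 4 =
            (46080 / 6250000) * (n / m) * 2 ^ Fintype.card ι := by
          rw [hu]; field_simp; norm_num
        have h5 : (2 : ℝ) ^ Fintype.card ι * (2 * γ) = (1 / 50) * (n / m) * 2 ^ Fintype.card ι := by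
          rw [hγ]; field_simp; norm_num
        have h6 : n / 30 / m = (1 / 30) * (n / m) := by field_simp
        rw [h4, h5, h6]
        have h7 : 0 ≤ n / m * 2 ^ Fintype.card ι := by positivity
        nlinarith
      refine (sum_le_sum fun j _ => h1 j).trans ?_
      rw [sum_const, card_univ, nsmul_eq_mul, ← hm']
      apply le_of_eq; field_simp)
  have hball := ball_le x0
  have hlt : (univ.filter fun y : ι → Bool =>
      8 * (univ.filter fun i => x0 i ≠ y i).card ≤ Fintype.card ι).card <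
      (univ.filter fun x => B x = B x0).card := by
    have h1 : (29 / 30 : ℝ) ^ Fintype.card ι ≤ exp (-(n / 30)) := by
      have : exp (-(n / 30)) = exp (-(1 / 30)) ^ Fintype.card ι := by
        rw [← exp_nat_mul]; congr 1; rw [hn']; ring
      rw [this]
      have := add_one_le_exp (-(1 / 30))
      gcongr; linarith
    have h2 : ((1 : ℝ) + (3 / 4) ^ 8) ^ Fintype.card ι <
        (2 * (29 / 30) * (3 / 4)) ^ Fintype.card ι :=
      pow_lt_pow_left₀ (by norm_num) (by positivity) hn.ne'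
    rw [mul_pow, mul_pow] at h2
    have h3 := lt_of_mul_lt_mul_right (hball.trans_lt h2) (by positivity)
    rw [hcard] at hx0
    have h4 : (2 : ℝ) ^ Fintype.card ι * (29 / 30) ^ Fintype.card ι ≤
        2 ^ Fintype.card ι * exp (-(n / 30)) := by gcongr
    exact_mod_cast h3.trans_le (h4.trans hx0)
  obtain ⟨y, hy1, hy2⟩ := exists_mem_notMem_of_card_lt_card hlt
  simp only [mem_filter, mem_univ, true_and, not_le] at hy1 hy2
  refine ⟨fun i => (sg (x0 i) - sg (y i)) / 2, ?_, ?_, ?_⟩
  · intro i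
    beta_reduce
    cases x0 i <;> cases y i <;> simp [sg] <;> norm_num
  · have h1 : (univ.filter fun i => (sg (x0 i) - sg (y i)) / 2 = 0) =
        univ.filter fun i => ¬ (x0 i ≠ y i) := by
      refine filter_congr fun i _ => ?_
      cases x0 i <;> cases y i <;> simp [sg] <;> norm_num
    have h2 := card_filter_add_card_filter_not (s := (univ : Finset ι)) (fun i => x0 i ≠ y i)
    rw [h1, card_univ] at *
    omega
  · intro j
    have h1 := congrFun hy1 j
    have h2 := abs_sub_round (Xf j y / (50 * T))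
    have h3 := abs_sub_round (Xf j x0 / (50 * T))
    simp only [B] at h1
    rw [h1] at h2
    have h4 : ∑ i, (sg (x0 i) - sg (y i)) / 2 * v j i =
        25 * T * (Xf j x0 / (50 * T) - Xf j y / (50 * T)) := by
      simp only [Xf]
      rw [← sub_div, ← sum_sub_distrib, ← mul_div_assoc, mul_sum, sum_div]
      refine sum_congr rfl fun i _ => ?_
      field_simp; ring
    rw [h4, abs_mul, abs_of_pos (by positivity : 0 < 25 * T)]
    have h5 : |Xf j x0 / (50 * T) - Xf j y / (50 * T)| ≤ 1 := by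
      rw [abs_le] at *; constructor <;> linarith [h2.1, h2.2, h3.1, h3.2]
    exact mul_le_of_le_one_right (by positivity) h5

end Vale.Agent.P110
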