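import Mathlib.Algebra.BigOperators.Ring.Finset
import Mathlib.Algebra.Order.BigOperators.Ring.Finset
import Mathlib.Data.Fintype.BigOperators
import Mathlib.Data.Real.Basic
import Mathlib.Tactic

/-! Random labellings: second moment bound. -/

set_option linter.unusedSectionVars false

namespace Vale.Agent.P110

open Finset

section ex

variable {ι Y : Type} [Fintype ι] [DecidableEq ι] [Fintype Y] [DecidableEq Y]

/-- expectation under independent labels with law `σ` -/
def Ex (σ : ι → ℝ) (f : (Y → ι) → ℝ) : ℝ := ∑ L : Y → ι, (∏ c, σ (L c)) * f L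

/-- indicator that all prescribed labels occur -/
def ind {J : Type} [Fintype J] (x : J → Y) (l : J → ι) (L : Y → ι) : ℝ :=
  ∏ j, if L (x j) = l j then 1 else 0

variable {σ : ι → ℝ}

theorem Ex_ind (hs : ∑ i, σ i = 1) {J : Type} [Fintype J] {x : J → Y} (hx : Function.Injective x)
    (l : J → ι) : Ex σ (ind x l) = ∏ j, σ (l j) := by
  unfold Ex ind
  have h1 : ∀ L : Y → ι, (∏ c, σ (L c)) * (∏ j, if L (x j) = l j then (1 : ℝ) else 0) =
      ∏ c, (σ (L c) * ∏ j ∈ univ.filter (fun j => x j = c), if L c = l j then (1 : ℝ) else 0) := by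
    intro L
    rw [prod_mul_distrib, ← prod_fiberwise univ x]
    congr 1
    refine prod_congr rfl fun c _ => prod_congr rfl fun j hj => ?_
    rw [(mem_filter.1 hj).2]
  simp only [h1]
  rw [← Fintype.piFinset_univ, ← prod_univ_sum (fun _ => univ) (fun c t =>
    σ t * ∏ j ∈ univ.filter (fun j => x j = c), if t = l j then (1 : ℝ) else 0),
    ← prod_fiberwise univ x]
  refine prod_congr rfl fun c _ => ?_
  by_cases h : ∃ j, x j = c
  · obtain ⟨j, rfl⟩ := h
    have : univ.filter (fun k => x k = x j) = {j} := by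
      ext k; simp [hx.eq_iff]
    rw [this]; simp
  · have : univ.filter (fun k => x k = c) = ∅ := by
      ext k; simpa using fun h' => h ⟨k, h'⟩
    rw [this]; simp [hs]

theorem Ex_const (hs : ∑ i, σ i = 1) (a : ℝ) : Ex σ (fun _ : Y → ι => a) = a := by
  have := Ex_ind (Y := Y) hs (J := Empty) (x := fun j => j.elim) (fun j => j.elim)
    (fun j => j.elim)
  unfold Ex ind at *
  simp only [univ_eq_empty, prod_empty, mul_one] at this
  rw [← sum_mul, this, one_mul]

theorem Ex_mono (h0 : ∀ i, 0 ≤ σ i) {f g : (Y → ι) → ℝ} (h : ∀ L, f L ≤ g L) :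
    Ex σ f ≤ Ex σ g :=
  sum_le_sum fun L _ => mul_le_mul_of_nonneg_left (h L) (prod_nonneg fun _ _ => h0 _)

theorem Ex_sum {A : Type} (s : Finset A) (f : A → (Y → ι) → ℝ) :
    Ex σ (fun L => ∑ a ∈ s, f a L) = ∑ a ∈ s, Ex σ (f a) := by
  unfold Ex
  simp only [mul_sum]
  exact sum_comm

theorem Ex_add (f g : (Y → ι) → ℝ) : Ex σ (fun L => f L + g L) = Ex σ f + Ex σ g := by
  unfold Ex
  simp only [mul_add, sum_add_distrib]

theorem Ex_mul (a : ℝ) (f : (Y → ι) → ℝ) : Ex σ (fun L => a * f L) = a * Ex σ f := by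
  unfold Ex
  rw [mul_sum]
  exact sum_congr rfl fun L _ => by ring

theorem exists_le_Ex [Nonempty ι] (h0 : ∀ i, 0 ≤ σ i) (hs : ∑ i, σ i = 1) (f : (Y → ι) → ℝ) :
    ∃ L, f L ≤ Ex σ f := by
  obtain ⟨L, -, hL⟩ := exists_min_image (univ : Finset (Y → ι)) f univ_nonempty
  refine ⟨L, ?_⟩
  rw [← Ex_const (Y := Y) hs (f L)]
  exact Ex_mono h0 fun L' => hL L' (mem_univ _)

theorem ind_nonneg {J : Type} [Fintype J] (x : J → Y) (l : J → ι) (L : Y → ι) :
    0 ≤ ind x l L := prod_nonneg fun _ _ => by split_ifs <;> norm_num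

theorem ind_le_one {J : Type} [Fintype J] (x : J → Y) (l : J → ι) (L : Y → ι) :
    ind x l L ≤ 1 := prod_le_one (fun _ _ => by split_ifs <;> norm_num)
      fun _ _ => by split_ifs <;> norm_num

theorem ind_eq {J : Type} [Fintype J] (x : J → Y) (l : J → ι) (L : Y → ι) :
    ind x l L = if ∀ j, L (x j) = l j then 1 else 0 := by
  unfold ind
  rw [prod_ite_zero]; simp

/-- number of internal coincidences -/
def cB {J : Type} [Fintype J] [DecidableEq J] (x : J → Y) : ℝ :=
  ∑ j, ∑ k, if j ≠ k ∧ x j = x k then 1 else 0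

/-- number of cross coincidences -/
def cC {J : Type} [Fintype J] (x y : J → Y) : ℝ := ∑ j, ∑ k, if x j = y k then 1 else 0

theorem cB_nonneg {J : Type} [Fintype J] [DecidableEq J] (x : J → Y) : 0 ≤ cB x :=
  sum_nonneg fun _ _ => sum_nonneg fun _ _ => by split_ifs <;> norm_num

theorem cC_nonneg {J : Type} [Fintype J] (x y : J → Y) : 0 ≤ cC x y :=
  sum_nonneg fun _ _ => sum_nonneg fun _ _ => by split_ifs <;> norm_num

theorem one_le_dsum {J : Type} [Fintype J] (p : J → J → Prop) [∀ j k, Decidable (p j k)]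
    {j k : J} (h : p j k) : (1 : ℝ) ≤ ∑ j, ∑ k, if p j k then 1 else 0 := by
  refine le_trans ?_ (single_le_sum (f := fun j => ∑ k, if p j k then (1 : ℝ) else 0)
    (fun _ _ => sum_nonneg fun _ _ => by split_ifs <;> norm_num) (mem_univ j))
  refine le_trans ?_ (single_le_sum (f := fun k => if p j k then (1 : ℝ) else 0)
    (fun _ _ => by split_ifs <;> norm_num) (mem_univ k))
  simp [h]

theorem cov_le (h0 : ∀ i, 0 ≤ σ i) (hs : ∑ i, σ i = 1) {J : Type} [Fintype J] [DecidableEq J]
    (x y : J → Y) (l : J → ι) :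
    Ex σ (fun L => (ind x l L - ∏ j, σ (l j)) * (ind y l L - ∏ j, σ (l j))) ≤
      cB x + cB y + cC x y := by
  have hB1 := cB_nonneg x
  have hB2 := cB_nonneg y
  have hC := cC_nonneg x y
  by_cases h : Function.Injective (Sum.elim x y)
  · have hx : Function.Injective x := fun a b hab =>
      Sum.inl_injective (h (a₁ := Sum.inl a) (a₂ := Sum.inl b) hab)
    have hy : Function.Injective y := fun a b hab =>
      Sum.inr_injective (h (a₁ := Sum.inr a) (a₂ := Sum.inr b) hab)
    have h1 := Ex_ind hs h (Sum.elim l l)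
    have h2 : ind (Sum.elim x y) (Sum.elim l l) = fun L => ind x l L * ind y l L := by
      funext L; unfold ind; rw [Fintype.prod_sum_type]; rfl
    rw [h2, Fintype.prod_sum_type] at h1
    simp only [Sum.elim_inl, Sum.elim_inr] at h1
    set π := ∏ j, σ (l j)
    have h3 : (fun L => (ind x l L - π) * (ind y l L - π)) =
        fun L => ind x l L * ind y l L + ((-π) * ind x l L + ((-π) * ind y l L + π * π)) := by
      funext L; ring
    rw [h3, Ex_add, Ex_add, Ex_add, Ex_mul, Ex_mul, Ex_const hs, h1, Ex_ind hs hx, Ex_ind hs hy]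
    linarith
  · have h1 : 1 ≤ cB x + cB y + cC x y := by
      rw [Function.not_injective_iff] at h
      obtain ⟨a, b, h1, h2⟩ := h
      rcases a with a | a <;> rcases b with b | b
      · have := one_le_dsum (fun j k => j ≠ k ∧ x j = x k) (j := a) (k := b)
          ⟨fun h => h2 (by rw [h]), h1⟩
        unfold cB at *; linarith
      · have := one_le_dsum (fun j k => x j = y k) (j := a) (k := b) h1
        unfold cC at *; linarith
      · have := one_le_dsum (fun j k => x j = y k) (j := b) (k := a) h1.symm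
        unfold cC at *; linarith
      · have := one_le_dsum (fun j k => j ≠ k ∧ y j = y k) (j := a) (k := b)
          ⟨fun h => h2 (by rw [h]), h1⟩
        unfold cB at *; linarith
    refine le_trans ?_ h1
    rw [← Ex_const (Y := Y) hs 1]
    refine Ex_mono h0 fun L => ?_
    have p0 : 0 ≤ ∏ j, σ (l j) := prod_nonneg fun _ _ => h0 _
    have p1 : ∏ j, σ (l j) ≤ 1 := prod_le_one (fun _ _ => h0 _) fun j _ =>
      hs ▸ single_le_sum (fun i _ => h0 i) (mem_univ _)
    nlinarith [ind_nonneg x l L, ind_le_one x l L, ind_nonneg y l L, ind_le_one y l L]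

theorem second_moment (h0 : ∀ i, 0 ≤ σ i) (hs : ∑ i, σ i = 1) {J A : Type} [Fintype J]
    [DecidableEq J] (s : Finset A) (x : A → J → Y) (l : J → ι) :
    Ex σ (fun L => (∑ a ∈ s, ind (x a) l L - s.card * ∏ j, σ (l j)) ^ 2) ≤
      2 * s.card * ∑ a ∈ s, cB (x a) + ∑ a ∈ s, ∑ b ∈ s, cC (x a) (x b) := by
  have h1 : (fun L => (∑ a ∈ s, ind (x a) l L - s.card * ∏ j, σ (l j)) ^ 2) =
      fun L => ∑ a ∈ s, ∑ b ∈ s,
        (ind (x a) l L - ∏ j, σ (l j)) * (ind (x b) l L - ∏ j, σ (l j)) := by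
    funext L
    rw [← sum_mul_sum, sum_sub_distrib, sum_const, nsmul_eq_mul, sq]
  rw [h1, Ex_sum]
  simp only [Ex_sum]
  refine (sum_le_sum fun a _ => sum_le_sum fun b _ => cov_le h0 hs (x a) (x b) l).trans ?_
  simp only [sum_add_distrib, sum_const, nsmul_eq_mul, ← mul_sum]
  linarith

end ex

end Vale.Agent.P110
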